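import Vale.Agent.P097N.Defs

/-!
# P097N: the even part of a map tangent to the identity to third order
-/

set_option linter.all false

noncomputable section

namespace Vale.Agent.P097N

open Filter Topology Set Metric

theorem seven : SEven := by
  intro f r κ hr hκ hd hb s hs
  have b : ∀ z : ℂ, ‖z‖ < r → ‖f z + f (-z)‖ ≤ 2 * κ * ‖z‖ ^ 3 := fun z hz => by
    have h1 := hb z hz
    have h2 := hb (-z) (by rwa [norm_neg])
    have := norm_add_le (f z - z) (f (-z) - -z)
    rw [norm_neg] at h2
    rw [show f z - z + (f (-z) - -z) = f z + f (-z) by ring] at this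
    linarith
  rcases eq_or_ne s 0 with rfl | s0
  · simpa using b 0 hs
  have b' : ∀ z : ℂ, ‖z‖ < r → ‖(f z + f (-z)) / z ^ 3‖ ≤ 2 * κ := fun z hz => by
    rw [norm_div, norm_pow]
    exact div_le_of_le_mul₀ (by positivity) (by positivity) (b z hz)
  obtain ⟨H, hH, e⟩ : ∃ H : ℂ → ℂ, DifferentiableOn ℂ H (ball 0 r) ∧
      ∀ z ≠ 0, H z = (f z + f (-z)) / z ^ 3 := by
    refine ⟨_, Complex.differentiableOn_update_limUnder_of_bddAbove (ball_mem_nhds 0 hr)
      (f := fun z => (f z + f (-z)) / z ^ 3) (fun z hz => ?_) ⟨2 * κ, ?_⟩,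
      fun z hz => Function.update_of_ne hz _ _⟩
    · have z0 : z ≠ 0 := hz.2
      have z1 := mem_ball_zero_iff.1 hz.1
      exact (((hd z z0 z1).add ((hd (-z) (neg_ne_zero.2 z0) (by rwa [norm_neg])).comp z
        differentiableAt_id.neg)).div (differentiableAt_pow 3) (pow_ne_zero 3 z0)).differentiableWithinAt
    · rintro _ ⟨z, hz, rfl⟩
      exact b' z (mem_ball_zero_iff.1 hz.1)
  have c := (hH.differentiableAt (ball_mem_nhds 0 hr)).continuousAt
  have H0 : H 0 = 0 := by
    have t : Tendsto (fun z => H z + H (-z)) (𝓝[≠] 0) (𝓝 (H 0 + H (-0))) :=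
      (c.add (ContinuousAt.comp (by rwa [neg_zero]) continuous_neg.continuousAt)).mono_left
        nhdsWithin_le_nhds
    have := tendsto_nhds_unique t (tendsto_const_nhds.congr' (eventually_nhdsWithin_of_forall
      fun z (hz : z ≠ 0) => show (0 : ℂ) = H z + H (-z) by
        rw [e z hz, e _ (neg_ne_zero.2 hz), neg_neg]; ring))
    rwa [neg_zero, add_self_eq_zero] at this
  have := Complex.dist_le_div_mul_dist_of_mapsTo_ball hH (R₂ := 2 * κ) (fun z hz => by
    rw [H0, mem_closedBall_zero_iff]
    rcases eq_or_ne z 0 with rfl | z0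
    · rw [H0, norm_zero]
      positivity
    · exact e z z0 ▸ b' z (mem_ball_zero_iff.1 hz)) (mem_ball_zero_iff.2 hs)
  rw [H0, dist_zero_right, dist_zero_right, e s s0, norm_div, norm_pow,
    div_le_iff₀ (by positivity)] at this
  exact this.trans_eq (by ring)

end Vale.Agent.P097N
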