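import Vale.Agent.P097N.Defs

/-!
# P097N: the holomorphic root of a perturbed linear equation
-/

set_option linter.all false

noncomputable section

namespace Vale.Agent.P097N

open Filter Topology Set Metric

namespace Root

/-- the analytic implicit function theorem -/
theorem imp {f : ℂ × ℂ → ℂ} {p x : ℂ} (hf : AnalyticAt ℂ f (p, x))
    (h : fderiv ℂ f (p, x) (0, 1) ≠ 0) :
    ∃ ψ : ℂ → ℂ, AnalyticAt ℂ ψ p ∧ ψ p = x ∧
      ∀ᶠ v in 𝓝 (p, x), f v = f (p, x) ↔ ψ v.1 = v.2 := by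
  have c : ContDiffAt ℂ ⊤ f (p, x) := hf.contDiffAt
  have i : (fderiv ℂ f (p, x) ∘L .inr ℂ ℂ ℂ).IsInvertible :=
    ⟨ContinuousLinearEquiv.unitsEquivAut ℂ (Units.mk0 _ h), by ext; simp⟩
  exact ⟨c.implicitFunction (by simp) i,
    (c.contDiffAt_implicitFunction (by simp) i).analyticAt,
    c.implicitFunction_apply_self (by simp) i,
    c.eventually_apply_eq_iff_implicitFunction (by simp) i⟩

variable {ψ : ℂ → ℂ} {m : ℂ} {τ : ℝ}

theorem der (hτ : 0 < τ) (hd : DifferentiableOn ℂ ψ (ball m τ))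
    (hb : ∀ c ∈ ball m τ, ‖ψ c‖ ≤ τ / 8) {c : ℂ} (hc : c ∈ ball m (τ / 2)) :
    ‖deriv ψ c‖ ≤ 1 / 4 := by
  have hs : closedBall c (τ / 2) ⊆ ball m τ :=
    closedBall_subset_ball' (by have := mem_ball.1 hc; linarith)
  have := Complex.norm_deriv_le_of_forall_mem_sphere_norm_le (C := τ / 8) (half_pos hτ)
    (hd.diffContOnCl_ball hs) (fun z hz => hb z (hs (sphere_subset_closedBall hz)))
  refine this.trans (le_of_eq ?_)
  field_simp
  norm_num

theorem lip (hτ : 0 < τ) (hd : DifferentiableOn ℂ ψ (ball m τ))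
    (hb : ∀ c ∈ ball m τ, ‖ψ c‖ ≤ τ / 8) {c c' : ℂ} (hc : c ∈ ball m (τ / 2))
    (hc' : c' ∈ ball m (τ / 2)) : ‖ψ c' - ψ c‖ ≤ 1 / 4 * ‖c' - c‖ :=
  (convex_ball m (τ / 2)).norm_image_sub_le_of_norm_deriv_le
    (fun x hx => hd.differentiableAt
      (isOpen_ball.mem_nhds (ball_subset_ball (by linarith) hx)))
    (fun x hx => der hτ hd hb hx) hc hc'

theorem fix (hτ : 0 < τ) (hd : DifferentiableOn ℂ ψ (ball m τ))
    (hb : ∀ c ∈ ball m τ, ‖ψ c‖ ≤ τ / 8) :
    ∃ c, ψ c + (c - m) = 0 ∧ ‖c - m‖ ≤ τ / 8 ∧ ‖c - m‖ ≤ 2 * ‖ψ m‖ ∧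
      ∀ c', ‖c' - m‖ < τ / 2 → ψ c' + (c' - m) = 0 → c' = c := by
  have s1 : closedBall m (τ / 8) ⊆ ball m (τ / 2) := closedBall_subset_ball (by linarith)
  have s2 : ball m (τ / 2) ⊆ ball m τ := ball_subset_ball (by linarith)
  have hm : MapsTo (fun c => m - ψ c) (closedBall m (τ / 8)) (closedBall m (τ / 8)) := by
    intro c hc
    rw [mem_closedBall, dist_eq_norm, sub_sub_cancel_left, norm_neg]
    exact hb c (s2 (s1 hc))
  have hK : ContractingWith (1 / 4 : NNReal) (hm.restrict _ _ _) := by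
    refine ⟨by norm_num, LipschitzWith.of_dist_le_mul fun x y => ?_⟩
    have := lip hτ hd hb (s1 y.2) (s1 x.2)
    rw [Subtype.dist_eq, Subtype.dist_eq, MapsTo.val_restrict_apply, MapsTo.val_restrict_apply,
      dist_eq_norm, dist_eq_norm, sub_sub_sub_cancel_left, norm_sub_rev]
    simpa using this
  obtain ⟨c, hc, hf, -⟩ := ContractingWith.exists_fixedPoint' isClosed_closedBall.isComplete hm hK
    (mem_closedBall_self (by linarith)) (edist_ne_top _ _)
  have e : ψ c + (c - m) = 0 := by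
    have : m - ψ c = c := hf
    linear_combination -this
  refine ⟨c, e, by simpa [dist_eq_norm] using hc, ?_, fun c' h1 h2 => ?_⟩
  · have k := lip hτ hd hb (mem_ball_self (half_pos hτ)) (s1 hc)
    have k2 : ‖c - m‖ ≤ ‖ψ c - ψ m‖ + ‖ψ m‖ := by
      have : c - m = -((ψ c - ψ m) + ψ m) := by linear_combination e
      rw [this, norm_neg]
      exact norm_add_le _ _
    have := norm_nonneg (ψ m)
    linarith
  · have k := lip hτ hd hb (s1 hc) (c' := c') (by simpa [dist_eq_norm] using h1)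
    have k2 : ψ c' - ψ c = -(c' - c) := by linear_combination h2 - e
    rw [k2, norm_neg] at k
    have := norm_nonneg (c' - c)
    exact sub_eq_zero.1 (norm_eq_zero.1 (by linarith))

end Root

open Root in
theorem sroot : SRoot := by
  intro Φ X a b τ hX hτ ha hb h1 h2
  have dψ : ∀ x ∈ X, DifferentiableOn ℂ
      (fun c => Φ (b x, c) + Φ (b x, a x) - (c - (2 * b x - a x))) (ball (2 * b x - a x) τ) := by
    intro x hx c hc
    have k : AnalyticAt ℂ (fun c : ℂ => Φ (b x, c)) c :=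
      AnalyticAt.comp (g := Φ) (f := fun c : ℂ => (b x, c)) (h2 x hx c hc).1
        (analyticAt_const.prod analyticAt_id)
    exact ((k.differentiableAt.add_const _).sub
      (differentiableAt_id.sub_const _)).differentiableWithinAt
  have H : ∀ x, ∃ c, x ∈ X → Φ (b x, c) + Φ (b x, a x) = 0 ∧
      ‖c - (2 * b x - a x)‖ ≤ τ / 8 ∧
      ‖c - (2 * b x - a x)‖ ≤ 2 * ‖Φ (b x, 2 * b x - a x) + Φ (b x, a x)‖ ∧
      ∀ c', ‖c' - (2 * b x - a x)‖ < τ / 2 → Φ (b x, c') + Φ (b x, a x) = 0 → c' = c := by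
    intro x
    by_cases hx : x ∈ X
    · obtain ⟨c, e1, e2, e3, e4⟩ := fix hτ (dψ x hx) (fun c hc => (h2 x hx c hc).2)
      refine ⟨c, fun _ => ⟨by simpa using e1, e2, by simpa using e3, fun c' k1 k2 => ?_⟩⟩
      exact e4 c' k1 (by simpa using k2)
    · exact ⟨0, fun h => absurd h hx⟩
  choose c hc using H
  refine ⟨c, fun x hx => ?_, hc⟩
  obtain ⟨e1, e2, -, -⟩ := hc x hx
  have aa : AnalyticAt ℂ a x := ha.analyticAt (hX.mem_nhds hx)
  have ab : AnalyticAt ℂ b x := hb.analyticAt (hX.mem_nhds hx)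
  have m1 : c x ∈ ball (2 * b x - a x) (τ / 2) := by
    rw [mem_ball, dist_eq_norm]; linarith
  have m2 : c x ∈ ball (2 * b x - a x) τ := ball_subset_ball (by linarith) m1
  have af : AnalyticAt ℂ (fun q : ℂ × ℂ => Φ (b q.1, q.2) + Φ (b q.1, a q.1)) (x, c x) := by
    have b1 : AnalyticAt ℂ (fun q : ℂ × ℂ => b q.1) (x, c x) :=
      AnalyticAt.comp (g := b) (f := Prod.fst) ab analyticAt_fst
    have a1 : AnalyticAt ℂ (fun q : ℂ × ℂ => a q.1) (x, c x) :=
      AnalyticAt.comp (g := a) (f := Prod.fst) aa analyticAt_fst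
    exact (AnalyticAt.comp (g := Φ) (f := fun q : ℂ × ℂ => (b q.1, q.2)) (h2 x hx _ m2).1
      (b1.prod analyticAt_snd)).add
      (AnalyticAt.comp (g := Φ) (f := fun q : ℂ × ℂ => (b q.1, a q.1)) (h1 x hx) (b1.prod a1))
  have hne : fderiv ℂ (fun q : ℂ × ℂ => Φ (b q.1, q.2) + Φ (b q.1, a q.1)) (x, c x) (0, 1) ≠ 0 := by
    intro h0
    have k1 : HasDerivAt (fun y => Φ (b x, y) + Φ (b x, a x)) 0 (c x) := by
      have := af.differentiableAt.hasFDerivAt.comp_hasDerivAt (c x)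
        ((hasDerivAt_const (c x) x).prodMk (hasDerivAt_id (c x)))
      rw [h0] at this
      exact this
    have k2 := (k1.sub ((hasDerivAt_id (c x)).sub_const (2 * b x - a x))).deriv
    have k3 := der hτ (dψ x hx) (fun c hc => (h2 x hx c hc).2) m1
    have k4 : deriv (fun c => Φ (b x, c) + Φ (b x, a x) - (c - (2 * b x - a x))) (c x) = 0 - 1 := k2
    rw [k4] at k3
    norm_num at k3
  obtain ⟨ψ, aψ, ψ0, hψ⟩ := imp af hne
  have t1 : Tendsto (fun y => (y, ψ y)) (𝓝 x) (𝓝 (x, c x)) := by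
    have := (analyticAt_id.prod aψ).continuousAt.tendsto
    simpa [ψ0] using this
  have t2 : ContinuousAt (fun y => ‖ψ y - (2 * b y - a y)‖) x :=
    (aψ.continuousAt.sub ((continuousAt_const.mul ab.continuousAt).sub aa.continuousAt)).norm
  have t3 : ∀ᶠ y in 𝓝 x, ‖ψ y - (2 * b y - a y)‖ < τ / 2 :=
    t2.eventually_lt continuousAt_const (by simp only [ψ0]; linarith)
  have t4 : c =ᶠ[𝓝 x] ψ := by
    filter_upwards [t1.eventually hψ, t3, hX.mem_nhds hx] with y k1 k2 k3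
    exact ((hc y k3).2.2.2 _ k2 ((k1.2 rfl).trans e1)).symm
  exact (aψ.differentiableAt.congr_of_eventuallyEq t4).differentiableWithinAt

end Vale.Agent.P097N
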