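import Vale.Agent.P097N.Defs

/-!
# P097N: chains from the real axis up to the top line
-/

set_option linter.all false

noncomputable section

namespace Vale.Agent.P097N

open Filter Topology Set Metric

namespace Up

/-- one step of the chain, at one point -/
theorem loc (hE : SEven) {Φ : ℂ × ℂ → ℂ} {r₀ c₁ η D : ℝ} {w a b p : ℂ} (hΦ : Crit Φ r₀ c₁)
    (hc : 0 < c₁) (hη : 4 * η ≤ r₀) (hw : 0 < ‖w‖) (hD : D = r₀ - p.im) (hp : -η < p.im)
    (hb : ‖b - p‖ ≤ D / 16) (hr : 12 * ‖w‖ ≤ c₁ * D) (ha : ‖b - a - w‖ ≤ ‖w‖ / 16) :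
    AnalyticAt ℂ Φ (b, a) ∧ (∀ c ∈ ball (2 * b - a) (‖w‖ / 4), AnalyticAt ℂ Φ (b, c) ∧
      ‖Φ (b, c) + Φ (b, a) - (c - (2 * b - a))‖ ≤ ‖w‖ / 4 / 8) ∧
      2 * ‖Φ (b, 2 * b - a) + Φ (b, a)‖ ≤ 64 * ‖w‖ ^ 4 / (c₁ * D) ^ 3 := by
  have D0 : 0 < D := (mul_pos_iff_of_pos_left hc).1 (by linarith)
  have i1 := abs_le.1 ((Complex.abs_im_le_norm _).trans hb)
  rw [Complex.sub_im] at i1
  have i2 : |b.im| ≤ r₀ - D / 2 := abs_le.2 ⟨by linarith, by linarith⟩
  obtain ⟨h1, h2⟩ := hΦ b (show |b.im| < r₀ by linarith)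
  set r := c₁ * (r₀ - |b.im|) with hr'
  have r1 : c₁ * D / 2 ≤ r := by nlinarith
  have key : ∀ c : ℂ, ‖w‖ / 2 ≤ ‖c - b‖ → ‖c - b‖ ≤ 3 / 2 * ‖w‖ →
      AnalyticAt ℂ Φ (b, c) ∧ ‖Φ (b, c) - (c - b)‖ ≤ ‖w‖ / 64 := fun c k1 k2 => by
    refine ⟨h1 c (sub_ne_zero.1 (norm_pos_iff.1 (by linarith))) (by linarith),
      (h2 c (by linarith)).trans ?_⟩
    calc ‖c - b‖ ^ 3 / (8 * r ^ 2) ≤ (3 / 2 * ‖w‖) ^ 3 / (8 * (6 * ‖w‖) ^ 2) := by
          gcongr
          linarith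
      _ = 3 / 256 * ‖w‖ := by field_simp; ring
      _ ≤ _ := by linarith
  have n1 : ∀ u : ℂ, ‖u - w‖ ≤ ‖w‖ / 2 → ‖w‖ / 2 ≤ ‖u‖ ∧ ‖u‖ ≤ 3 / 2 * ‖w‖ := fun u hu => by
    have := abs_le.1 ((abs_norm_sub_norm_le u w).trans hu)
    constructor <;> linarith
  have n2 := n1 (b - a) (by linarith)
  have ka := key a (by rw [norm_sub_rev]; exact n2.1) (by rw [norm_sub_rev]; exact n2.2)
  refine ⟨ka.1, fun c hc => ?_, ?_⟩
  · rw [mem_ball, dist_eq_norm] at hc
    have n3 := n1 (c - b) (by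
      have := norm_add_le (c - (2 * b - a)) (b - a - w)
      rw [show c - (2 * b - a) + (b - a - w) = c - b - w by ring] at this
      linarith)
    have kc := key c n3.1 n3.2
    refine ⟨kc.1, ?_⟩
    have := norm_add_le (Φ (b, c) - (c - b)) (Φ (b, a) - (a - b))
    rw [show Φ (b, c) - (c - b) + (Φ (b, a) - (a - b)) =
      Φ (b, c) + Φ (b, a) - (c - (2 * b - a)) by ring] at this
    linarith [kc.2, ka.2]
  · have r0 : 0 < r := by linarith
    have := hE (fun s => Φ (b, b + s)) r (1 / (8 * r ^ 2)) r0 (by positivity)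
      (fun s s0 hs => (h1 (b + s) (by simpa using s0) (by simpa using hs)).differentiableAt.comp s
        (by fun_prop)) (fun s hs => by
        have := h2 (b + s) (by simpa using hs)
        rw [add_sub_cancel_left] at this
        exact this.trans_eq (by ring)) (b - a) (by linarith)
    rw [show b + (b - a) = 2 * b - a by ring, show b + -(b - a) = a by ring] at this
    have p0 : 0 < c₁ * D := by positivity
    calc _ ≤ 2 * (2 * (1 / (8 * r ^ 2)) * ‖b - a‖ ^ 4 / r) := by linarith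
      _ = ‖b - a‖ ^ 4 / (2 * r ^ 3) := by field_simp; ring
      _ ≤ (2 * ‖w‖) ^ 4 / (2 * (c₁ * D / 2) ^ 3) := by
          gcongr
          linarith
      _ = _ := by field_simp; ring

theorem numB {o v D c B : ℝ} (ho : 0 < o) (hv : o ≤ 2 * v) (hD : 0 < D) (hc : 0 < c)
    (hB : 64 / c ^ 3 ≤ B) :
    64 * o ^ 4 / (c * (D + v)) ^ 3 + B * o ^ 3 / (D + v) ^ 2 ≤ B * o ^ 3 / D ^ 2 := by
  have v0 : 0 < v := by linarith
  have B0 : 0 < B := lt_of_lt_of_le (by positivity) hB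
  have h1 : 64 * o ^ 4 / (c * (D + v)) ^ 3 ≤ B * o ^ 3 * (o / (D + v) ^ 3) :=
    calc _ = 64 / c ^ 3 * o ^ 3 * (o / (D + v) ^ 3) := by field_simp
      _ ≤ _ := by gcongr
  have h2 : o / (D + v) ^ 3 + 1 / (D + v) ^ 2 ≤ 1 / D ^ 2 := by
    rw [show o / (D + v) ^ 3 + 1 / (D + v) ^ 2 = (o + (D + v)) / (D + v) ^ 3 by field_simp,
      div_le_div_iff₀ (by positivity) (by positivity)]
    have : 0 < D * v ^ 2 := by positivity
    have : 0 < v ^ 3 := by positivity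
    have : o * D ^ 2 ≤ 2 * v * D ^ 2 := by gcongr
    have : 0 < v * D ^ 2 := by positivity
    nlinarith
  calc _ ≤ B * o ^ 3 * (o / (D + v) ^ 3 + 1 / (D + v) ^ 2) := by
        rw [mul_add (B * o ^ 3), mul_one_div]
        linarith
    _ ≤ B * o ^ 3 * (1 / D ^ 2) := by gcongr
    _ = _ := by ring

theorem numA {o v D B A : ℝ} (ho : 0 < o) (hv : o ≤ 2 * v) (hD : v ≤ D) (hB : 0 ≤ B)
    (hA : 4 * B ≤ A) : B * o ^ 3 / D ^ 2 + A * o ^ 2 / (D + v) ≤ A * o ^ 2 / D := by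
  have v0 : 0 < v := by linarith
  have D0 : 0 < D := by linarith
  have A0 : 0 ≤ A := by linarith
  have h2 : o / 4 / D ^ 2 + 1 / (D + v) ≤ 1 / D := by
    rw [div_add_div _ _ (by positivity) (by positivity), div_le_div_iff₀ (by positivity) D0]
    have : o / 4 * (D + v) ≤ 2 * v / 4 * (D + D) := by gcongr
    nlinarith [mul_le_mul_of_nonneg_right this D0.le]
  calc _ ≤ A / 4 * o ^ 3 / D ^ 2 + A * o ^ 2 / (D + v) := by
        gcongr
        linarith
    _ = A * o ^ 2 * (o / 4 / D ^ 2 + 1 / (D + v)) := by ring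
    _ ≤ A * o ^ 2 * (1 / D) := by gcongr
    _ = _ := by ring

/-- The strip `a < im x < b`. -/
def DT (a b : ℝ) : Set ℂ := {x | a < x.im ∧ x.im < b}

theorem isOpen_DT (a b : ℝ) : IsOpen (DT a b) :=
  (isOpen_lt continuous_const Complex.continuous_im).inter
    (isOpen_lt Complex.continuous_im continuous_const)

/-- The invariant of the induction. -/
structure Inv (Φ : ℂ × ℂ → ℂ) (w : ℂ) (y : ℂ → ℂ) (r₀ η A B T : ℝ) (z : ℂ → ℂ) : Prop where
  d : DifferentiableOn ℂ z (DT (-η) T)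
  e : EqOn z y (St η)
  a : ∀ x ∈ DT (-η) T, ‖z x - x‖ ≤ A * ‖w‖ ^ 2 / (r₀ - x.im)
  b : ∀ x ∈ DT (-η) T, x - w ∈ DT (-η) T →
    ‖z x - z (x - w) - w‖ ≤ B * ‖w‖ ^ 3 / (r₀ - x.im) ^ 2
  l : ∀ x, x - w ∈ DT (-η) T → x + w ∈ DT (-η) T →
    Φ (z x, z (x + w)) + Φ (z x, z (x - w)) = 0

theorem step (hR : SRoot) (hE : SEven) {Φ : ℂ × ℂ → ℂ} {r₀ c₁ c₂ η A B T T' : ℝ} {w : ℂ}
    {y z : ℂ → ℂ} (hΦ : Crit Φ r₀ c₁) (hc : 0 < c₁) (hη : 4 * η ≤ r₀) (c0 : 0 < c₂)
    (c1 : c₂ ≤ 1 / 2) (c2 : c₂ ≤ c₁ / 12) (c3 : A * c₂ ^ 2 ≤ 1 / 16) (hB : 64 / c₁ ^ 3 ≤ B)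
    (hA : 4 * B ≤ A) (w0 : 0 < w.im) (w1 : ‖w‖ ≤ 2 * w.im) (w2 : ‖w‖ ≤ c₂ * η) (T0 : η ≤ T)
    (T1 : T' ≤ T + w.im) (T2 : T' ≤ r₀ - ‖w‖ / c₂) (H : Inv Φ w y r₀ η A B T z) :
    ∃ z', Inv Φ w y r₀ η A B T' z' := by
  have w3 : w.im ≤ ‖w‖ := (le_abs_self _).trans (Complex.abs_im_le_norm w)
  have o0 : 0 < ‖w‖ := by linarith
  have η0 : 0 < η := (mul_pos_iff_of_pos_left c0).1 (by linarith)
  have w4 : 2 * ‖w‖ ≤ η := by nlinarith
  have B0 : 0 < B := lt_of_lt_of_le (by positivity) hB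
  have dep : ∀ x : ℂ, x.im < T' → ‖w‖ ≤ c₂ * (r₀ - x.im) := fun x hx => by
    have : ‖w‖ / c₂ ≤ r₀ - x.im := by linarith
    rwa [div_le_iff₀' c0] at this
  have dp0 : ∀ x : ℂ, x.im < T' → 2 * ‖w‖ ≤ r₀ - x.im := fun x hx => by
    have h1 := dep x hx
    have h2 : 0 < r₀ - x.im := (mul_pos_iff_of_pos_left c0).1 (by linarith)
    nlinarith
  have sA : ∀ x : ℂ, x.im < T' → A * ‖w‖ ^ 2 / (r₀ - x.im) ≤ (r₀ - x.im) / 16 := fun x hx => by
    have h1 := dep x hx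
    have h2 : 0 < r₀ - x.im := by linarith [dp0 x hx]
    calc _ ≤ A * (c₂ * (r₀ - x.im)) ^ 2 / (r₀ - x.im) := by
          gcongr
          linarith
      _ = A * c₂ ^ 2 * (r₀ - x.im) := by field_simp
      _ ≤ _ := by nlinarith
  have sB : ∀ x : ℂ, x.im < T' → B * ‖w‖ ^ 3 / (r₀ - x.im) ^ 2 ≤ ‖w‖ / 64 := fun x hx => by
    have h1 := dep x hx
    have h2 : 0 < r₀ - x.im := by linarith [dp0 x hx]
    calc _ = B * ‖w‖ ^ 2 * ‖w‖ / (r₀ - x.im) ^ 2 := by ring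
      _ ≤ B * (c₂ * (r₀ - x.im)) ^ 2 * ‖w‖ / (r₀ - x.im) ^ 2 := by gcongr
      _ = B * c₂ ^ 2 * ‖w‖ := by field_simp
      _ ≤ _ := by nlinarith [mul_le_mul_of_nonneg_right hA (sq_nonneg c₂)]
  set X := DT (-η + 2 * w.im) T' with hX
  have m1 : ∀ x ∈ X, x - w ∈ DT (-η) T := fun x hx =>
    ⟨by simp only [Complex.sub_im]; linarith [hx.1], by simp only [Complex.sub_im]; linarith [hx.2]⟩
  have m2 : ∀ x ∈ X, x - w - w ∈ DT (-η) T := fun x hx =>
    ⟨by simp only [Complex.sub_im]; linarith [hx.1], by simp only [Complex.sub_im]; linarith [hx.2]⟩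
  have m3 : ∀ x ∈ X, (x - w).im < T' := fun x hx => by
    simp only [Complex.sub_im]; linarith [hx.2]
  have b1 : ∀ x ∈ X, ‖z (x - w) - z (x - w - w) - w‖ ≤ ‖w‖ / 64 := fun x hx =>
    (H.b _ (m1 x hx) (m2 x hx)).trans (sB _ (m3 x hx))
  have L := fun x (hx : x ∈ X) => loc hE (a := z (x - w - w)) (b := z (x - w)) hΦ hc hη o0 rfl
    (m1 x hx).1 ((H.a _ (m1 x hx)).trans (sA _ (m3 x hx)))
    (by nlinarith [dep _ (m3 x hx), dp0 _ (m3 x hx)]) (by linarith [b1 x hx])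
  obtain ⟨c, hcd, hc'⟩ := hR Φ X (fun x => z (x - w - w)) (fun x => z (x - w)) (‖w‖ / 4)
    (isOpen_DT _ _) (by linarith) (H.d.comp (by fun_prop) m2) (H.d.comp (by fun_prop) m1)
    (fun x hx => (L x hx).1) fun x hx => (L x hx).2.1
  have ov : ∀ x ∈ X, x ∈ DT (-η) T → z x = c x := fun x hx hx' => by
    refine (hc' x hx).2.2.2 _ ?_ (by
      simpa only [sub_add_cancel] using H.l (x - w) (m2 x hx) (by rwa [sub_add_cancel]))
    have := norm_sub_le (z x - z (x - w) - w) (z (x - w) - z (x - w - w) - w)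
    rw [show z x - z (x - w) - w - (z (x - w) - z (x - w - w) - w) =
      z x - (2 * z (x - w) - z (x - w - w)) by ring] at this
    linarith [b1 x hx, (H.b x hx' (m1 x hx)).trans (sB x hx.2)]
  have cov : ∀ x ∈ DT (-η) T', x ∉ DT (-η) T → x ∈ X := fun x hx hx' =>
    ⟨by linarith [not_lt.1 fun h => hx' ⟨hx.1, h⟩], hx.2⟩
  have nB : ∀ x ∈ X, ‖c x - z (x - w) - w‖ ≤ B * ‖w‖ ^ 3 / (r₀ - x.im) ^ 2 := fun x hx => by
    have h1 := (hc' x hx).2.2.1.trans (L x hx).2.2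
    have h2 := H.b _ (m1 x hx) (m2 x hx)
    have := norm_add_le (c x - (2 * z (x - w) - z (x - w - w))) (z (x - w) - z (x - w - w) - w)
    rw [show c x - (2 * z (x - w) - z (x - w - w)) + (z (x - w) - z (x - w - w) - w) =
      c x - z (x - w) - w by ring] at this
    rw [show r₀ - (x - w).im = r₀ - x.im + w.im by simp only [Complex.sub_im]; ring] at h1 h2
    linarith [numB o0 w1 (show 0 < r₀ - x.im by linarith [dp0 x hx.2]) hc hB]
  classical
  let z' : ℂ → ℂ := fun x => if x ∈ DT (-η) T then z x else c x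
  have e1 : ∀ x ∈ DT (-η) T, z' x = z x := fun x hx => if_pos hx
  have e2 : ∀ x ∈ X, z' x = c x := fun x hx => by
    by_cases h : x ∈ DT (-η) T
    exacts [(e1 x h).trans (ov x hx h), if_neg h]
  refine ⟨z', fun x hx => ?_, fun x hx => ?_, fun x hx => ?_, fun x hx hx' => ?_,
    fun x hx hx' => ?_⟩
  · by_cases h : x ∈ DT (-η) T
    · exact ((H.d.differentiableAt ((isOpen_DT _ _).mem_nhds h)).congr_of_eventuallyEq
        (eventually_of_mem ((isOpen_DT _ _).mem_nhds h) e1)).differentiableWithinAt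
    · have m := (isOpen_DT _ _).mem_nhds (cov x hx h)
      exact ((hcd.differentiableAt m).congr_of_eventuallyEq
        (eventually_of_mem m e2)).differentiableWithinAt
  · have := abs_lt.1 (show |x.im| < η from hx)
    exact (e1 x ⟨this.1, by linarith⟩).trans (H.e hx)
  · by_cases h : x ∈ DT (-η) T
    · rw [e1 x h]
      exact H.a x h
    · have m := cov x hx h
      have h2 := H.a _ (m1 x m)
      have := norm_add_le (c x - z (x - w) - w) (z (x - w) - (x - w))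
      rw [show c x - z (x - w) - w + (z (x - w) - (x - w)) = c x - x by ring] at this
      rw [show r₀ - (x - w).im = r₀ - x.im + w.im by simp only [Complex.sub_im]; ring] at h2
      rw [e2 x m]
      linarith [nB x m, numA o0 w1 (show w.im ≤ r₀ - x.im by linarith [dp0 x hx.2]) B0.le hA]
  · by_cases h : x ∈ DT (-η) T
    · have h' : x - w ∈ DT (-η) T := ⟨hx'.1, by simp only [Complex.sub_im]; linarith [h.2]⟩
      rw [e1 x h, e1 _ h']
      exact H.b x h h'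
    · have m := cov x hx h
      rw [e2 x m, e1 _ (m1 x m)]
      exact nB x m
  · have k1 := hx.1
    have k2 := hx'.2
    simp only [Complex.sub_im, Complex.add_im] at k1 k2
    have h1 : x ∈ DT (-η) T := ⟨by linarith, by linarith⟩
    have h2 : x - w ∈ DT (-η) T := ⟨hx.1, by simp only [Complex.sub_im]; linarith⟩
    rw [e1 _ h1, e1 _ h2]
    by_cases h : x + w ∈ DT (-η) T
    · rw [e1 _ h]
      exact H.l x h2 h
    · have m := cov _ hx' h
      rw [e2 _ m]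
      simpa only [add_sub_cancel_right] using (hc' _ m).1

end Up

open Up in
theorem sup (hR : SRoot) (hE : SEven) : SUp := by
  intro r₀ c₁ η C₀ η0 hη hc hc1 hC
  set R := 5 / 4 * r₀ with hR'
  have R0 : 0 < R := by linarith
  set B := 64 / c₁ ^ 3 + C₀ * R ^ 2 with hB
  set A := 4 * B + C₀ * R with hA
  have p1 : 0 ≤ C₀ * R ^ 2 := by positivity
  have p2 : 0 ≤ C₀ * R := by positivity
  have p3 : 0 < 64 / c₁ ^ 3 := by positivity
  have A0 : 0 < A := by linarith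
  set c₂ := min (min (1 / 2) (c₁ / 12)) (1 / (16 * A)) with hc₂
  have c0 : 0 < c₂ := lt_min (lt_min (by norm_num) (by linarith)) (by positivity)
  have c1 : c₂ ≤ 1 / 2 := (min_le_left ..).trans (min_le_left ..)
  have c2 : c₂ ≤ c₁ / 12 := (min_le_left ..).trans (min_le_right ..)
  have c3 : c₂ * (16 * A) ≤ 1 := (le_div_iff₀ (by positivity)).1 (min_le_right ..)
  refine ⟨c₂, A, c0, by linarith, A0.le, fun Φ w y hΦ w0 w1 w2 hy h1 h2 h3 => ?_⟩
  have w5 : ‖w‖ / c₂ ≤ η := by rwa [div_le_iff₀' c0]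
  have e : DT (-η) η = St η := by
    ext x
    exact abs_lt.symm
  have key : ∀ n : ℕ, ∃ z, Inv Φ w y r₀ η A B (min (η + n * w.im) (r₀ - ‖w‖ / c₂)) z := by
    intro n
    induction n with
    | zero =>
      rw [Nat.cast_zero, zero_mul, add_zero, min_eq_left (by linarith)]
      refine ⟨y, e ▸ hy, fun _ _ => rfl, fun x hx => (h1 x (e ▸ hx)).trans ?_,
        fun x hx hx' => (h2 x (e ▸ hx) (e ▸ hx')).trans ?_, fun x hx hx' => h3 x (e ▸ hx) (e ▸ hx')⟩
      · have k1 : 0 < r₀ - x.im := by linarith [hx.2]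
        have k2 : r₀ - x.im ≤ R := by linarith [hx.1]
        rw [le_div_iff₀ k1]
        calc _ ≤ C₀ * ‖w‖ ^ 2 * R := by gcongr
          _ = C₀ * R * ‖w‖ ^ 2 := by ring
          _ ≤ _ := by
            gcongr
            linarith
      · have k1 : 0 < r₀ - x.im := by linarith [hx.2]
        have k2 : r₀ - x.im ≤ R := by linarith [hx.1]
        rw [le_div_iff₀ (by positivity)]
        calc _ ≤ C₀ * ‖w‖ ^ 3 * R ^ 2 := by gcongr
          _ = C₀ * R ^ 2 * ‖w‖ ^ 3 := by ring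
          _ ≤ _ := by
            gcongr
            linarith
    | succ n ih =>
      obtain ⟨z, hz⟩ := ih
      have : 0 ≤ n * w.im := by positivity
      refine step hR hE hΦ hc hη c0 c1 c2 (by nlinarith) (by linarith) (by linarith) w0 w1 w2
        (le_min (by linarith) (by linarith)) ?_ (min_le_right ..) hz
      rw [← min_add_add_right]
      push_cast
      exact min_le_min (by linarith) (by linarith)
  obtain ⟨n, hn⟩ := exists_nat_ge (r₀ / w.im)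
  rw [div_le_iff₀ w0] at hn
  obtain ⟨z, hz⟩ := key n
  have o0 : 0 ≤ ‖w‖ / c₂ := by positivity
  rw [min_eq_right (by linarith)] at hz
  refine ⟨z, hz.d, hz.e, fun x k1 k2 => (hz.a x ⟨k1, k2⟩).trans ?_⟩
  have k3 : ‖w‖ ≤ ‖w‖ / c₂ := le_div_self (norm_nonneg _) c0 (by linarith)
  rw [div_le_iff₀ (by linarith), sq, ← mul_assoc]
  gcongr
  linarith

end Vale.Agent.P097N
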