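import Vale.Agent.P097N.Defs

/-!
# P097N: the chain on both sides of the real axis
-/

set_option linter.all false

noncomputable section

namespace Vale.Agent.P097N

open Filter Topology Set Metric

theorem ch_neg_mem {r : ℝ} {x : ℂ} (h : x ∈ St r) : -x ∈ St r := by
  have h' : |x.im| < r := h
  show |(-x).im| < r
  rw [Complex.neg_im, abs_neg]
  exact h'

theorem ch_crit_neg {Φ : ℂ × ℂ → ℂ} {r₀ c₁ : ℝ} (h : Crit Φ r₀ c₁) :
    Crit (fun q : ℂ × ℂ => -Φ (-q.1, -q.2)) r₀ c₁ := by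
  intro b hb
  have h1 := h (-b) (ch_neg_mem hb)
  rw [Complex.neg_im, abs_neg] at h1
  obtain ⟨ha, hbd⟩ := h1
  have hn : ∀ c : ℂ, ‖-c - -b‖ = ‖c - b‖ := by
    intro c
    rw [show -c - -b = -(c - b) by ring, norm_neg]
  refine ⟨fun c hc hcb => ?_, fun c hcb => ?_⟩
  · have h2 : AnalyticAt ℂ Φ (-b, -c) := ha (-c) (fun e => hc (neg_injective e)) (by rw [hn]; exact hcb)
    have h3 : AnalyticAt ℂ (fun q : ℂ × ℂ => ((-q.1, -q.2) : ℂ × ℂ)) (b, c) :=
      (analyticAt_fst.neg).prod (analyticAt_snd.neg)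
    exact (AnalyticAt.comp (g := Φ) (f := fun q : ℂ × ℂ => ((-q.1, -q.2) : ℂ × ℂ)) h2 h3).neg
  · have h2 := hbd (-c) (by rw [hn]; exact hcb)
    rw [hn] at h2
    have e : -Φ (-b, -c) - (c - b) = -(Φ (-b, -c) - (-c - -b)) := by ring
    show ‖-Φ (-b, -c) - (c - b)‖ ≤ _
    rw [e, norm_neg]
    exact h2

theorem ch_glue {η R M : ℝ} (hη : 0 < η) {y z₁ z₂ : ℂ → ℂ}
    (d₁ : DifferentiableOn ℂ z₁ {x | -η < x.im ∧ x.im < R}) (e₁ : EqOn z₁ y (St η))
    (b₁ : ∀ x : ℂ, -η < x.im → x.im < R → ‖z₁ x - x‖ ≤ M)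
    (d₂ : DifferentiableOn ℂ z₂ {x | -η < x.im ∧ x.im < R})
    (e₂ : EqOn z₂ (fun x => -y (-x)) (St η))
    (b₂ : ∀ x : ℂ, -η < x.im → x.im < R → ‖z₂ x - x‖ ≤ M) :
    ∃ z : ℂ → ℂ, DifferentiableOn ℂ z (St R) ∧ EqOn z y (St η) ∧ ∀ x ∈ St R, ‖z x - x‖ ≤ M := by
  have hop : IsOpen {x : ℂ | -η < x.im ∧ x.im < R} :=
    (isOpen_lt continuous_const Complex.continuous_im).inter
      (isOpen_lt Complex.continuous_im continuous_const)
  have hy : ∀ x ∈ St η, -z₂ (-x) = y x := by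
    intro x hx
    have := e₂ (ch_neg_mem hx)
    simp only [neg_neg] at this
    rw [this, neg_neg]
  refine ⟨fun x => if 0 ≤ x.im then z₁ x else -z₂ (-x), ?_, ?_, ?_⟩
  · intro x hx
    have hx' : |x.im| < R := hx
    obtain ⟨hx1, hx2⟩ := abs_lt.1 hx'
    apply DifferentiableAt.differentiableWithinAt
    by_cases h0 : 0 ≤ x.im
    · have hm : x ∈ {x : ℂ | -η < x.im ∧ x.im < R} := ⟨by linarith, hx2⟩
      have hd : DifferentiableAt ℂ z₁ x := d₁.differentiableAt (hop.mem_nhds hm)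
      refine hd.congr_of_eventuallyEq ?_
      filter_upwards [hop.mem_nhds hm] with u hu
      by_cases hu0 : 0 ≤ u.im
      · rw [if_pos hu0]
      · rw [if_neg hu0]
        have hs : u ∈ St η := by
          show |u.im| < η
          rw [abs_lt]
          exact ⟨hu.1, by linarith [not_le.1 hu0]⟩
        rw [hy u hs, e₁ hs]
    · have h0' : x.im < 0 := not_le.1 h0
      have hm : -x ∈ {x : ℂ | -η < x.im ∧ x.im < R} := by
        refine ⟨?_, ?_⟩
        · rw [Complex.neg_im]; linarith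
        · rw [Complex.neg_im]; linarith
      have hd : DifferentiableAt ℂ z₂ (-x) := d₂.differentiableAt (hop.mem_nhds hm)
      have hd' : DifferentiableAt ℂ (fun u => -z₂ (-u)) x :=
        (DifferentiableAt.comp (g := z₂) (f := fun u : ℂ => -u) x hd differentiableAt_id.neg).neg
      refine hd'.congr_of_eventuallyEq ?_
      have hlt : {u : ℂ | u.im < 0} ∈ 𝓝 x :=
        (isOpen_lt Complex.continuous_im continuous_const).mem_nhds h0'
      filter_upwards [hlt] with u hu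
      rw [if_neg (not_le.2 hu)]
  · intro x hx
    by_cases h0 : 0 ≤ x.im
    · simp only [if_pos h0]
      exact e₁ hx
    · simp only [if_neg h0]
      exact hy x hx
  · intro x hx
    have hx' : |x.im| < R := hx
    obtain ⟨hx1, hx2⟩ := abs_lt.1 hx'
    by_cases h0 : 0 ≤ x.im
    · simp only [if_pos h0]
      exact b₁ x (by linarith) hx2
    · simp only [if_neg h0]
      have h0' : x.im < 0 := not_le.1 h0
      have := b₂ (-x) (by rw [Complex.neg_im]; linarith) (by rw [Complex.neg_im]; linarith)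
      rw [show -z₂ (-x) - x = -(z₂ (-x) - -x) by ring, norm_neg]
      exact this

theorem schain (h : SUp) : SChain := by
  intro r₀ c₁ η C₀ hη hr hc hc1 hC
  obtain ⟨c₂, B, h1, h2, h3, H⟩ := h r₀ c₁ η C₀ hη hr hc hc1 hC
  refine ⟨c₂, B, h1, h2, h3, ?_⟩
  have key : ∀ (Φ : ℂ × ℂ → ℂ) (w : ℂ) (y : ℂ → ℂ), Crit Φ r₀ c₁ →
      0 < w.im → ‖w‖ ≤ 2 * w.im → ‖w‖ ≤ c₂ * η → DifferentiableOn ℂ y (St η) →
      (∀ x ∈ St η, ‖y x - x‖ ≤ C₀ * ‖w‖ ^ 2) →
      (∀ x ∈ St η, x - w ∈ St η → ‖y x - y (x - w) - w‖ ≤ C₀ * ‖w‖ ^ 3) →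
      (∀ x, x - w ∈ St η → x + w ∈ St η → Φ (y x, y (x + w)) + Φ (y x, y (x - w)) = 0) →
      ∃ z : ℂ → ℂ, DifferentiableOn ℂ z (St (r₀ - ‖w‖ / c₂)) ∧ EqOn z y (St η) ∧
        ∀ x ∈ St (r₀ - ‖w‖ / c₂), ‖z x - x‖ ≤ B * ‖w‖ := by
    intro Φ w y hcr hw0 hw1 hw2 hd hb1 hb2 hl
    obtain ⟨z₁, d₁, e₁, b₁⟩ := H Φ w y hcr hw0 hw1 hw2 hd hb1 hb2 hl
    obtain ⟨z₂, d₂, e₂, b₂⟩ := H (fun q : ℂ × ℂ => -Φ (-q.1, -q.2)) w (fun x => -y (-x))
      (ch_crit_neg hcr) hw0 hw1 hw2
      ((DifferentiableOn.comp (g := y) (f := fun u : ℂ => -u) hd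
        differentiable_id.neg.differentiableOn (fun u hu => ch_neg_mem hu)).neg)
      (fun x hx => by
        have := hb1 (-x) (ch_neg_mem hx)
        rw [show -y (-x) - x = -(y (-x) - -x) by ring, norm_neg]
        exact this)
      (fun x hx hxw => by
        have e : -(x - w) - w = -x := by ring
        have := hb2 (-(x - w)) (ch_neg_mem hxw) (by rw [e]; exact ch_neg_mem hx)
        rw [e] at this
        rw [show -y (-x) - -y (-(x - w)) - w = y (-(x - w)) - y (-x) - w by ring]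
        exact this)
      (fun x hx1 hx2 => by
        have e1 : -x - w = -(x + w) := by ring
        have e2 : -x + w = -(x - w) := by ring
        have := hl (-x) (by rw [e1]; exact ch_neg_mem hx2) (by rw [e2]; exact ch_neg_mem hx1)
        rw [e1, e2] at this
        simp only [neg_neg]
        linear_combination -this)
    exact ch_glue hη d₁ e₁ b₁ d₂ e₂ b₂
  intro Φ w y hcr hw0 hw1 hw2 hd hb1 hb2 hl
  have hn : 0 < ‖w‖ := norm_pos_iff.2 hw0
  rcases lt_trichotomy w.im 0 with hw | hw | hw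
  · have := key Φ (-w) y hcr (by rw [Complex.neg_im]; linarith)
      (by rw [norm_neg, Complex.neg_im]; rwa [abs_of_neg hw] at hw1)
      (by rw [norm_neg]; exact hw2) hd (by rw [norm_neg]; exact hb1)
      (fun x hx hxw => by
        have e : x - -w - w = x := by ring
        have := hb2 (x - -w) hxw (by rw [e]; exact hx)
        rw [e] at this
        rw [norm_neg, show y x - y (x - -w) - -w = -(y (x - -w) - y x - w) by ring, norm_neg]
        exact this)
      (fun x hx1 hx2 => by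
        have e1 : x - -w = x + w := by ring
        have e2 : x + -w = x - w := by ring
        rw [e1] at hx1 ⊢
        rw [e2] at hx2 ⊢
        have := hl x hx2 hx1
        linear_combination this)
    rw [norm_neg] at this
    exact this
  · rw [hw, abs_zero] at hw1
    linarith
  · exact key Φ w y hcr hw (by rwa [abs_of_pos hw] at hw1) hw2 hd hb1 hb2 hl

end Vale.Agent.P097N
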