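import Vale.Agent.P097N.Defs

/-!
# P097N: analyticity of the kernels and the basic estimate
-/

set_option linter.all false

noncomputable section

namespace Vale.Agent.P097N

open Filter Topology Set Metric

namespace K

/-- a solution of a third order equation with small coefficients -/
theorem est {v v1 v2 P R : ℂ → ℂ} {a b : ℂ} {A₂ A₃ ε : ℝ}
    (d0 : ∀ z ∈ segment ℝ b a, HasDerivAt v (v1 z) z)
    (d1 : ∀ z ∈ segment ℝ b a, HasDerivAt v1 (v2 z) z)
    (d2 : ∀ z ∈ segment ℝ b a, HasDerivAt v2 (P z * v1 z - R z * v z) z)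
    (bd : ∀ z ∈ segment ℝ b a, ‖P z‖ ≤ A₂ ∧ ‖R z‖ ≤ A₃) (e0 : v b = 0) (e1 : v1 b = 0)
    (e2 : v2 b = 1) (h2 : A₂ * ‖a - b‖ ^ 2 ≤ ε) (h3 : A₃ * ‖a - b‖ ^ 3 ≤ ε) (hε : ε ≤ 1 / 12) :
    ‖-2 * v a / v1 a - (b - a)‖ ≤ 12 * ε * ‖b - a‖ ∧ (a ≠ b → v1 a ≠ 0) := by
  have hb := left_mem_segment ℝ b a
  have ha := right_mem_segment ℝ b a
  have L0 := norm_nonneg (a - b)
  have mv : ∀ {f f' : ℂ → ℂ} {C : ℝ}, (∀ z ∈ segment ℝ b a, HasDerivAt f (f' z) z) →
      (∀ z ∈ segment ℝ b a, ‖f' z‖ ≤ C) → ∀ z ∈ segment ℝ b a, ‖f z - f b‖ ≤ C * ‖a - b‖ :=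
    fun d c z hz => ((convex_segment b a).norm_image_sub_le_of_norm_hasDerivWithin_le
      (fun x hx => (d x hx).hasDerivWithinAt) c hb hz).trans (mul_le_mul_of_nonneg_left
        (norm_sub_le_of_mem_segment hz) ((norm_nonneg _).trans (c b hb)))
  have cp : IsCompact (segment ℝ b a) := by
    rw [segment_eq_image]; exact isCompact_Icc.image (by fun_prop)
  obtain ⟨z₀, hz₀, mx⟩ := cp.exists_isMaxOn ⟨b, hb⟩ (f := fun z => ‖v2 z‖)
    fun z hz => (d2 z hz).continuousAt.norm.continuousWithinAt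
  set m := ‖v2 z₀‖
  have m0 : 0 ≤ m := norm_nonneg _
  have k1 := mv d1 mx
  simp only [e1, sub_zero] at k1
  have k0 := mv d0 k1
  simp only [e0, sub_zero] at k0
  have k2 : ∀ z ∈ segment ℝ b a, ‖v2 z - 1‖ ≤ 2 * m * ε := fun z hz => by
    have := mv d2 (C := A₂ * (m * ‖a - b‖) + A₃ * (m * ‖a - b‖ * ‖a - b‖)) (fun x hx =>
      (norm_sub_le _ _).trans (by
        rw [norm_mul, norm_mul]
        exact add_le_add (mul_le_mul (bd x hx).1 (k1 x hx) (norm_nonneg _)
          ((norm_nonneg _).trans (bd x hx).1)) (mul_le_mul (bd x hx).2 (k0 x hx) (norm_nonneg _)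
          ((norm_nonneg _).trans (bd x hx).2)))) z hz
    rw [e2] at this
    nlinarith [mul_le_mul_of_nonneg_left h2 m0, mul_le_mul_of_nonneg_left h3 m0]
  have ε0 : 0 ≤ ε := (mul_nonneg ((norm_nonneg _).trans (bd b hb).1) (sq_nonneg _)).trans h2
  have m1 : m ≤ 6 / 5 := by
    have := norm_sub_norm_le (v2 z₀) 1
    rw [norm_one] at this
    nlinarith [k2 z₀ hz₀]
  have k3 : ∀ z ∈ segment ℝ b a, ‖v2 z - 1‖ ≤ 12 / 5 * ε := fun z hz =>
    (k2 z hz).trans (by nlinarith)
  have k4 := mv (f := fun z => v1 z - (z - b)) (fun z hz =>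
    (d1 z hz).sub ((hasDerivAt_id' z).sub_const b)) k3
  simp only [e1, sub_self, sub_zero] at k4
  have k5 := mv (f := fun z => v z - (z - b) ^ 2 / 2) (f' := fun z => v1 z - (z - b))
    (fun z hz => ((d0 z hz).sub ((((hasDerivAt_id' z).sub_const b).pow 2).div_const 2)).congr_deriv
      (by simp)) k4 a ha
  simp only [e0, sub_self, zero_pow two_ne_zero, zero_div, sub_zero] at k5
  have k6 := k4 a ha
  rcases eq_or_ne a b with rfl | ne
  · simp [e1]
  have L1 : 0 < ‖a - b‖ := norm_pos_iff.2 (sub_ne_zero.2 ne)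
  have k7 : 4 / 5 * ‖a - b‖ ≤ ‖v1 a‖ := by
    have := norm_sub_norm_le (a - b) (v1 a)
    rw [norm_sub_rev (a - b)] at this
    nlinarith
  have k8 : 0 < ‖v1 a‖ := by linarith
  have n1 := norm_pos_iff.1 k8
  refine ⟨?_, fun _ => n1⟩
  rw [show -2 * v a / v1 a - (b - a) =
    (-2 * (v a - (a - b) ^ 2 / 2) + (a - b) * (v1 a - (a - b))) / v1 a by field_simp; ring,
    norm_div, div_le_iff₀ k8, norm_sub_rev b]
  refine (norm_add_le _ _).trans ?_
  rw [norm_mul, norm_mul, norm_neg, Complex.norm_two]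
  nlinarith [mul_le_mul_of_nonneg_left k6 L0, mul_le_mul_of_nonneg_left k7 (mul_nonneg ε0 L0),
    mul_nonneg ε0 (mul_nonneg L0 L0)]

variable {θ h Q : ℂ → ℂ} {c z : ℂ} {U : Set ℂ} (C : Cv θ h Q c U)
include C

theorem aθ (hz : z ∈ U) : AnalyticAt ℂ θ z := C.dθ.analyticAt (C.op.mem_nhds hz)

theorem ah (hz : z ∈ U) : AnalyticAt ℂ h z := C.dh.analyticAt (C.op.mem_nhds hz)

theorem aQ (hz : z ∈ U) : AnalyticAt ℂ Q z := C.dQ.analyticAt (C.op.mem_nhds hz)

theorem third (hz : z ∈ U) : deriv (deriv (deriv h)) z =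
    (Q z - deriv θ z ^ 2) * deriv h z - 3 * deriv θ z * deriv (deriv θ) z * h z := by
  have key : ∀ y ∈ U, (deriv (deriv (deriv h)) y - ((Q y - deriv θ y ^ 2) * deriv h y -
      3 * deriv θ y * deriv (deriv θ) y * h y)) * deriv θ y = 0 := fun y hy => by
    have t1 := (aθ C hy).deriv.differentiableAt.hasDerivAt
    have t2 := (aθ C hy).deriv.deriv.differentiableAt.hasDerivAt
    have s0 := (ah C hy).differentiableAt.hasDerivAt
    have s1 := (ah C hy).deriv.differentiableAt.hasDerivAt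
    have s2 := (ah C hy).deriv.deriv.differentiableAt.hasDerivAt
    have := (((s2.mul t1).sub (s1.mul t2)).add (s0.mul (t1.pow 3))).unique
      ((hasDerivAt_const y c).congr_of_eventuallyEq (by
        filter_upwards [C.op.mem_nhds hy] with x hx using C.ode x hx))
    rw [C.hq y hy] at this
    simp only [Pi.pow_apply, Nat.cast_ofNat, Nat.add_one_sub_one] at this
    linear_combination this
  rcases (aθ C hz).deriv.eventually_eq_zero_or_eventually_ne_zero with e | e
  · have := C.ode z hz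
    rw [e.self_of_nhds, (show deriv θ =ᶠ[𝓝 z] fun _ => 0 from e).deriv_eq] at this
    exact (C.c0 (by simpa using this.symm)).elim
  refine tendsto_nhds_unique_of_eventuallyEq (l := 𝓝[≠] z)
    ((ah C hz).deriv.deriv.deriv.continuousAt.tendsto.mono_left nhdsWithin_le_nhds)
    (((((aQ C hz).sub ((aθ C hz).deriv.pow 2)).mul (ah C hz).deriv).sub
      (((analyticAt_const.mul (aθ C hz).deriv).mul (aθ C hz).deriv.deriv).mul
        (ah C hz))).continuousAt.tendsto.mono_left nhdsWithin_le_nhds) ?_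
  filter_upwards [e, mem_nhdsWithin_of_mem_nhds (C.op.mem_nhds hz)] with y e1 e2
  exact sub_eq_zero.1 ((mul_eq_zero.1 (key y e2)).resolve_right e1)

end K

open K Complex

theorem sk : SK := fun θ h Q c U C => by
  refine ⟨fun a ha b hb => ?_, fun a b A₂ A₃ ε hs bd h2 h3 hε => ?_⟩
  · have f : ∀ {f : ℂ → ℂ}, AnalyticAt ℂ f a → AnalyticAt ℂ (fun q : ℂ × ℂ => f q.1) (a, b) :=
      fun e => e.comp_of_eq analyticAt_fst rfl
    have s : ∀ {f : ℂ → ℂ}, AnalyticAt ℂ f b → AnalyticAt ℂ (fun q : ℂ × ℂ => f q.2) (a, b) :=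
      fun e => e.comp_of_eq analyticAt_snd rfl
    have t := (f (aθ C ha)).sub (s (aθ C hb))
    have co := analyticAt_cos.comp t
    have si := analyticAt_sin.comp t
    have g := s (aθ C hb).deriv
    have a0 : AnalyticAt ℂ (fun q : ℂ × ℂ => kk θ h q.1 q.2) (a, b) :=
      ((g.mul (f (ah C ha))).sub ((g.mul (s (ah C hb))).mul co)).sub ((s (ah C hb).deriv).mul si)
    have a1 : AnalyticAt ℂ (fun q : ℂ × ℂ => k1 θ h q.1 q.2) (a, b) :=
      ((g.mul (f (ah C ha).deriv)).add (((g.mul (s (ah C hb))).mul (f (aθ C ha).deriv)).mul si)).sub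
        (((s (ah C hb).deriv).mul (f (aθ C ha).deriv)).mul co)
    exact ⟨a0, a1, fun e => (analyticAt_const.mul a0).div a1 e⟩
  have hb := hs (left_mem_segment ℝ b a)
  have c0 := C.c0
  have t0 := fun z hz => (aθ C (hs (a := z) hz)).differentiableAt.hasDerivAt
  have t1 := fun z hz => (aθ C (hs (a := z) hz)).deriv.differentiableAt.hasDerivAt
  have t2 := fun z hz => (aθ C (hs (a := z) hz)).deriv.deriv.differentiableAt.hasDerivAt
  have co := fun z hz => ((t0 z hz).sub_const (θ b)).ccos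
  have si := fun z hz => ((t0 z hz).sub_const (θ b)).csin
  have := est (v := fun z => kk θ h z b / c) (v1 := fun z => k1 θ h z b / c)
    (v2 := fun z => (deriv θ b * deriv (deriv h) z + deriv θ b * h b *
      (deriv (deriv θ) z * sin (θ z - θ b) + deriv θ z ^ 2 * cos (θ z - θ b)) - deriv h b *
      (deriv (deriv θ) z * cos (θ z - θ b) - deriv θ z ^ 2 * sin (θ z - θ b))) / c)
    (fun z hz => (((((ah C (hs hz)).differentiableAt.hasDerivAt.const_mul (deriv θ b)).sub
      ((co z hz).const_mul (deriv θ b * h b))).sub ((si z hz).const_mul (deriv h b))).div_const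
        c).congr_deriv (by rw [k1]; ring))
    (fun z hz => (((((ah C (hs hz)).deriv.differentiableAt.hasDerivAt.const_mul (deriv θ b)).add
      (((t1 z hz).const_mul (deriv θ b * h b)).mul (si z hz))).sub
        (((t1 z hz).const_mul (deriv h b)).mul (co z hz))).div_const c).congr_deriv (by ring))
    (fun z hz => by
      refine (((((ah C (hs hz)).deriv.deriv.differentiableAt.hasDerivAt.const_mul (deriv θ b)).add
        ((((t2 z hz).mul (si z hz)).add (((t1 z hz).pow 2).mul (co z hz))).const_mul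
          (deriv θ b * h b))).sub ((((t2 z hz).mul (co z hz)).sub (((t1 z hz).pow 2).mul
            (si z hz))).const_mul (deriv h b))).div_const c).congr_deriv ?_
      rw [third C (hs hz), C.hq z (hs hz), kk, k1]
      simp only [Pi.pow_apply, Nat.cast_ofNat, Nat.add_one_sub_one]
      ring)
    bd (by simp [kk]) (by simp [k1, mul_comm]) (by
      rw [div_eq_one_iff_eq c0, ← C.ode b hb]; simp; ring) h2 h3 hε
  refine ⟨?_, fun e a => this.2 e (by simp only [a, zero_div])⟩
  convert this.1 using 3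
  rw [Ph, ← mul_div_assoc, div_div_div_cancel_right₀ c0]

end Vale.Agent.P097N
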