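import Vale.Agent.P097N.Defs

/-!
# P097N: the baseline from the chains
-/

set_option linter.all false

noncomputable section

namespace Vale.Agent.P097N

open Filter Topology Set Metric

namespace Base

theorem op (r : ℝ) : IsOpen (St r) :=
  isOpen_lt (continuous_abs.comp Complex.continuous_im) continuous_const

theorem cvx (r : ℝ) : Convex ℝ (St r) := by
  have : St r = {y : ℂ | y.im < r} ∩ {y : ℂ | -r < y.im} := by
    ext y
    simp [St, abs_lt, and_comm]
  rw [this]
  exact (convex_halfSpace_im_lt r).inter (convex_halfSpace_im_gt (-r))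

theorem mono {r s : ℝ} (h : r ≤ s) : St r ⊆ St s := fun _ k => lt_of_lt_of_le k h

theorem ball_sub (x₀ : ℝ) {r s : ℝ} (h : r ≤ s) : ball (x₀ : ℂ) r ⊆ St s := by
  intro y hy
  have h1 := Complex.abs_im_le_norm (y - x₀)
  rw [mem_ball, dist_eq_norm] at hy
  simp only [Complex.sub_im, Complex.ofReal_im, sub_zero] at h1
  exact lt_of_lt_of_le (h1.trans_lt hy) h

theorem nhds_St (x₀ : ℝ) {r : ℝ} (h : 0 < r) : St r ∈ 𝓝 (x₀ : ℂ) :=
  (op r).mem_nhds (by simpa [St] using h)

theorem ident {f g : ℂ → ℂ} {r s : ℝ} (hs : 0 < s) (hf : DifferentiableOn ℂ f (St r))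
    (hg : DifferentiableOn ℂ g (St r)) (e : ∀ x ∈ St r, x ∈ St s → f x = g x) :
    EqOn f g (St r) := by
  intro x hx
  have hr : 0 < r := lt_of_le_of_lt (abs_nonneg _) hx
  refine (hf.analyticOnNhd (op r)).eqOn_of_preconnected_of_eventuallyEq (hg.analyticOnNhd (op r))
    (cvx r).isPreconnected (z₀ := ((0 : ℝ) : ℂ)) (by simpa [St] using hr) ?_ hx
  filter_upwards [nhds_St 0 hr, nhds_St 0 hs] with y h1 h2 using e y h1 h2

theorem key {r₀ c₂ L e t : ℝ} (hr : 0 < r₀) (hc : 0 < c₂) (hL : 0 < L) (he : 0 < e)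
    (h : e ≤ L * c₂ * r₀ / (2 * (1 + L))) (t0 : 0 ≤ t) (te : t ≤ e) :
    r₀ * Real.exp (-(L / e * t)) ≤ r₀ - 2 * t / c₂ := by
  set u := L / e * t with hu
  have u0 : 0 ≤ u := by positivity
  have uL : u ≤ L := by
    rw [hu, div_mul_eq_mul_div, div_le_iff₀ he]
    exact mul_le_mul_of_nonneg_left te hL.le
  have h1 : Real.exp (-u) ≤ 1 - u / (1 + L) := by
    have a1 : Real.exp (-u) * (1 + u) ≤ 1 := by
      have := Real.add_one_le_exp u
      calc Real.exp (-u) * (1 + u) ≤ Real.exp (-u) * Real.exp u :=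
            mul_le_mul_of_nonneg_left (by linarith) (Real.exp_pos _).le
        _ = 1 := by rw [← Real.exp_add]; simp
    have a2 : Real.exp (-u) ≤ 1 / (1 + u) := by rw [le_div_iff₀ (by linarith)]; exact a1
    have a3 : 1 / (1 + u) = 1 - u / (1 + u) := by field_simp; ring
    have a4 : u / (1 + L) ≤ u / (1 + u) := div_le_div_of_nonneg_left u0 (by linarith) (by linarith)
    linarith
  have h2 : 2 * t / c₂ ≤ r₀ * (u / (1 + L)) := by
    rw [le_div_iff₀ (by positivity)] at h
    have a : r₀ * (u / (1 + L)) = t * (L * c₂ * r₀) / (e * (2 * (1 + L))) * (2 / c₂) := by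
      rw [hu]; field_simp
    have b : t ≤ t * (L * c₂ * r₀) / (e * (2 * (1 + L))) := by
      rw [le_div_iff₀ (by positivity)]
      exact mul_le_mul_of_nonneg_left h t0
    rw [a]
    calc 2 * t / c₂ = t * (2 / c₂) := by ring
      _ ≤ _ := mul_le_mul_of_nonneg_right b (by positivity)
  nlinarith [mul_le_mul_of_nonneg_left h1 hr.le]

theorem slice {F : ℂ × ℂ → ℂ} {S : Set (ℂ × ℂ)} {A : Set ℂ} (hF : DifferentiableOn ℂ F S) {w : ℂ}
    (h : ∀ x ∈ A, (x, w) ∈ S) : DifferentiableOn ℂ (fun x => F (x, w)) A :=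
  hF.comp (f := fun x : ℂ => (x, w)) (differentiableOn_id.prodMk (differentiableOn_const _)) h

theorem norm_le (w : ℂ) : ‖w‖ ≤ |w.re| + |w.im| := Complex.norm_le_abs_re_add_abs_im w

end Base

open Base

theorem sbase (hCol : SCol) (hCh : SChain) (hCo : SCoef) (hE : SExt) (hS : SSer) (hSl : SSlant) :
    SBase := by
  intro Φ Y r₀ c₁ η ε M h4 c0 c1 hK hY law
  have hη := hY.hη
  have hε := hY.hε
  have hr : 0 < r₀ := by linarith
  obtain ⟨C₀, C0, hC⟩ := hCol Y η ε M hY
  obtain ⟨c₂, B, c20, -, B0, hch⟩ := hCh r₀ c₁ (η / 2) C₀ (by linarith) (by linarith) c0 c1 C0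
  set F : ℂ × ℂ → ℂ := fun p => Y p - p.1 with hF
  have dF : DifferentiableOn ℂ F (St η ×ˢ ball 0 ε) := hY.d.sub differentiableOn_fst
  have M0 : 0 ≤ M := (norm_nonneg _).trans
    (hY.bd 0 (by simpa [St] using hη) 0 (mem_ball_self hε))
  -- the sector
  have sec : ∀ w : ℂ, ‖w‖ < ε → ‖w‖ ≤ c₂ * (η / 2) → ‖w‖ ≤ 2 * |w.im| → ∃ G : ℂ → ℂ,
      DifferentiableOn ℂ G (St (r₀ - ‖w‖ / c₂)) ∧ (∀ x ∈ St (η / 2), G x = F (x, w)) ∧
      ∀ x ∈ St (r₀ - ‖w‖ / c₂), ‖G x‖ ≤ B * ‖w‖ := by
    intro w h1 h2 h3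
    have hw : w ∈ ball (0 : ℂ) ε := by simpa using h1
    have sb : St (η / 2) ⊆ St η := mono (by linarith)
    by_cases w0 : w = 0
    · subst w0
      exact ⟨fun _ => 0, differentiableOn_const _,
        fun x hx => by simp [hF, hY.zero x (sb hx)], fun x _ => by simp⟩
    obtain ⟨z, dz, ez, bz⟩ := hch Φ w (fun x => Y (x, w)) hK w0 h3 h2
      (slice hY.d fun x hx => ⟨sb hx, hw⟩) (fun x hx => (hC w hw).1 x (sb hx)) (hC w hw).2
      fun x a b => law x w hw w0 (sb a) (sb b)
    exact ⟨fun x => z x - x, dz.sub differentiableOn_id, fun x hx => by simp [hF, ez hx], bz⟩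
  set L := r₀ / η with hL
  have L0 : 0 < L := by positivity
  set e := min (ε / 4) (min (c₂ * η / 4) (L * c₂ * r₀ / (2 * (1 + L)))) with he
  have e0 : 0 < e := by positivity
  have e1 : e ≤ ε / 4 := min_le_left _ _
  have e2 : e ≤ c₂ * η / 4 := (min_le_right _ _).trans (min_le_left _ _)
  have e3 : e ≤ L * c₂ * r₀ / (2 * (1 + L)) := (min_le_right _ _).trans (min_le_right _ _)
  clear_value e
  have ky := fun t => key (t := t) hr c20 L0 e0 e3
  set N := L / e with hN
  have N0 : 0 < N := by positivity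
  set ρ : ℂ → ℝ := fun w => r₀ * Real.exp (-(N * ‖w‖)) with hρ
  have ρ0 : ∀ w, 0 < ρ w := fun w => by positivity
  have ρs : ∀ w : ℂ, ‖w‖ < e → ρ w ≤ r₀ - ‖w‖ / c₂ := fun w hw => by
    have a := ky ‖w‖ (norm_nonneg _) hw.le
    have b : ‖w‖ / c₂ ≤ 2 * ‖w‖ / c₂ :=
      div_le_div_of_nonneg_right (by linarith [norm_nonneg w]) c20.le
    exact a.trans (by linarith)
  have ρl : ∀ w : ℂ, r₀ - r₀ * N * ‖w‖ ≤ ρ w := fun w => by
    have := Real.add_one_le_exp (-(N * ‖w‖))
    simp only [hρ]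
    nlinarith
  have ρu : ∀ w : ℂ, ρ w ≤ r₀ := fun w => by
    have : Real.exp (-(N * ‖w‖)) ≤ 1 := Real.exp_le_one_iff.2 (by
      have := mul_nonneg N0.le (norm_nonneg w); linarith)
    simp only [hρ]
    nlinarith
  set M₁ := M + B * ε with hM₁
  have M1 : M ≤ M₁ := by have := mul_nonneg B0 hε.le; linarith
  have M2 : ∀ w : ℂ, ‖w‖ < ε → B * ‖w‖ ≤ M₁ := fun w hw => by
    have := mul_le_mul_of_nonneg_left hw.le B0
    linarith
  -- the triangle
  have tri : ∀ (x₀ : ℝ) (w : ℂ), |w.im| < w.re → ‖w‖ < e → ∀ n : ℕ,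
      ‖co F x₀ w n‖ * ρ w ^ n ≤ M₁ := by
    intro x₀ w h1 h2 n
    set T : Set ℂ := {w | |w.im| < w.re ∧ w.re < e} with hT
    have To : IsOpen T := (isOpen_lt (continuous_abs.comp Complex.continuous_im)
      Complex.continuous_re).inter (isOpen_lt Complex.continuous_re continuous_const)
    have Tc : closure T ⊆ {w | |w.im| ≤ w.re ∧ w.re ≤ e} :=
      closure_minimal (fun w k => ⟨k.1.le, k.2.le⟩) ((isClosed_le
        (continuous_abs.comp Complex.continuous_im) Complex.continuous_re).inter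
        (isClosed_le Complex.continuous_re continuous_const))
    have Tn : ∀ w ∈ closure T, ‖w‖ ≤ 2 * w.re := fun w k => by
      have a := norm_le w
      have b := (Tc k).1
      rw [abs_of_nonneg ((abs_nonneg _).trans b)] at a
      linarith
    have Tv : closure T ⊆ ball (0 : ℂ) ε := fun w k => by
      have a := Tn w k
      have b := (Tc k).2
      simp only [mem_ball, dist_zero_right]
      linarith
    have ex : ∀ w : ℂ, Real.exp (((Real.log r₀ : ℝ) : ℂ) - (N : ℂ) * w).re =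
        r₀ * Real.exp (-(N * w.re)) := fun w => by
      simp only [Complex.sub_re, Complex.ofReal_re, Complex.re_ofReal_mul]
      rw [sub_eq_add_neg, Real.exp_add, Real.exp_log hr]
    have := hCo F (fun w => ((Real.log r₀ : ℝ) : ℂ) - (N : ℂ) * w) x₀ η M₁ T (ball 0 ε) hη
      isOpen_ball (isBounded_ball.subset (subset_closure.trans Tv)) Tv
      (dF.mono (prod_mono (ball_sub x₀ le_rfl) le_rfl)) (by fun_prop) ?_ w
      (subset_closure ⟨h1, (Complex.re_le_norm w).trans_lt h2⟩) n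
    · rw [ex] at this
      refine le_trans (mul_le_mul_of_nonneg_left (pow_le_pow_left₀ (ρ0 w).le ?_ n)
        (norm_nonneg _)) this
      refine mul_le_mul_of_nonneg_left (Real.exp_le_exp.2 ?_) hr.le
      have := mul_le_mul_of_nonneg_left (Complex.re_le_norm w) N0.le
      linarith
    intro v hv
    rw [To.frontier_eq] at hv
    obtain ⟨v1, v2⟩ := Tc hv.1
    have vn := Tn v hv.1
    have vε : v ∈ ball (0 : ℂ) ε := Tv hv.1
    have vε' : ‖v‖ < ε := by simpa using vε
    rw [ex]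
    by_cases k : v.re < e
    · have k2 : |v.im| = v.re := le_antisymm v1 (not_lt.1 fun a => hv.2 ⟨a, k⟩)
      obtain ⟨G, dG, eG, bG⟩ := sec v vε' (by linarith) (by rw [k2]; exact vn)
      have a := ky v.re ((abs_nonneg _).trans v1) v2
      have b : ‖v‖ / c₂ ≤ 2 * v.re / c₂ := div_le_div_of_nonneg_right vn c20.le
      have sb : ball (x₀ : ℂ) (r₀ * Real.exp (-(N * v.re))) ⊆ St (r₀ - ‖v‖ / c₂) :=
        ball_sub x₀ (a.trans (by linarith))
      refine ⟨G, dG.mono sb, fun x hx => (bG x (sb hx)).trans (M2 v vε'), ?_⟩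
      filter_upwards [nhds_St x₀ (half_pos hη)] with x hx using eG x hx
    · have k2 : v.re = e := le_antisymm v2 (not_lt.1 k)
      have a : r₀ * Real.exp (-(N * v.re)) ≤ η := by
        have b : N * v.re = L := by rw [k2, hN]; field_simp
        have c : Real.exp (-L) * L ≤ 1 := by
          have := Real.add_one_le_exp L
          calc Real.exp (-L) * L ≤ Real.exp (-L) * Real.exp L :=
                mul_le_mul_of_nonneg_left (by linarith) (Real.exp_pos _).le
            _ = 1 := by rw [← Real.exp_add]; simp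
        have d : r₀ = L * η := by rw [hL]; field_simp
        rw [b, d]
        nlinarith
      have sb : ball (x₀ : ℂ) (r₀ * Real.exp (-(N * v.re))) ⊆ St η := ball_sub x₀ a
      exact ⟨fun x => F (x, v), slice dF fun x hx => ⟨sb hx, vε⟩,
        fun x hx => (hY.bd x (sb hx) v vε).trans M1, Eventually.of_forall fun _ => rfl⟩
  have cb : ∀ (x₀ : ℝ), ∀ w ∈ ball (0 : ℂ) e, ∀ n : ℕ, ‖co F x₀ w n‖ * ρ w ^ n ≤ M₁ := by
    intro x₀ w hw n
    have hw' : ‖w‖ < e := by simpa using hw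
    have wε : ‖w‖ < ε := by linarith
    by_cases k1 : |w.im| < w.re
    · exact tri x₀ w k1 hw' n
    by_cases k2 : |(-w).im| < (-w).re
    · have a := tri x₀ (-w) k2 (by simpa using hw') n
      have b : co F x₀ (-w) n = co F x₀ w n := by
        unfold co
        rw [Filter.EventuallyEq.iteratedDeriv_eq n (g := fun x => F (x, w))]
        filter_upwards [nhds_St x₀ hη] with x hx
        simp [hF, hY.ev x hx w (by simpa using wε)]
      have c : ρ (-w) = ρ w := by simp [hρ]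
      rwa [b, c] at a
    have k3 : ‖w‖ ≤ 2 * |w.im| := by
      have a := norm_le w
      simp only [Complex.neg_im, abs_neg, Complex.neg_re] at k2
      have b : |w.re| ≤ |w.im| := abs_le.2 ⟨by linarith [not_lt.1 k2], not_lt.1 k1⟩
      linarith
    obtain ⟨G, dG, eG, bG⟩ := sec w wε (by nlinarith) k3
    have sb : ball (x₀ : ℂ) (ρ w) ⊆ St (r₀ - ‖w‖ / c₂) := ball_sub x₀ (ρs w hw')
    refine (hE F x₀ w (ρ w) M₁ (ρ0 w)).2 G (dG.mono sb)
      (fun x hx => (bG x (sb hx)).trans (M2 w wε)) ?_ n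
    filter_upwards [nhds_St x₀ (half_pos hη)] with x hx using eG x hx
  obtain ⟨G, dG, hG⟩ := hS F ρ η e M₁ hη (by fun_prop) ρ0
    (dF.mono (prod_mono le_rfl (ball_subset_ball (by linarith)))) cb
  have sl : ∀ w : ℂ, ‖w‖ < e → DifferentiableOn ℂ (fun x => G (x, w)) (St (ρ w)) :=
    fun w hw => slice dG fun x hx => ⟨hw, hx⟩
  obtain ⟨c, C, a1, a2, bl⟩ := hSl G r₀ e (r₀ * N) (M₁ * r₀) B hr e0 (by positivity) B0
    (dG.mono fun p k => ⟨k.1, lt_of_lt_of_le k.2 (ρl _)⟩) (by
    rintro ⟨x, w⟩ h1 h2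
    have h3 : |x.im| < ρ w := lt_of_lt_of_le h2 (ρl w)
    have wε : ‖w‖ < ε := by simp only at h1; linarith
    have c : ρ (-w) = ρ w := by simp [hρ]
    refine ⟨?_, ?_, fun k => ?_⟩
    · refine ident (f := fun x => G (x, -w)) (g := fun x => G (x, w)) hη
        (c ▸ sl (-w) (by simpa using h1)) (sl w h1) (fun y y1 y2 => ?_) h3
      rw [(hG (y, -w) (by simpa using h1) (by rw [c]; exact y1)).2 y2, (hG (y, w) h1 y1).2 y2]
      simp [hF, hY.ev y y2 w (by simpa using wε)]
    · refine (hG (x, w) h1 h3).1.trans ?_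
      have b : M₁ / (1 - |x.im| / ρ w) = M₁ * ρ w / (ρ w - |x.im|) := by
        have := (ρ0 w).ne'
        field_simp
      simp only at h2 ⊢
      rw [b]
      exact div_le_div₀ (by nlinarith) (mul_le_mul_of_nonneg_left (ρu w) (M0.trans M1))
        (by linarith) (by linarith [ρl w])
    · obtain ⟨H, dH, eH, bH⟩ := sec w wε (by simp only at h1; nlinarith) k
      have sb : St (ρ w) ⊆ St (r₀ - ‖w‖ / c₂) := mono (ρs w h1)
      have := ident (f := fun x => G (x, w)) (g := H) (half_pos hη) (sl w h1) (dH.mono sb)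
        (fun y y1 y2 => by
          rw [eH y y2]
          exact (hG (y, w) h1 y1).2 (mono (by linarith) y2)) h3
      simp only at this ⊢
      rw [this]
      exact bH x (sb h3))
  refine ⟨_, c, C, by linarith, bl, fun p hp k => ?_⟩
  have hc := bl.hc
  have hp' : ‖p.2‖ < c * (r₀ - |p.1.im|) := hp
  have d0 : 0 < r₀ - |p.1.im| := by linarith
  have p1 : ‖p.2‖ < e := by nlinarith [abs_nonneg p.1.im]
  have p2 : |p.1.im| < ρ p.2 := by
    refine lt_of_lt_of_le ?_ (ρl _)
    have a := mul_lt_mul_of_pos_left hp' (mul_pos hr N0)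
    have b := mul_le_mul_of_nonneg_right a2 d0.le
    nlinarith
  rw [(hG p p1 p2).2 (by linarith)]
  simp [hF]

end Vale.Agent.P097N
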