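import Vale.Agent.P097N.Defs

/-!
# P097N: from the crude extension to the baseline (slanted discs, Schwarz lemma)
-/

set_option linter.all false

noncomputable section

namespace Vale.Agent.P097N

open Filter Topology Set Metric

namespace Slant

/-- the domain of the crude extension -/
def Dm (r₀ ε K : ℝ) : Set (ℂ × ℂ) := {p | ‖p.2‖ < ε ∧ |p.1.im| < r₀ - K * ‖p.2‖}

theorem Dm_open (r₀ ε K : ℝ) : IsOpen (Dm r₀ ε K) := by
  exact IsOpen.inter (isOpen_lt continuous_snd.norm continuous_const)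
    (isOpen_lt (Complex.continuous_im.comp continuous_fst).abs
      (continuous_const.sub (continuous_const.mul continuous_snd.norm)))

theorem norm_le_tri {w : ℂ} (h : |w.im| ≤ w.re) : ‖w‖ ≤ 3 / 2 * w.re := by
  have h0 : 0 ≤ w.re := (abs_nonneg _).trans h
  refine abs_le_of_sq_le_sq' ?_ (by positivity) |>.2
  rw [Complex.sq_norm, Complex.normSq_apply]
  have : w.im * w.im ≤ w.re * w.re := by
    rw [← abs_mul_abs_self w.im]; exact mul_self_le_mul_self (abs_nonneg _) h
  nlinarith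

theorem norm_le_add {w : ℂ} (h : 0 ≤ w.re) {t : ℝ} (ht : 0 ≤ t) : ‖w‖ ≤ ‖w + t‖ := by
  refine abs_le_of_sq_le_sq' ?_ (norm_nonneg _) |>.2
  rw [Complex.sq_norm, Complex.sq_norm, Complex.normSq_apply, Complex.normSq_apply]
  simp only [Complex.add_re, Complex.ofReal_re, Complex.add_im, Complex.ofReal_im, add_zero]
  nlinarith [mul_nonneg h ht]

/-- the maximum principle on the triangle -/
theorem tri {G : ℂ × ℂ → ℂ} {r₀ ε K M B e : ℝ} (hr : 0 < r₀) (hK : 0 < K) (hB : 0 ≤ B)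
    (he : 0 < e) (he1 : 2 * e ≤ ε) (he2 : 8 * K * e ≤ r₀) (hd : DifferentiableOn ℂ G (Dm r₀ ε K))
    (hG : ∀ p : ℂ × ℂ, ‖p.2‖ < ε → |p.1.im| < r₀ - K * ‖p.2‖ →
      ‖G p‖ ≤ M / (r₀ - K * ‖p.2‖ - |p.1.im|) ∧ (‖p.2‖ ≤ 2 * |p.2.im| → ‖G p‖ ≤ B * ‖p.2‖))
    {x w : ℂ} (h1 : |w.im| < w.re) (h2 : w.re < e) (h3 : 4 * K * w.re ≤ r₀ - |x.im|) :
    ‖G (x, w)‖ ≤ (B + |M| / (K * e / 2 * e)) * (‖w‖ + (r₀ - |x.im|) / K) := by
  obtain ⟨s, hs1, hs2⟩ : ∃ s : ℝ, (s = 1 ∨ s = -1) ∧ s * x.im = |x.im| := by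
    rcases le_total 0 x.im with h | h
    · exact ⟨1, Or.inl rfl, by rw [abs_of_nonneg h, one_mul]⟩
    · exact ⟨-1, Or.inr rfl, by rw [abs_of_nonpos h]; ring⟩
  have hw0 : 0 < w.re := (abs_nonneg _).trans_lt h1
  set D₀ : ℝ := r₀ - |x.im| - 2 * K * w.re with hD₀
  have hKw : 0 < K * w.re := mul_pos hK hw0
  have hD0 : 0 < D₀ := by rw [hD₀]; linarith
  set X : ℂ → ℂ := fun u => x - 2 * Complex.I * K * s * (u - w) with hX
  have hXim : ∀ u, (X u).im = x.im - 2 * K * s * (u.re - w.re) := by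
    intro u; simp [hX]
  have hgap : ∀ u : ℂ, |u.im| ≤ u.re → u.re ≤ e → ‖u‖ < ε ∧
      min (K * u.re / 2 + D₀) (r₀ / 2) ≤ r₀ - K * ‖u‖ - |(X u).im| := by
    intro u a1 a2
    have a3 := norm_le_tri a1
    have a0 : 0 ≤ u.re := (abs_nonneg _).trans a1
    have a4 : K * ‖u‖ ≤ K * (3 / 2 * u.re) := mul_le_mul_of_nonneg_left a3 hK.le
    have a5 : K * u.re ≤ K * e := mul_le_mul_of_nonneg_left a2 hK.le
    have a6 := abs_nonneg x.im
    refine ⟨by linarith, ?_⟩
    have a7 : |(X u).im| = |s * (X u).im| := by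
      rcases hs1 with h | h <;> rw [h] <;> simp
    have a8 : s * (X u).im = |x.im| - 2 * K * (u.re - w.re) := by
      rw [hXim, mul_sub, hs2]
      rcases hs1 with h | h <;> rw [h] <;> ring
    rw [a7, a8]
    rcases abs_cases (|x.im| - 2 * K * (u.re - w.re)) with h | h
    · rw [h.1]; refine (min_le_left _ _).trans ?_; rw [hD₀]; linarith
    · rw [h.1]; refine (min_le_right _ _).trans ?_; linarith
  have hmem : ∀ u : ℂ, |u.im| ≤ u.re → u.re ≤ e → (X u, u) ∈ Dm r₀ ε K := by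
    intro u a1 a2
    obtain ⟨b1, b2⟩ := hgap u a1 a2
    have a0 : 0 ≤ K * u.re := mul_nonneg hK.le ((abs_nonneg _).trans a1)
    have : 0 < min (K * u.re / 2 + D₀) (r₀ / 2) := lt_min (by linarith) (by linarith)
    exact ⟨b1, by simp only; linarith⟩
  set t : ℝ := D₀ / K with ht
  have ht0 : 0 < t := div_pos hD0 hK
  have hne : ∀ u : ℂ, 0 ≤ u.re → u + (t : ℂ) ≠ 0 := by
    intro u a h
    have := congrArg Complex.re h
    simp only [Complex.add_re, Complex.ofReal_re, Complex.zero_re] at this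
    linarith
  set T : Set ℂ := {u | |u.im| < u.re ∧ u.re < e} with hT
  have hTo : IsOpen T := IsOpen.inter (isOpen_lt Complex.continuous_im.abs Complex.continuous_re)
    (isOpen_lt Complex.continuous_re continuous_const)
  have hcl : closure T ⊆ {u | |u.im| ≤ u.re ∧ u.re ≤ e} :=
    closure_minimal (fun u hu => ⟨hu.1.le, hu.2.le⟩)
      (IsClosed.inter (isClosed_le Complex.continuous_im.abs Complex.continuous_re)
        (isClosed_le Complex.continuous_re continuous_const))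
  have hTb : Bornology.IsBounded T := by
    refine (isBounded_closedBall (x := (0 : ℂ)) (r := 2 * e)).subset fun u hu => ?_
    rw [mem_closedBall_zero_iff]
    have := norm_le_tri hu.1.le
    linarith [hu.2]
  set f : ℂ → ℂ := fun u => G (X u, u) / (u + t) with hf
  have hfd : DifferentiableOn ℂ f (closure T) := by
    intro u hu
    obtain ⟨a1, a2⟩ := hcl hu
    have g1 : DifferentiableAt ℂ G (X u, u) :=
      hd.differentiableAt ((Dm_open r₀ ε K).mem_nhds (hmem u a1 a2))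
    have g2 : DifferentiableAt ℂ (fun u => (X u, u)) u := by simp only [hX]; fun_prop
    have g3 : DifferentiableAt ℂ (fun u => G (X u, u)) u :=
      DifferentiableAt.comp (f := fun u => (X u, u)) u g1 g2
    exact (g3.div (by fun_prop) (hne u ((abs_nonneg _).trans a1))).differentiableWithinAt
  have hM0 : 0 ≤ |M| / (K * e / 2 * e) := by positivity
  have hbd : ∀ u ∈ frontier T, ‖f u‖ ≤ B + |M| / (K * e / 2 * e) := by
    intro u hu
    rw [hTo.frontier_eq] at hu
    obtain ⟨a1, a2⟩ := hcl hu.1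
    have a0 : 0 ≤ u.re := (abs_nonneg _).trans a1
    have hp : 0 < ‖u + (t : ℂ)‖ := norm_pos_iff.2 (hne u a0)
    obtain ⟨b1, b2⟩ := hmem u a1 a2
    obtain ⟨c1, c2⟩ := hG (X u, u) b1 b2
    simp only [hf, norm_div]
    rw [div_le_iff₀ hp]
    rcases a1.eq_or_lt with h | h
    · have d1 := norm_le_tri a1
      have d2 := c2 (by simp only; rw [h]; linarith)
      have d3 := norm_le_add a0 ht0.le
      simp only at d2
      nlinarith [mul_le_mul_of_nonneg_left d3 hB, mul_nonneg hM0 hp.le]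
    · have d0 : u.re = e := by
        by_contra hh
        exact hu.2 ⟨h, lt_of_le_of_ne a2 hh⟩
      obtain ⟨-, d1⟩ := hgap u a1 a2
      have hKe : 0 < K * e := mul_pos hK he
      have d2 : K * e / 2 ≤ r₀ - K * ‖u‖ - |(X u).im| := by
        refine le_trans (le_min ?_ ?_) d1
        · rw [d0]; linarith
        · linarith
      have d3 : e ≤ ‖u + (t : ℂ)‖ := by
        refine le_trans ?_ (Complex.re_le_norm _)
        simp only [Complex.add_re, Complex.ofReal_re]; linarith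
      have d4 : ‖G (X u, u)‖ ≤ |M| / (K * e / 2) := by
        refine c1.trans ?_
        exact div_le_div₀ (abs_nonneg _) (le_abs_self _) (by linarith) d2
      have d5 : |M| / (K * e / 2) = |M| / (K * e / 2 * e) * e := by field_simp
      nlinarith [mul_le_mul_of_nonneg_left d3 hM0, mul_nonneg hB hp.le]
  have hfin := Complex.norm_le_of_forall_mem_frontier_norm_le hTb hfd.diffContOnCl hbd
    (subset_closure (⟨h1, h2⟩ : w ∈ T))
  have hXw : X w = x := by simp [hX]
  simp only [hf, hXw, norm_div] at hfin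
  rw [div_le_iff₀ (norm_pos_iff.2 (hne w hw0.le))] at hfin
  refine hfin.trans (mul_le_mul_of_nonneg_left ((norm_add_le _ _).trans ?_) (by positivity))
  rw [Complex.norm_real, Real.norm_of_nonneg ht0.le, ht]
  have : D₀ / K ≤ (r₀ - |x.im|) / K := by
    refine div_le_div_of_nonneg_right ?_ hK.le
    rw [hD₀]; linarith
  linarith

/-- Schwarz lemma for even functions -/
theorem even_sq {g : ℂ → ℂ} {R A : ℝ} (hd : DifferentiableOn ℂ g (ball 0 R)) (h0 : g 0 = 0)
    (he : ∀ w ∈ ball (0 : ℂ) R, g (-w) = g w) (hb : ∀ w ∈ ball (0 : ℂ) R, ‖g w‖ ≤ A) {w : ℂ}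
    (hw : w ∈ ball (0 : ℂ) R) : ‖g w‖ ≤ A * (‖w‖ / R) ^ 2 := by
  have hR : 0 < R := nonempty_ball.1 ⟨w, hw⟩
  have hn : ball (0 : ℂ) R ∈ 𝓝 (0 : ℂ) := ball_mem_nhds _ hR
  have h1 : HasDerivAt g (deriv g 0) 0 := (hd.differentiableAt hn).hasDerivAt
  have h2 : HasDerivAt (fun w => g (-w)) (-deriv g 0) 0 := by
    have := HasDerivAt.comp (h := fun w : ℂ => -w) (h₂ := g) (h₂' := deriv g 0) (0 : ℂ)
      (by rw [neg_zero]; exact h1) (hasDerivAt_neg (0 : ℂ))
    simpa [Function.comp_def] using this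
  have h3 : HasDerivAt g (-deriv g 0) 0 :=
    h2.congr_of_eventuallyEq (by filter_upwards [hn] with w hw using (he w hw).symm)
  have h4 : deriv g 0 = 0 := by
    have := h1.unique h3
    linear_combination this / 2
  rw [h4] at h1
  have h5 := Complex.dist_le_mul_div_pow_of_mapsTo_ball_of_isLittleO (n := 1) (R₂ := A) hd
    (fun z hz => by rw [h0, mem_closedBall_zero_iff]; exact hb z hz)
    (by
      have := h1.isLittleO
      simp only [sub_zero, smul_zero, pow_one] at this ⊢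
      exact this.norm_right) hw
  rwa [h0, dist_zero_right, dist_zero_right] at h5

end Slant

open Slant in
theorem sslant : SSlant := by
  intro G r₀ ε K M B hr hε hK hB hd hG
  set e : ℝ := min (ε / 2) (r₀ / (8 * K)) with he
  have he0 : 0 < e := lt_min (by positivity) (by positivity)
  have he1 : 2 * e ≤ ε := by have := min_le_left (ε / 2) (r₀ / (8 * K)); linarith
  have he2 : 8 * K * e ≤ r₀ := by
    have := min_le_right (ε / 2) (r₀ / (8 * K))
    rw [← he, le_div_iff₀ (by positivity)] at this; linarith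
  set c' : ℝ := e / r₀ with hc'
  have hc0 : 0 < c' := by positivity
  have hc1 : c' * r₀ = e := by rw [hc']; field_simp
  have hc2 : c' * K ≤ 1 / 8 := by
    rw [hc', div_mul_eq_mul_div, div_le_iff₀ hr]; linarith
  set B' : ℝ := B + |M| / (K * e / 2 * e) with hB'
  have hB0 : B ≤ B' := by
    have : 0 ≤ |M| / (K * e / 2 * e) := by positivity
    linarith
  set A : ℝ := B' * (c' + 1 / K) with hA
  have hA0 : 0 ≤ A := mul_nonneg (hB.trans hB0) (by positivity)
  have hsub : ∀ x w : ℂ, ‖w‖ < c' * (r₀ - |x.im|) →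
      0 < r₀ - |x.im| ∧ ‖w‖ < e ∧ 8 * (K * ‖w‖) ≤ r₀ - |x.im| ∧ (x, w) ∈ Dm r₀ ε K := by
    intro x w h
    have a1 : 0 < r₀ - |x.im| := (mul_pos_iff_of_pos_left hc0).1 ((norm_nonneg w).trans_lt h)
    have a2 : c' * (r₀ - |x.im|) ≤ c' * r₀ :=
      mul_le_mul_of_nonneg_left (by linarith [abs_nonneg x.im]) hc0.le
    have a3 : K * ‖w‖ ≤ K * (c' * (r₀ - |x.im|)) := mul_le_mul_of_nonneg_left h.le hK.le
    have a4 : c' * K * (r₀ - |x.im|) ≤ 1 / 8 * (r₀ - |x.im|) :=
      mul_le_mul_of_nonneg_right hc2 a1.le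
    exact ⟨a1, by linarith, by linarith, by simp only; linarith, by simp only; linarith⟩
  have hcl : ∀ x w : ℂ, ‖w‖ < c' * (r₀ - |x.im|) → ‖G (x, w)‖ ≤ A * (r₀ - |x.im|) := by
    have key : ∀ x w : ℂ, ‖w‖ < c' * (r₀ - |x.im|) → |w.im| < w.re →
        ‖G (x, w)‖ ≤ A * (r₀ - |x.im|) := by
      intro x w h h1
      obtain ⟨a1, a2, a3, -⟩ := hsub x w h
      have a4 := Complex.re_le_norm w
      have a5 : K * w.re ≤ K * ‖w‖ := mul_le_mul_of_nonneg_left a4 hK.le
      have a6 : 0 ≤ K * ‖w‖ := by positivity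
      refine (tri hr hK hB he0 he1 he2 hd (fun p b1 b2 => (hG p b1 b2).2) h1 (by linarith)
        (by linarith)).trans ?_
      rw [hA, mul_assoc]
      refine mul_le_mul_of_nonneg_left ?_ (hB.trans hB0)
      rw [add_mul, one_div_mul_eq_div]; linarith
    intro x w h
    obtain ⟨a1, a2, a3, a4⟩ := hsub x w h
    by_cases hs : ‖w‖ ≤ 2 * |w.im|
    · refine ((hG (x, w) a4.1 a4.2).2.2 hs).trans ?_
      rw [hA, mul_assoc]
      refine mul_le_mul hB0 ?_ (norm_nonneg _) (hB.trans hB0)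
      have : 0 ≤ 1 / K * (r₀ - |x.im|) := by positivity
      rw [add_mul]; simp only; linarith
    · have b1 : |w.im| < |w.re| := by
        have := Complex.norm_le_abs_re_add_abs_im w
        linarith [not_le.1 hs]
      rcases le_total 0 w.re with b | b
      · exact key x w h (by rwa [abs_of_nonneg b] at b1)
      · have := key x (-w) (by rwa [norm_neg])
          (by rw [Complex.neg_im, Complex.neg_re, abs_neg]; rwa [abs_of_nonpos b] at b1)
        rwa [(hG (x, w) a4.1 a4.2).1] at this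
  set C : ℝ := A / c' ^ 2 + 1 with hC
  have hC1 : 1 ≤ C := by
    have : 0 ≤ A / c' ^ 2 := by positivity
    linarith
  set c : ℝ := min c' (1 / (2 * C)) with hc
  have hcp : 0 < c := lt_min hc0 (by positivity)
  have hcc : c ≤ c' := min_le_left _ _
  have hc3 : c * (2 * C) ≤ 1 := by
    have := min_le_right c' (1 / (2 * C))
    rwa [← hc, le_div_iff₀ (by positivity)] at this
  have hOm : ∀ p ∈ Om r₀ c, ‖p.2‖ < c' * (r₀ - |p.1.im|) := by
    intro p hp
    have a1 : 0 < r₀ - |p.1.im| := (mul_pos_iff_of_pos_left hcp).1 ((norm_nonneg p.2).trans_lt hp)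
    exact lt_of_lt_of_le hp (mul_le_mul_of_nonneg_right hcc a1.le)
  refine ⟨c, C, by nlinarith, by nlinarith, hcp, by linarith, ?_, fun p hp => ?_, fun p hp => ?_,
    by nlinarith⟩
  · exact (hd.mono fun p hp => (hsub p.1 p.2 (hOm p hp)).2.2.2).add (by fun_prop)
  · obtain ⟨-, -, -, a⟩ := hsub p.1 p.2 (hOm p hp)
    simp only [(hG p a.1 a.2).1]
  · obtain ⟨a1, -, -, -⟩ := hsub p.1 p.2 (hOm p hp)
    have hm : ∀ w ∈ ball (0 : ℂ) (c' * (r₀ - |p.1.im|)), (p.1, w) ∈ Dm r₀ ε K := fun w hw =>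
      (hsub p.1 w (mem_ball_zero_iff.1 hw)).2.2.2
    have b := even_sq (g := fun w => G (p.1, w)) (R := c' * (r₀ - |p.1.im|))
      (A := A * (r₀ - |p.1.im|)) (hd.comp (by fun_prop) hm) (by
        have a := hm 0 (mem_ball_self (by positivity))
        have := (hG (p.1, 0) a.1 a.2).2.2 (by simp)
        simpa using this)
      (fun w hw => (hG (p.1, w) (hm w hw).1 (hm w hw).2).1)
      (fun w hw => hcl p.1 w (mem_ball_zero_iff.1 hw)) (mem_ball_zero_iff.2 (hOm p hp))
    rw [add_sub_cancel_right]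
    refine b.trans ?_
    have e1 : A * (r₀ - |p.1.im|) * (‖p.2‖ / (c' * (r₀ - |p.1.im|))) ^ 2 =
        A / c' ^ 2 * ‖p.2‖ ^ 2 / (r₀ - |p.1.im|) := by field_simp
    rw [e1]
    refine div_le_div_of_nonneg_right ?_ a1.le
    nlinarith [sq_nonneg ‖p.2‖]

end Vale.Agent.P097N
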