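import Vale.Agent.P097N.Defs

/-!
# P097N: the baseline with the law (row SBl)
-/

set_option linter.all false

noncomputable section

namespace Vale.Agent.P097N

open Filter Topology Set Metric

namespace BlR

theorem st_open (r : ℝ) : IsOpen (St r) :=
  isOpen_lt (continuous_abs.comp Complex.continuous_im) continuous_const

theorem st_convex (r : ℝ) : Convex ℝ (St r) := by
  have : St r = {y : ℂ | -r < y.im} ∩ {y : ℂ | y.im < r} := by
    ext y
    simp [St, abs_lt]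
  rw [this]
  exact (convex_halfSpace_im_gt _).inter (convex_halfSpace_im_lt _)

theorem st_mono {r r' : ℝ} (h : r ≤ r') : St r ⊆ St r' := fun _ hy => lt_of_lt_of_le hy h

theorem im_le (a b : ℂ) : |a.im| ≤ |b.im| + ‖a - b‖ := by
  have h1 := Complex.abs_im_le_norm (a - b)
  have h2 := abs_add_le b.im (a - b).im
  have e : b.im + (a - b).im = a.im := by simp
  rw [e] at h2
  linarith

theorem bl_mem {Z : ℂ × ℂ → ℂ} {r₀ c C : ℝ} (B : Bl Z r₀ c C) {p : ℂ × ℂ} (hp : p ∈ Om r₀ c) :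
    Z p ∈ St r₀ := by
  have h1 : ‖p.2‖ < c * (r₀ - |p.1.im|) := hp
  have hD : 0 < r₀ - |p.1.im| := (mul_pos_iff_of_pos_left B.hc).1 ((norm_nonneg _).trans_lt h1)
  have h2 := B.bd p hp
  have h3 : C * ‖p.2‖ ^ 2 / (r₀ - |p.1.im|) ≤ (r₀ - |p.1.im|) / 2 := by
    rw [div_le_iff₀ hD]
    have h4 : ‖p.2‖ ^ 2 ≤ (c * (r₀ - |p.1.im|)) ^ 2 := pow_le_pow_left₀ (norm_nonneg _) h1.le 2
    have h5 := mul_le_mul_of_nonneg_left h4 B.hC.le
    have h6 := mul_le_mul_of_nonneg_right B.sm (sq_nonneg (r₀ - |p.1.im|))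
    nlinarith
  have := im_le (Z p) p.1
  show |(Z p).im| < r₀
  linarith

theorem ph_law {θ h : ℂ → ℂ} {a b c : ℂ} (h1 : k1 θ h b c ≠ 0) (h2 : k1 θ h b a ≠ 0)
    (e : EE θ h a b c = 0) : Ph θ h (b, c) + Ph θ h (b, a) = 0 := by
  unfold EE at e
  unfold Ph
  field_simp
  linear_combination (-2 : ℂ) * e

theorem col_mono {Y : ℂ × ℂ → ℂ} {η ε M η' ε' : ℝ} (H : Col Y η ε M) (h1 : 0 < η') (h2 : η' ≤ η)
    (h3 : 0 < ε') (h4 : ε' ≤ ε) : Col Y η' ε' M :=
  ⟨h1, h3, H.d.mono (prod_mono (st_mono h2) (ball_subset_ball h4)),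
    fun x hx => H.zero x (st_mono h2 hx),
    fun x hx w hw => H.ev x (st_mono h2 hx) w (ball_subset_ball h4 hw),
    fun x hx w hw => H.bd x (st_mono h2 hx) w (ball_subset_ball h4 hw)⟩

theorem ee_diff (hK : SK) {θ h Q : ℂ → ℂ} {c : ℂ} {U S : Set ℂ} (H : Cv θ h Q c U)
    {a b d : ℂ → ℂ} (ha : DifferentiableOn ℂ a S) (hb : DifferentiableOn ℂ b S)
    (hd : DifferentiableOn ℂ d S) (m : ∀ x ∈ S, a x ∈ U ∧ b x ∈ U ∧ d x ∈ U) :
    DifferentiableOn ℂ (fun x => EE θ h (a x) (b x) (d x)) S := fun x hx => by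
  obtain ⟨m1, m2, m3⟩ := m x hx
  have K := (hK θ h Q c U H).1
  have p1 : DifferentiableWithinAt ℂ (fun x => (b x, d x)) S x := (hb x hx).prodMk (hd x hx)
  have p2 : DifferentiableWithinAt ℂ (fun x => (b x, a x)) S x := (hb x hx).prodMk (ha x hx)
  have q1 := (K _ m2 _ m3).1.differentiableAt.comp_differentiableWithinAt x p1
  have q2 := (K _ m2 _ m1).2.1.differentiableAt.comp_differentiableWithinAt x p2
  have q3 := (K _ m2 _ m1).1.differentiableAt.comp_differentiableWithinAt x p2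
  have q4 := (K _ m2 _ m3).2.1.differentiableAt.comp_differentiableWithinAt x p1
  exact (q1.mul q2).add (q3.mul q4)

end BlR

open BlR in
theorem sbl (hK : SK) (hCr : SCrit) (hCo : SCol) (hB : SBase) : SBl := by
  intro θ h Q Y c r₀ A η ε M hη cv gr col law
  have r0 : 0 < r₀ := col.hη.trans_le hη
  obtain ⟨c₁, c0, c1, cr, kn⟩ := hCr θ h Q c r₀ A r0 cv gr
  obtain ⟨C₀, C0, bd⟩ := hCo Y η ε M col
  obtain ⟨η₁, e0, e1, e2⟩ : ∃ η₁ : ℝ, 0 < η₁ ∧ η₁ ≤ η ∧ 4 * η₁ ≤ r₀ :=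
    ⟨min η (r₀ / 4), lt_min col.hη (by linarith), min_le_left _ _, by
      linarith [min_le_right η (r₀ / 4)]⟩
  obtain ⟨ε₁, f0, f1, f2, f3, f4⟩ : ∃ ε₁ : ℝ, 0 < ε₁ ∧ ε₁ ≤ ε ∧ 4 * ε₁ ≤ η₁ ∧ 8 * ε₁ ≤ c₁ * r₀ ∧
      4 * C₀ * ε₁ ≤ 1 := by
    refine ⟨min (min ε (η₁ / 4)) (min (c₁ * r₀ / 8) (1 / (4 * C₀ + 1))),
      lt_min (lt_min col.hε (by linarith)) (lt_min (by positivity) (by positivity)),
      (min_le_left _ _).trans (min_le_left _ _), ?_, ?_, ?_⟩
    · linarith [(min_le_left _ (min (c₁ * r₀ / 8) (1 / (4 * C₀ + 1)))).trans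
        (min_le_right ε (η₁ / 4))]
    · linarith [(min_le_right (min ε (η₁ / 4)) _).trans
        (min_le_left (c₁ * r₀ / 8) (1 / (4 * C₀ + 1)))]
    · have := (min_le_right (min ε (η₁ / 4)) _).trans
        (min_le_right (c₁ * r₀ / 8) (1 / (4 * C₀ + 1)))
      refine (mul_le_mul_of_nonneg_left this (by positivity)).trans ?_
      rw [mul_one_div, div_le_one (by positivity)]
      linarith
  have cr0 : c₁ * r₀ ≤ r₀ := by nlinarith
  obtain ⟨Z, c', C, g1, B, zy⟩ := hB (Ph θ h) Y r₀ c₁ η₁ ε₁ M e2 c0 c1 cr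
    (col_mono col e0 e1 f0 f1) (by
      intro x w hw w0 hm hp
      have hw' : ‖w‖ < ε₁ := by simpa using hw
      have hx : x ∈ St η₁ := by
        have := st_convex η₁ hm hp (a := 1 / 2) (b := 1 / 2) (by norm_num) (by norm_num)
          (by norm_num)
        have e : (1 / 2 : ℝ) • (x - w) + (1 / 2 : ℝ) • (x + w) = x := by
          simp only [Complex.real_smul]
          push_cast
          ring
        rwa [e] at this
      have w1 : 0 < ‖w‖ := norm_pos_iff.2 w0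
      have b1 : ∀ y ∈ St η₁, ‖Y (y, w) - y‖ ≤ ‖w‖ / 4 := fun y hy => by
        refine ((bd w (ball_subset_ball f1 hw)).1 y (st_mono e1 hy)).trans ?_
        have : C₀ * ‖w‖ ≤ 1 / 4 := by nlinarith
        nlinarith
      have b2 : ∀ y ∈ St η₁, |(Y (y, w)).im| < r₀ / 2 := fun y hy => by
        have h1 := im_le (Y (y, w)) y
        have h2 := b1 y hy
        have h3 : |y.im| < η₁ := hy
        linarith
      have b3 : ∀ y ∈ St η₁, Y (y, w) ∈ St r₀ := fun y hy => (b2 y hy).trans (by linarith)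
      have b4 : ∀ y ∈ St η₁, ‖y - x‖ = ‖w‖ → k1 θ h (Y (x, w)) (Y (y, w)) ≠ 0 := fun y hy e => by
        have h1 := b1 y hy
        have h2 := b1 x hx
        have h3 := b2 x hx
        refine kn _ (b3 x hx) _ (fun k => ?_) ?_
        · have : y - x = (Y (x, w) - x) - (Y (y, w) - y) := by rw [k]; ring
          have h4 := norm_sub_le (Y (x, w) - x) (Y (y, w) - y)
          rw [← this, e] at h4
          linarith
        · have : Y (y, w) - Y (x, w) = (Y (y, w) - y) - (Y (x, w) - x) + (y - x) := by ring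
          have h4 := norm_add_le ((Y (y, w) - y) - (Y (x, w) - x)) (y - x)
          have h5 := norm_sub_le (Y (y, w) - y) (Y (x, w) - x)
          rw [← this, e] at h4
          have h6 : c₁ * (r₀ / 2) ≤ c₁ * (r₀ - |(Y (x, w)).im|) :=
            mul_le_mul_of_nonneg_left (by linarith) c0.le
          linarith
      exact ph_law (b4 _ hp (by simp)) (b4 _ hm (by simp))
        (law x (st_mono e1 hx) w (ball_subset_ball f1 hw) (st_mono e1 hm) (st_mono e1 hp)
          (b3 _ hm) (b3 _ hx) (b3 _ hp)))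
  refine ⟨Z, c', C, η₁ / 2, by linarith, by linarith, g1.trans f1, B, zy, fun x w hm hx hp => ?_⟩
  have c2 := B.hc
  have om : ∀ y : ℂ, (y, w) ∈ Om r₀ c' ↔ |y.im| < r₀ - ‖w‖ / c' := fun y => by
    show ‖w‖ < c' * (r₀ - |y.im|) ↔ _
    rw [← div_lt_iff₀' c2]
    constructor <;> intro k <;> linarith
  set ρ := r₀ - ‖w‖ / c' - |w.im| with hρ
  have xS : x ∈ St ρ := by
    have h1 := (om _).1 hm
    have h2 := (om _).1 hp
    show |x.im| < ρ
    rw [Complex.sub_im, abs_lt] at h1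
    rw [Complex.add_im, abs_lt] at h2
    rw [hρ]
    rcases abs_cases x.im with k | k <;> rcases abs_cases w.im with l | l <;> linarith
  have inS : ∀ y ∈ St ρ, (y - w, w) ∈ Om r₀ c' ∧ (y, w) ∈ Om r₀ c' ∧ (y + w, w) ∈ Om r₀ c' :=
    fun y hy => by
      have h1 : |y.im| < ρ := hy
      have h2 := abs_nonneg w.im
      have h3 := abs_sub y.im w.im
      have h4 := abs_add_le y.im w.im
      rw [om, om, om, Complex.sub_im, Complex.add_im]
      exact ⟨by linarith, by linarith, by linarith⟩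
  have D : DifferentiableOn ℂ (fun y => EE θ h (Z (y - w, w)) (Z (y, w)) (Z (y + w, w))) (St ρ) :=
    ee_diff hK cv
      (B.d.comp (f := fun y : ℂ => (y - w, w)) (by fun_prop) fun y hy => (inS y hy).1)
      (B.d.comp (f := fun y : ℂ => (y, w)) (by fun_prop) fun y hy => (inS y hy).2.1)
      (B.d.comp (f := fun y : ℂ => (y + w, w)) (by fun_prop) fun y hy => (inS y hy).2.2)
      fun y hy => ⟨bl_mem B (inS y hy).1, bl_mem B (inS y hy).2.1, bl_mem B (inS y hy).2.2⟩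
  have ρ0 : 0 < ρ := (abs_nonneg _).trans_lt xS
  have zS : (0 : ℂ) ∈ St ρ := by simpa [St] using ρ0
  have hw : ‖w‖ < ε₁ := by
    have h1 : ‖w‖ < c' * (r₀ - |x.im|) := hx
    have h2 := mul_nonneg c2.le (abs_nonneg x.im)
    linarith
  refine (D.analyticOnNhd (st_open ρ)).eqOn_zero_of_preconnected_of_eventuallyEq_zero
    (st_convex ρ).isPreconnected zS ?_ xS
  have z2 : (0 : ℂ) ∈ St (η₁ / 4) := by simpa [St] using e0
  filter_upwards [(st_open ρ).mem_nhds zS, (st_open _).mem_nhds z2] with y hy hy'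
  obtain ⟨o1, o2, o3⟩ := inS y hy
  have h1 : |y.im| < η₁ / 4 := hy'
  have h2 := Complex.abs_im_le_norm w
  have h3 : |(y - w).im| < η₁ / 2 := by
    have := abs_sub y.im w.im
    rw [Complex.sub_im]
    linarith
  have h4 : |(y + w).im| < η₁ / 2 := by
    have := abs_add_le y.im w.im
    rw [Complex.add_im]
    linarith
  have h5 : |y.im| < η₁ / 2 := by linarith
  have s1 := bl_mem B o1
  have s2 := bl_mem B o2
  have s3 := bl_mem B o3
  show EE θ h (Z (y - w, w)) (Z (y, w)) (Z (y + w, w)) = 0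
  rw [zy _ o1 h3] at s1 ⊢
  rw [zy _ o2 h5] at s2 ⊢
  rw [zy _ o3 h4] at s3 ⊢
  exact law y (show |y.im| < η by linarith) w (by simpa using hw.trans_le f1)
    (show |(y - w).im| < η by linarith) (show |(y + w).im| < η by linarith) s1 s2 s3

end Vale.Agent.P097N
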