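import Vale.Agent.P097N.Defs

/-!
# P097N: second order bounds on the collar (row 810)
-/

set_option linter.all false

noncomputable section

namespace Vale.Agent.P097N

open Filter Topology Set Metric Asymptotics

namespace ColL

theorem st_open (r : ℝ) : IsOpen (St r) :=
  isOpen_lt (continuous_abs.comp Complex.continuous_im) continuous_const

theorem st_convex (r : ℝ) : Convex ℝ (St r) := by
  have : St r = {y : ℂ | -r < y.im} ∩ {y : ℂ | y.im < r} := by
    ext y
    simp [St, abs_lt]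
  rw [this]
  exact (convex_halfSpace_im_gt _).inter (convex_halfSpace_im_lt _)

/-- the Schwarz lemma for even functions which vanish at the origin -/
theorem even2 {g : ℂ → ℂ} {ε M : ℝ} (hd : DifferentiableOn ℂ g (ball 0 ε)) (h0 : g 0 = 0)
    (he : ∀ w ∈ ball (0 : ℂ) ε, g (-w) = g w) (hb : ∀ w ∈ ball (0 : ℂ) ε, ‖g w‖ ≤ M) :
    ∀ w ∈ ball (0 : ℂ) ε, ‖g w‖ ≤ M / ε ^ 2 * ‖w‖ ^ 2 := by
  intro w hw
  have hε : 0 < ε := nonempty_ball.1 ⟨w, hw⟩
  have h1 : HasDerivAt g (deriv g 0) 0 :=
    (hd.differentiableAt (ball_mem_nhds _ hε)).hasDerivAt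
  have h2 : HasDerivAt (fun w => g (-w)) (deriv g 0 * -1) 0 :=
    HasDerivAt.comp_of_eq (h := fun w : ℂ => -w) (h₂ := g) 0 h1 (hasDerivAt_neg' 0) (by simp)
  have h3 : HasDerivAt g (deriv g 0 * -1) 0 :=
    h2.congr_of_eventuallyEq (by
      filter_upwards [ball_mem_nhds (0 : ℂ) hε] with w hw using (he w hw).symm)
  have h4 : deriv g 0 = 0 := by linear_combination (h1.unique h3) / 2
  rw [h4] at h1
  have h5 := Complex.dist_le_mul_div_pow_of_mapsTo_ball_of_isLittleO (n := 1) (R₂ := M) hd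
    (fun z hz => by simpa [h0] using hb z hz)
    (by simpa using h1.isLittleO.norm_right) hw
  rw [h0, dist_zero_right, dist_zero_right] at h5
  refine h5.trans_eq ?_
  rw [div_pow]
  ring

end ColL

theorem scol : SCol := by
  intro Y η ε M C
  have hη := C.hη
  have hε := C.hε
  have hM : 0 ≤ M := (norm_nonneg _).trans
    (C.bd 0 (by simpa [St] using hη) 0 (mem_ball_self hε))
  have h1 : ∀ w ∈ ball (0 : ℂ) ε, ∀ x ∈ St η, ‖Y (x, w) - x‖ ≤ M / ε ^ 2 * ‖w‖ ^ 2 := by
    intro w hw x hx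
    refine ColL.even2 (g := fun w => Y (x, w) - x) ?_ (by simp [C.zero x hx])
      (fun w hw => by simp only [C.ev x hx w hw]) (fun w hw => C.bd x hx w hw) w hw
    exact (C.d.comp (f := fun w : ℂ => (x, w)) (by fun_prop) fun w hw => ⟨hx, hw⟩).sub_const x
  have k0 : 0 ≤ M / ε ^ 2 := by positivity
  have k1 : 0 ≤ 4 * (M / ε ^ 2) / η := by positivity
  refine ⟨M / ε ^ 2 + 4 * (M / ε ^ 2) / η, by positivity, fun w hw => ⟨fun x hx => ?_, ?_⟩⟩
  · refine (h1 w hw x hx).trans ?_
    gcongr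
    linarith
  · intro x hx hx'
    have hd : DifferentiableOn ℂ (fun x => Y (x, w) - x) (St η) :=
      (C.d.comp (f := fun x : ℂ => (x, w)) (by fun_prop) fun x hx => ⟨hx, hw⟩).sub
        differentiableOn_id
    have hs : ∀ z ∈ St (η / 2), ball z (η / 2) ⊆ St η := by
      intro z hz y hy
      have a1 : |z.im| < η / 2 := hz
      have a2 : |(y - z).im| < η / 2 :=
        (Complex.abs_im_le_norm _).trans_lt (mem_ball_iff_norm.1 hy)
      rw [Complex.sub_im] at a2
      show |y.im| < η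
      rw [abs_lt] at a1 a2 ⊢
      constructor <;> linarith [a1.1, a1.2, a2.1, a2.2]
    have h2 := (ColL.st_convex (η / 2)).norm_image_sub_le_of_norm_deriv_le
      (f := fun x => Y (x, w) - x) (C := 2 * (M / ε ^ 2 * ‖w‖ ^ 2) / (η / 2))
      (fun z hz => hd.differentiableAt ((ColL.st_open η).mem_nhds
        (hs z hz (mem_ball_self (by linarith)))))
      (fun z hz => Complex.norm_deriv_le_div_of_mapsTo_ball (hd.mono (hs z hz)) (fun y hy => by
        rw [mem_closedBall, dist_eq_norm]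
        refine (norm_sub_le _ _).trans ?_
        have b1 := h1 w hw y (hs z hz hy)
        have b2 := h1 w hw z (hs z hz (mem_ball_self (by linarith)))
        linarith) (by linarith)) hx' hx
    have e1 : Y (x, w) - x - (Y (x - w, w) - (x - w)) = Y (x, w) - Y (x - w, w) - w := by ring
    rw [e1, sub_sub_cancel] at h2
    refine h2.trans ?_
    have e2 : 2 * (M / ε ^ 2 * ‖w‖ ^ 2) / (η / 2) * ‖w‖ = 4 * (M / ε ^ 2) / η * ‖w‖ ^ 3 := by
      field_simp
      ring
    rw [e2]
    gcongr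
    linarith

end Vale.Agent.P097N
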