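import Vale.Agent.P097N.Defs
import Vale.Agent.P097.H407.Hol

/-!
# P097N: removable singularity with a parameter
-/

set_option linter.all false

noncomputable section

namespace Vale.Agent.P097N

open Filter Topology Set Metric

theorem srem : SRem := by
  intro F U r hU hd hc
  rintro ⟨x, w⟩ ⟨hx, hw⟩
  refine DifferentiableAt.differentiableWithinAt ?_
  by_cases w0 : w ≠ 0
  · exact hd x hx w hw w0
  push Not at w0
  subst w0
  have hr : 0 < r := by simpa using hw
  have oW : IsOpen (ball (0 : ℂ) r ∩ (closedBall (0 : ℂ) (r / 4))ᶜ) :=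
    isOpen_ball.inter isClosed_closedBall.isOpen_compl
  have oV : IsOpen (U ×ˢ ball (0 : ℂ) (r / 4)) := hU.prod isOpen_ball
  have h1 : DifferentiableOn ℂ (fun q : ℂ × ℂ => ∮ t in C(0, r / 2), (t - q.2)⁻¹ • F (q.1, t))
      (U ×ˢ ball 0 (r / 4)) := by
    refine P097.Hol.differentiableOn_circleIntegral
      (G := fun p : (ℂ × ℂ) × ℂ => (p.2 - p.1.2)⁻¹ • F (p.1.1, p.2)) (by linarith) oV oW ?_ ?_
    · intro t ht
      rw [mem_sphere_zero_iff_norm] at ht
      refine ⟨mem_ball_zero_iff.2 (by linarith), fun k => ?_⟩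
      rw [mem_closedBall_zero_iff] at k
      linarith
    · rintro ⟨⟨y, u⟩, t⟩ ⟨⟨hy, hu⟩, ht, ht'⟩
      have k1 : t ≠ 0 := fun k => ht' (by
        show t ∈ closedBall (0 : ℂ) (r / 4)
        rw [k]
        exact mem_closedBall_self (by linarith))
      have k2 : t - u ≠ 0 := fun k => ht' (by
        show t ∈ closedBall (0 : ℂ) (r / 4)
        rw [sub_eq_zero.1 k]
        exact ball_subset_closedBall hu)
      refine DifferentiableAt.differentiableWithinAt (DifferentiableAt.fun_smul ?_ ?_)
      · exact DifferentiableAt.fun_inv (by fun_prop) k2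
      · exact DifferentiableAt.comp (f := fun p : (ℂ × ℂ) × ℂ => (p.1.1, p.2)) _
          (hd y hy t ht k1) (by fun_prop)
  have m : ((x, (0 : ℂ)) : ℂ × ℂ) ∈ U ×ˢ ball (0 : ℂ) (r / 4) := ⟨hx, mem_ball_self (by linarith)⟩
  refine ((h1.differentiableAt (oV.mem_nhds m)).const_smul
    (2 * Real.pi * Complex.I : ℂ)⁻¹).congr_of_eventuallyEq ?_
  filter_upwards [oV.mem_nhds m] with q hq
  have sl : ∀ t ∈ ball (0 : ℂ) r, t ≠ 0 → DifferentiableAt ℂ (fun t => F (q.1, t)) t :=
    fun t ht k => DifferentiableAt.comp (f := fun t : ℂ => (q.1, t)) _ (hd q.1 hq.1 t ht k)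
      (by fun_prop)
  refine (Complex.two_pi_I_inv_smul_circleIntegral_sub_inv_smul_of_differentiable_on_off_countable
    (f := fun t => F (q.1, t)) (countable_singleton 0) (ball_subset_ball (by linarith) hq.2)
    (fun t ht => ContinuousAt.continuousWithinAt ?_) fun t ht =>
      sl t (ball_subset_ball (by linarith) ht.1) ht.2).symm
  by_cases k : t = 0
  · rw [k]
    exact hc q.1 hq.1
  · exact (sl t (closedBall_subset_ball (by linarith) ht) k).continuousAt

end Vale.Agent.P097N
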