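import Vale.Agent.P097N.Defs

/-!
# P097N: the chord seen from both ends is the same line
-/

set_option linter.all false

noncomputable section

namespace Vale.Agent.P097N

open Complex

theorem alg_aux {v z z' m k g m' k' g' p q p' q' : ℂ} (hz : z * z' = 1) (hm : m ≠ 0) (hm' : m' ≠ 0)
    (hA : z * (m - I * k * g) + (m' - I * k' * g') = 0)
    (hB : z' * (m + I * k * g) + (m' + I * k' * g') = 0)
    (hC : m * p - k * q + (m' * p' - k' * q') = 0)
    (h1 : 1 - I * (-2 * k / m / 2) * g ≠ 0) (h2 : 1 - I * (-2 * k' / m' / 2) * g' ≠ 0) :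
    (v * z) ^ 2 * (1 + I * (-2 * k / m / 2) * g) / (1 - I * (-2 * k / m / 2) * g) =
      v ^ 2 * (1 + I * (-2 * k' / m' / 2) * g') / (1 - I * (-2 * k' / m' / 2) * g') ∧
    (p + -2 * k / m / 2 * q) * (v * z) / (1 - I * (-2 * k / m / 2) * g) =
      (p' + -2 * k' / m' / 2 * q') * v / (1 - I * (-2 * k' / m' / 2) * g') := by
  have hD : m + I * k * g = -z * (m' + I * k' * g') := by
    linear_combination z * hB - (m + I * k * g) * hz
  have e1 : 1 - I * (-2 * k / m / 2) * g = -z * (m' + I * k' * g') / m := by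
    rw [← hD]; field_simp; ring
  have e2 : 1 - I * (-2 * k' / m' / 2) * g' = (m' + I * k' * g') / m' := by field_simp; ring
  have e3 : 1 + I * (-2 * k / m / 2) * g = (m - I * k * g) / m := by field_simp; ring
  have e4 : 1 + I * (-2 * k' / m' / 2) * g' = -(z * (m - I * k * g)) / m' := by
    rw [show -(z * (m - I * k * g)) = m' - I * k' * g' by linear_combination -hA]
    field_simp; ring
  have e5 : p + -2 * k / m / 2 * q = (m * p - k * q) / m := by field_simp; ring
  have e6 : p' + -2 * k' / m' / 2 * q' = -(m * p - k * q) / m' := by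
    rw [show -(m * p - k * q) = m' * p' - k' * q' by linear_combination -hC]
    field_simp; ring
  have z0 : z ≠ 0 := left_ne_zero_of_mul_eq_one hz
  have d0 : m' + I * k' * g' ≠ 0 := fun h => h2 (by rw [e2, h, zero_div])
  rw [e1, e2, e3, e4, e5, e6]
  generalize m' + I * k' * g' = d at *
  constructor <;> field_simp

theorem salg : SAlg := by
  intro θ h b c h1 h2 h3 h4
  have hs : sin (θ c - θ b) = -sin (θ b - θ c) := by rw [← sin_neg, neg_sub]
  have hc : cos (θ c - θ b) = cos (θ b - θ c) := by rw [← cos_neg, neg_sub]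
  have hcs := cos_sq_add_sin_sq (θ b - θ c)
  have hu : exp (I * θ b) = exp (I * θ c) * (cos (θ b - θ c) + sin (θ b - θ c) * I) := by
    rw [← exp_mul_I, ← exp_add]; congr 1; ring
  have h2' : ∀ x : ℂ, exp (2 * I * x) = exp (I * x) ^ 2 := fun x => by
    rw [sq, ← exp_add]; congr 1; ring
  simp only [LU, LW, Ph, h2', hu] at h3 h4 ⊢
  refine alg_aux (z' := cos (θ b - θ c) - sin (θ b - θ c) * I)
    (by linear_combination hcs - sin (θ b - θ c) ^ 2 * I_sq) h1 h2 ?_ ?_ ?_ h3 h4
  · simp only [kk, k1, hs, hc]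
    linear_combination (-deriv θ b * deriv h c + I * deriv θ b * deriv θ c * h c) * hcs -
      sin (θ b - θ c) * (deriv θ c * h b - deriv θ c * h c * cos (θ b - θ c) -
        deriv h c * sin (θ b - θ c)) * deriv θ b * I_sq
  · simp only [kk, k1, hs, hc]
    linear_combination (-deriv θ b * deriv h c - I * deriv θ b * deriv θ c * h c) * hcs -
      sin (θ b - θ c) * (deriv θ c * h b - deriv θ c * h c * cos (θ b - θ c) -
        deriv h c * sin (θ b - θ c)) * deriv θ b * I_sq
  · simp only [kk, k1, hs, hc]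
    ring

end Vale.Agent.P097N
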