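import Vale.Agent.P097N.Defs2
import Vale.Agent.P097Top.Defs

/-!
# P097N: no calm ball at both boundary lines
-/

set_option linter.all false

noncomputable section

namespace Vale.Agent.P097N

open Filter Topology Set Metric Complex
open Vale.Agent.P097Top (NatB)

namespace Bridge

variable {θ h Q : ℂ → ℂ} {Y : ℂ × ℂ → ℂ} {c : ℂ} {r A κ : ℝ}

theorem op (r : ℝ) : IsOpen (St r) :=
  isOpen_lt (continuous_abs.comp continuous_im) continuous_const

theorem cvx (r : ℝ) : Convex ℝ (St r) := by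
  have : St r = {z : ℂ | -r < z.im} ∩ {z : ℂ | z.im < r} := Set.ext fun z => abs_lt (a := z.im)
  exact this ▸ (convex_halfSpace_im_gt _).inter (convex_halfSpace_im_lt _)

theorem neg_mem {y : ℂ} (e : y ∈ St r) : -y ∈ St r := by simpa [St] using e

theorem below (hr : 0 < r) {ζ : ℂ} (e : ζ.im = r) {p : ℂ → Prop} (hp : ∀ᶠ z in 𝓝 ζ, p z) :
    ∃ z ∈ St r, p z := by
  have t : Tendsto (fun t : ℝ => ζ - t * I) (𝓝[>] 0) (𝓝 ζ) :=
    (Continuous.tendsto' (by fun_prop) _ _ (by simp)).mono_left nhdsWithin_le_nhds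
  obtain ⟨t, a, b⟩ := ((t.eventually hp).and (Ioo_mem_nhdsGT hr)).exists
  exact ⟨_, show |_| < r by simp [e, abs_lt]; constructor <;> linarith [b.1, b.2], a⟩

theorem not_over (hr : 0 < r) (d : DifferentiableOn ℂ θ (St r)) (N : NatB r θ) : ¬ Over1 θ r := by
  rintro ⟨ζ, ρ, F, e, hρ, dF, hF⟩
  obtain ⟨ζ', e', m, n⟩ : ∃ ζ' : ℂ, ζ'.im = r ∧ ζ' ∈ ball ζ ρ ∧ F ζ' ≠ 0 := by
    rcases (dF.analyticAt (ball_mem_nhds ζ hρ)).eventually_eq_zero_or_eventually_ne_zero with a | a
    · obtain ⟨z, b, a1, a2⟩ := below hr e (a.and (ball_mem_nhds ζ hρ))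
      exact (exp_ne_zero _ ((hF z a2 b).symm.trans a1)).elim
    have t : Tendsto (fun t : ℝ => ζ + t) (𝓝[>] 0) (𝓝[≠] ζ) :=
      tendsto_nhdsWithin_iff.2 ⟨(Continuous.tendsto' (by fun_prop) _ _ (by simp)).mono_left
        nhdsWithin_le_nhds, eventually_nhdsWithin_of_forall fun t ht => by simpa using ne_of_gt ht⟩
    obtain ⟨t, a1, a2⟩ := (t.eventually (a.and
      (mem_nhdsWithin_of_mem_nhds (ball_mem_nhds ζ hρ)))).exists
    exact ⟨_, by simpa using e, a2, a1⟩
  have aF := fun z hz => (dF z hz).differentiableAt (isOpen_ball.mem_nhds hz)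
  obtain ⟨s, hs, sub⟩ := Metric.eventually_nhds_iff_ball.1 ((((aF _ m).continuousAt.div_const
    (F ζ')).eventually (isOpen_slitPlane.mem_nhds (by simp [n]))).and (isOpen_ball.mem_nhds m))
  have dG : ∀ z ∈ ball ζ' s, HasDerivAt (fun z => log (F z / F ζ') / (2 * I))
      (deriv F z / F ζ' / (F z / F ζ') / (2 * I)) z := fun z hz =>
    (((aF z (sub z hz).2).hasDerivAt.div_const _).clog (sub z hz).1).div_const _
  have o := isOpen_ball.inter (op r) (s := ball ζ' s)
  obtain ⟨a, ha⟩ := o.exists_is_const_of_deriv_eq_zero ((convex_ball _ _).inter (cvx r)).isPreconnected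
    (f := fun z => log (F z / F ζ') / (2 * I) - θ z) (fun z hz =>
      (dG z hz.1).differentiableAt.differentiableWithinAt.sub ((d z hz.2).mono inter_subset_right))
    fun z hz => by
      have t := ((d z hz.2).differentiableAt ((op r).mem_nhds hz.2)).hasDerivAt
      have u : deriv F z = exp (2 * I * θ z) * (2 * I * deriv θ z) :=
        ((t.const_mul (2 * I)).cexp.congr_of_eventuallyEq (by
          filter_upwards [o.mem_nhds hz] with y hy using hF y (sub y hy.1).2 hy.2)).deriv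
      refine ((dG z hz.1).sub t).deriv.trans ?_
      rw [u, hF z (sub z hz.1).2 hz.2]
      field_simp
      simp
  classical
  refine N ζ' s ((St r).piecewise θ fun z => log (F z / F ζ') / (2 * I) - a)
    (by rw [e', abs_of_pos hr]) hs (fun z hz => DifferentiableAt.differentiableWithinAt ?_)
    fun z hz => piecewise_eq_of_mem _ _ _ hz
  rcases hz with hz | hz
  · exact ((d z hz).differentiableAt ((op r).mem_nhds hz)).congr_of_eventuallyEq (by
      filter_upwards [(op r).mem_nhds hz] with y hy using piecewise_eq_of_mem _ _ _ hy)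
  · refine ((dG z hz).differentiableAt.sub_const a).congr_of_eventuallyEq ?_
    filter_upwards [isOpen_ball.mem_nhds hz] with y hy
    by_cases b : y ∈ St r
    · rw [piecewise_eq_of_mem _ _ _ b, ← ha y ⟨hy, b⟩, sub_sub_cancel]
    · exact piecewise_eq_of_notMem _ _ _ b

/-- the data -/
structure Dat (θ h Q : ℂ → ℂ) (Y : ℂ × ℂ → ℂ) (c : ℂ) (r A κ : ℝ) : Prop where
  cv : Cv θ h Q c (St r)
  gr : Gr θ Q r A
  col : Col Y κ κ κ
  law : ∀ x ∈ St κ, ∀ w ∈ ball (0 : ℂ) κ, x - w ∈ St κ → x + w ∈ St κ →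
    EE θ h (Y (x - w, w)) (Y (x, w)) (Y (x + w, w)) = 0
  nat : NatB r θ

theorem d1 (f : ℂ → ℂ) : deriv (fun y => f (-y)) = fun y => -deriv f (-y) :=
  funext fun y => deriv_comp_neg f y

theorem d2 (f : ℂ → ℂ) : deriv (fun y => -f (-y)) = fun y => deriv f (-y) :=
  funext fun y => by rw [deriv.fun_neg, d1, neg_neg]

theorem dn {f : ℂ → ℂ} (d : DifferentiableOn ℂ f (St r)) :
    DifferentiableOn ℂ (fun y => f (-y)) (St r) :=
  d.comp differentiable_neg.differentiableOn fun _ => neg_mem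

theorem EE_neg (θ h : ℂ → ℂ) (a b c : ℂ) :
    EE (fun y => -θ (-y)) (fun y => h (-y)) a b c = -EE θ h (-c) (-b) (-a) := by
  have e : ∀ u v : ℂ, -u - -v = -(u - v) := fun u v => by ring
  simp only [EE, kk, k1, d1, d2, e, cos_neg, sin_neg]
  ring

theorem Dat.neg (D : Dat θ h Q Y c r A κ) : Dat (fun y => -θ (-y)) (fun y => h (-y))
    (fun y => Q (-y)) (fun q => -Y (-q.1, q.2)) c r A κ := by
  refine ⟨⟨op r, (dn D.cv.dθ).neg, dn D.cv.dh, dn D.cv.dQ, D.cv.c0, fun y hy => ?_, fun y hy => ?_⟩,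
    fun y hy => ?_, ⟨D.col.hη, D.col.hε, (D.col.d.comp (by fun_prop)
      fun q hq => ⟨neg_mem hq.1, hq.2⟩).neg, fun x hx => ?_, fun x hx w hw => ?_,
      fun x hx w hw => ?_⟩, fun x hx w hw a b => ?_, fun y₀ ρ θ' e hρ d q => ?_⟩
  · simp only [d1, d2, ← D.cv.ode _ (neg_mem hy)]; ring
  · simp only [d1, d2, D.cv.hq _ (neg_mem hy)]
  · simpa only [d2, neg_im, abs_neg] using D.gr _ (neg_mem hy)
  · simp only [D.col.zero _ (neg_mem hx), neg_neg]
  · simp only [D.col.ev _ (neg_mem hx) w hw]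
  · have := D.col.bd _ (neg_mem hx) w hw
    rwa [← norm_neg, neg_sub', neg_neg] at this
  · have := D.law _ (neg_mem hx) w hw (by rw [← neg_add']; exact neg_mem b)
      (by rw [neg_add_eq_sub, ← neg_sub]; exact neg_mem a)
    simp only [EE_neg, neg_neg, neg_eq_zero]
    rwa [neg_add', neg_sub, ← neg_add_eq_sub x]
  · exact D.nat (-y₀) ρ (fun y => -θ' (-y)) (by simpa using e) hρ (d.comp
      differentiable_neg.differentiableOn fun z hz => hz.imp neg_mem fun a => by
        rwa [mem_ball, ← dist_neg_neg, neg_neg]).neg fun z hz => by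
          simp only [q (neg_mem hz), neg_neg]

theorem law_eq (θ h : ℂ → ℂ) (a b c : ℂ) : P097Top.law θ h a b c = EE θ h a b c := by
  simp only [P097Top.law, P097Top.aa, P097Top.bb, EE, kk, k1, ← neg_sub (θ b) (θ a),
    ← neg_sub (θ b) (θ c), cos_neg, sin_neg]
  ring

end Bridge

open Bridge

theorem nocalm_of (H : SNoCalm1) : P097Top.Spec_NOCALM := by
  rintro r c κ θ h Q Y C S hκ ⟨A, hA⟩ N
  have hr := C.rpos
  have D : Dat θ h Q Y c r A κ := ⟨⟨op r, C.dθ, C.dH, C.dQ, ofReal_ne_zero.2 C.cpos.ne', C.laz,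
    C.ode⟩, hA, ⟨S.pos, S.pos, S.an.differentiableOn, fun x hx => by
      simpa [sub_eq_zero] using S.bd (x, 0) ⟨hx, mem_ball_self S.pos⟩,
      fun x hx w hw => S.ev (x, w) ⟨hx, hw⟩, fun x hx w hw =>
        (S.bd (x, w) ⟨hx, hw⟩).trans (mem_ball_zero_iff.1 hw).le⟩,
    fun x hx w hw a b => (law_eq ..).symm.trans (S.law (x, w) ⟨hx, hw⟩ a b), N⟩
  have top := fun {θ h Q Y} (D : Dat θ h Q Y c r A κ) => H θ h Q Y c r A κ κ κ
    (by linarith [S.pos]) D.cv D.gr D.col (fun x hx w hw a b _ _ _ => D.law x hx w hw a b)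
    (not_over hr D.cv.dθ D.nat)
  obtain ⟨e₁, a₁, h1, h2, k1⟩ := top D
  obtain ⟨e₂, a₂, h3, h4, k2⟩ := top D.neg
  refine ⟨min e₁ e₂, min a₁ a₂, lt_min h1 h3, lt_min h2 h4, fun y₀ hy hd => ?_⟩
  have hy : |y₀.im| < r := hy
  unfold P097Top.dp at hd ⊢
  rcases le_total 0 y₀.im with s | s
  · rw [abs_of_nonneg s] at hy hd ⊢
    obtain ⟨y, a, b⟩ := k1 y₀ hy (hd.trans_le (min_le_left _ _))
    exact ⟨y, a, b.symm.imp (fun e => (min_le_left _ _).trans e.le)
      fun e => (min_le_left _ _).trans e.le⟩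
  · rw [abs_of_nonpos s] at hy hd ⊢
    obtain ⟨y, a, b⟩ := k2 (-y₀) hy (hd.trans_le (min_le_right _ _))
    rw [d2] at b
    exact ⟨-y, by rwa [mem_ball, ← dist_neg_neg, neg_neg], b.symm.imp
      (fun e => (min_le_right _ _).trans e.le) fun e => (min_le_right _ _).trans e.le⟩

end Vale.Agent.P097N
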