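import Vale.Agent.P097N.Defs

/-!
# P097N: coefficients and extensions in one variable (row 808)
-/

set_option linter.all false

noncomputable section

namespace Vale.Agent.P097N

open Filter Topology Set Metric

theorem sext : SExt := by
  intro F x₀ w R M hR
  refine ⟨fun hA hb => ?_, fun G hG hM he n => ?_⟩
  · have hp := hA.hasFPowerSeriesAt
    set p := FormalMultilinearSeries.ofScalars ℂ
      (fun n => iteratedDeriv n (fun x => F (x, w)) x₀ / (n.factorial : ℂ)) with hpd
    have hr : ((R.toNNReal : NNReal) : ENNReal) ≤ p.radius := by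
      refine p.le_radius_of_bound M fun n => ?_
      rw [hpd, FormalMultilinearSeries.ofScalars_norm, Real.coe_toNNReal _ hR.le]
      exact hb n
    have h0 : 0 < p.radius := lt_of_lt_of_le (by simpa using hR) hr
    have hs := (p.hasFPowerSeriesOnBall h0).differentiableOn
    refine ⟨fun x => p.sum (x - x₀), ?_, ?_⟩
    · refine hs.comp (by fun_prop) fun x hx => ?_
      rw [mem_eball_zero_iff]
      refine lt_of_lt_of_le ?_ hr
      rw [enorm_lt_coe, ← NNReal.coe_lt_coe, Real.coe_toNNReal _ hR.le, coe_nnnorm]
      exact mem_ball_iff_norm.1 hx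
    · filter_upwards [hp.eventually_hasSum_sub] with x hx
      exact hx.tsum_eq
  · have e : iteratedDeriv n (fun x => F (x, w)) x₀ = iteratedDeriv n G x₀ :=
      (Filter.EventuallyEq.iteratedDeriv_eq n he).symm
    have hf : (0 : ℝ) < n.factorial := by exact_mod_cast n.factorial_pos
    have h1 : ∀ r : ℝ, 0 < r → r < R → ‖co F x₀ w n‖ * r ^ n ≤ M := by
      intro r r0 r1
      have h2 := Complex.norm_iteratedDeriv_le_of_forall_mem_sphere_norm_le (C := M) n r0
        (hG.diffContOnCl_ball (closedBall_subset_ball r1))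
        fun z hz => hM z (sphere_subset_closedBall.trans (closedBall_subset_ball r1) hz)
      rw [le_div_iff₀ (pow_pos r0 n)] at h2
      rw [co, e, norm_div, Complex.norm_natCast, div_mul_eq_mul_div, div_le_iff₀ hf]
      linarith
    have t : Tendsto (fun r : ℝ => ‖co F x₀ w n‖ * r ^ n) (𝓝[<] R) (𝓝 (‖co F x₀ w n‖ * R ^ n)) :=
      ((show Continuous fun r : ℝ => ‖co F x₀ w n‖ * r ^ n by fun_prop).tendsto R).mono_left
        nhdsWithin_le_nhds
    refine le_of_tendsto t ?_
    filter_upwards [Ioo_mem_nhdsLT hR] with r hr using h1 r hr.1 hr.2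

end Vale.Agent.P097N
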