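import Vale.Agent.P097N.Defs
import Vale.Agent.P097A.Bern

/-!
# P097N: Taylor series at real points with a parameter
-/

noncomputable section

namespace Vale.Agent.P097N

open Filter Topology Set Metric

namespace Ser

theorem diff_iter {U : Set (ℂ × ℂ)} (hU : IsOpen U) (n : ℕ) : ∀ F : ℂ × ℂ → ℂ,
    DifferentiableOn ℂ F U →
      DifferentiableOn ℂ (fun p : ℂ × ℂ => iteratedDeriv n (fun x => F (x, p.2)) p.1) U := by
  induction n with
  | zero => exact fun F hF => by simpa using hF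
  | succ n ih =>
    intro F hF
    refine (ih _ (P097.Hol.differentiableOn_fderiv_apply hU hF (1, 0))).congr fun p hp => ?_
    rw [iteratedDeriv_succ']
    refine Filter.EventuallyEq.iteratedDeriv_eq n ?_
    have hc : ContinuousAt (fun x : ℂ => (x, p.2)) p.1 := by fun_prop
    filter_upwards [hc.eventually (hU.mem_nhds hp)] with x hx
    have h1 : HasDerivAt (fun x : ℂ => (x, p.2)) (1, 0) x :=
      (hasDerivAt_id x).prodMk (hasDerivAt_const x p.2)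
    exact ((hF.differentiableAt (hU.mem_nhds hx)).hasFDerivAt.comp_hasDerivAt x h1).deriv

theorem isOpen_St (r : ℝ) : IsOpen (St r) :=
  isOpen_lt (continuous_abs.comp Complex.continuous_im) continuous_const

theorem convex_St (r : ℝ) : Convex ℝ (St r) := by
  have : St r = Complex.imLm ⁻¹' Ioo (-r) r := by
    ext y
    simp [St, abs_lt]
  rw [this]
  exact (convex_Ioo _ _).linear_preimage _

/-- The Taylor series at `s`. -/
def ts (F : ℂ × ℂ → ℂ) (s : ℝ) (p : ℂ × ℂ) : ℂ := ∑' n, co F s p.2 n * (p.1 - s) ^ n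

variable {F : ℂ × ℂ → ℂ} {ρ : ℂ → ℝ} {η ε M : ℝ}

theorem term_le (hρ : ∀ w, 0 < ρ w)
    (hM : ∀ (x₀ : ℝ), ∀ w ∈ ball (0 : ℂ) ε, ∀ n : ℕ, ‖co F x₀ w n‖ * ρ w ^ n ≤ M) (s : ℝ)
    {p : ℂ × ℂ} (hp : p.2 ∈ ball (0 : ℂ) ε) {q : ℝ} (hq : ‖p.1 - s‖ ≤ q * ρ p.2) (n : ℕ) :
    ‖co F s p.2 n * (p.1 - s) ^ n‖ ≤ M * q ^ n := by
  have hq0 : 0 ≤ q := nonneg_of_mul_nonneg_left ((norm_nonneg _).trans hq) (hρ _)
  rw [norm_mul, norm_pow]
  refine (mul_le_mul_of_nonneg_left (pow_le_pow_left₀ (norm_nonneg _) hq n)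
    (norm_nonneg _)).trans ?_
  rw [mul_pow, mul_comm (q ^ n), ← mul_assoc]
  exact mul_le_mul_of_nonneg_right (hM s _ hp n) (by positivity)

theorem ts_diff (hη : 0 < η) (hc : Continuous ρ) (hρ : ∀ w, 0 < ρ w)
    (hF : DifferentiableOn ℂ F (St η ×ˢ ball 0 ε))
    (hM : ∀ (x₀ : ℝ), ∀ w ∈ ball (0 : ℂ) ε, ∀ n : ℕ, ‖co F x₀ w n‖ * ρ w ^ n ≤ M) (s : ℝ)
    {p : ℂ × ℂ} (hp : p.2 ∈ ball (0 : ℂ) ε) (hq : ‖p.1 - s‖ < ρ p.2) :
    DifferentiableAt ℂ (ts F s) p := by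
  obtain ⟨q, h1, h2⟩ := exists_between ((div_lt_one (hρ p.2)).2 hq)
  have hq0 : 0 ≤ q := (div_nonneg (norm_nonneg _) (hρ _).le).trans h1.le
  let U : Set (ℂ × ℂ) := {p | p.2 ∈ ball (0 : ℂ) ε ∧ ‖p.1 - s‖ < q * ρ p.2}
  have hU : IsOpen U := (isOpen_ball.preimage continuous_snd).inter
    (isOpen_lt (by fun_prop) (continuous_const.mul (hc.comp continuous_snd)))
  have hd : ∀ n, DifferentiableOn ℂ (fun p : ℂ × ℂ => co F s p.2 n * (p.1 - s) ^ n) U := by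
    intro n
    simp only [co, div_eq_mul_inv]
    refine DifferentiableOn.mul (DifferentiableOn.mul_const ?_ _) (by fun_prop)
    exact (diff_iter ((isOpen_St η).prod isOpen_ball) n F hF).comp
      (f := fun p : ℂ × ℂ => ((s : ℂ), p.2)) (by fun_prop)
      fun p hp => ⟨by simpa [St] using hη, hp.1⟩
  exact (P097A.Bern.diff_tsum hU ((summable_geometric_of_lt_one hq0 h2).mul_left M) hd
    fun n p hp => term_le hρ hM s hp.1 hp.2.le n).differentiableAt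
    (hU.mem_nhds ⟨hp, (div_lt_iff₀ (hρ _)).1 h1⟩)

theorem ts_an (hη : 0 < η) (hc : Continuous ρ) (hρ : ∀ w, 0 < ρ w)
    (hF : DifferentiableOn ℂ F (St η ×ˢ ball 0 ε))
    (hM : ∀ (x₀ : ℝ), ∀ w ∈ ball (0 : ℂ) ε, ∀ n : ℕ, ‖co F x₀ w n‖ * ρ w ^ n ≤ M) (s : ℝ)
    {w : ℂ} (hw : w ∈ ball (0 : ℂ) ε) :
    AnalyticOnNhd ℂ (fun x => ts F s (x, w)) (ball s (ρ w)) :=
  DifferentiableOn.analyticOnNhd (fun x hx =>
    ((ts_diff hη hc hρ hF hM s (p := (x, w)) hw (mem_ball_iff_norm.1 hx)).comp x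
      (f := fun x : ℂ => (x, w)) (by fun_prop)).differentiableWithinAt) isOpen_ball

theorem ts_eq (hη : 0 < η) (hc : Continuous ρ) (hρ : ∀ w, 0 < ρ w)
    (hF : DifferentiableOn ℂ F (St η ×ˢ ball 0 ε))
    (hM : ∀ (x₀ : ℝ), ∀ w ∈ ball (0 : ℂ) ε, ∀ n : ℕ, ‖co F x₀ w n‖ * ρ w ^ n ≤ M) (s : ℝ)
    {w : ℂ} (hw : w ∈ ball (0 : ℂ) ε) :
    EqOn (fun x => ts F s (x, w)) (fun x => F (x, w)) (ball s (ρ w) ∩ St η) := by
  have hFw : DifferentiableOn ℂ (fun x => F (x, w)) (St η) :=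
    hF.comp (f := fun x : ℂ => (x, w)) (by fun_prop) fun x hx => ⟨hx, hw⟩
  have hsub : ball (s : ℂ) η ⊆ St η := fun x hx => by
    have h1 : |(x - s).im| < η := (Complex.abs_im_le_norm _).trans_lt (mem_ball_iff_norm.1 hx)
    simpa [St] using h1
  refine AnalyticOnNhd.eqOn_of_preconnected_of_eventuallyEq
    ((ts_an hη hc hρ hF hM s hw).mono inter_subset_left)
    ((hFw.analyticOnNhd (isOpen_St η)).mono inter_subset_right)
    ((convex_ball _ _).inter (convex_St η)).isPreconnected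
    ⟨mem_ball_self (hρ w), hsub (mem_ball_self hη)⟩ ?_
  filter_upwards [ball_mem_nhds (s : ℂ) hη] with x hx
  rw [← (Complex.hasSum_taylorSeries_on_ball (hFw.mono hsub) hx).tsum_eq]
  refine tsum_congr fun n => ?_
  simp only [co, smul_eq_mul]
  ring

theorem ts_eq_ts (hη : 0 < η) (hc : Continuous ρ) (hρ : ∀ w, 0 < ρ w)
    (hF : DifferentiableOn ℂ F (St η ×ˢ ball 0 ε))
    (hM : ∀ (x₀ : ℝ), ∀ w ∈ ball (0 : ℂ) ε, ∀ n : ℕ, ‖co F x₀ w n‖ * ρ w ^ n ≤ M) (s s' : ℝ)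
    {p : ℂ × ℂ} (hw : p.2 ∈ ball (0 : ℂ) ε) (h1 : ‖p.1 - s‖ < ρ p.2) (h2 : ‖p.1 - s'‖ < ρ p.2) :
    ts F s p = ts F s' p := by
  have h3 : |s - s'| < 2 * ρ p.2 := by
    have : ((s - s' : ℝ) : ℂ) = (p.1 - s') - (p.1 - s) := by push_cast; ring
    rw [← Real.norm_eq_abs, ← Complex.norm_real, this]
    exact (norm_sub_le _ _).trans_lt (by linarith)
  have hm : (((s + s') / 2 : ℝ) : ℂ) ∈ ball (s : ℂ) (ρ p.2) ∩ ball (s' : ℂ) (ρ p.2) := by
    rw [abs_lt] at h3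
    constructor <;> rw [mem_ball_iff_norm, ← Complex.ofReal_sub, Complex.norm_real,
      Real.norm_eq_abs, abs_lt] <;> constructor <;> linarith [h3.1, h3.2]
  refine AnalyticOnNhd.eqOn_of_preconnected_of_eventuallyEq
    ((ts_an hη hc hρ hF hM s hw).mono inter_subset_left)
    ((ts_an hη hc hρ hF hM s' hw).mono inter_subset_right)
    ((convex_ball _ _).inter (convex_ball _ _)).isPreconnected hm ?_
    ⟨mem_ball_iff_norm.2 h1, mem_ball_iff_norm.2 h2⟩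
  filter_upwards [(isOpen_ball.inter isOpen_ball).mem_nhds hm, (isOpen_St η).mem_nhds
    (show (((s + s') / 2 : ℝ) : ℂ) ∈ St η by simpa [St] using hη)] with x hx hx'
  exact (ts_eq hη hc hρ hF hM s hw ⟨hx.1, hx'⟩).trans (ts_eq hη hc hρ hF hM s' hw ⟨hx.2, hx'⟩).symm

theorem norm_sub_re (x : ℂ) : ‖x - (x.re : ℂ)‖ = |x.im| := by
  have : x - (x.re : ℂ) = x.im * Complex.I := by
    apply Complex.ext <;> simp
  rw [this]
  simp

end Ser

open Ser in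
theorem sser : SSer := by
  intro F ρ η ε M hη hc hρ hF hM
  refine ⟨fun p => ts F p.1.re p, fun p hp => ?_, fun p h1 h2 => ⟨?_, fun h3 => ?_⟩⟩
  · have hw : p.2 ∈ ball (0 : ℂ) ε := mem_ball_zero_iff.2 hp.1
    have h1 : ‖p.1 - (p.1.re : ℂ)‖ < ρ p.2 := by rw [norm_sub_re]; exact hp.2
    refine ((ts_diff hη hc hρ hF hM p.1.re hw h1).congr_of_eventuallyEq ?_).differentiableWithinAt
    have ho : IsOpen {q : ℂ × ℂ | q.2 ∈ ball (0 : ℂ) ε ∧ ‖q.1 - (q.1.re : ℂ)‖ < ρ q.2 ∧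
        ‖q.1 - (p.1.re : ℂ)‖ < ρ q.2} :=
      (isOpen_ball.preimage continuous_snd).inter
        ((isOpen_lt (by fun_prop) (hc.comp continuous_snd)).inter
          (isOpen_lt (by fun_prop) (hc.comp continuous_snd)))
    filter_upwards [ho.mem_nhds ⟨hw, h1, h1⟩] with q hq
    exact ts_eq_ts hη hc hρ hF hM _ _ hq.1 hq.2.1 hq.2.2
  · have hq0 : 0 ≤ |p.1.im| / ρ p.2 := div_nonneg (abs_nonneg _) (hρ _).le
    have hq1 : |p.1.im| / ρ p.2 < 1 := (div_lt_one (hρ _)).2 h2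
    refine (tsum_of_norm_bounded ((hasSum_geometric_of_lt_one hq0 hq1).mul_left M) fun n =>
      term_le hρ hM p.1.re (mem_ball_zero_iff.2 h1) ?_ n).trans_eq (div_eq_mul_inv _ _).symm
    rw [norm_sub_re, div_mul_cancel₀ _ (hρ _).ne']
  · exact ts_eq hη hc hρ hF hM p.1.re (mem_ball_zero_iff.2 h1)
      ⟨by rw [mem_ball_iff_norm, norm_sub_re]; exact h2, h3⟩

end Vale.Agent.P097N
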