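import Mathlib

/-!
# P097N: baseline and no calm box (definitions and statements of the steps)

`θ`, `h` are the normal angle and the support function as functions of the Lazutkin parameter.
`Ph θ h (b, c)` is twice the slope parameter of the chord from the vertex `b` to the vertex `c`;
the reflection law at `b` is `Ph (b, c) + Ph (b, a) = 0`.
-/

set_option linter.all false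

noncomputable section

namespace Vale.Agent.P097N

open Filter Topology Set Metric

/-- The horizontal strip of half width `r`. -/
def St (r : ℝ) : Set ℂ := {y | |y.im| < r}

/-- distance of the point `b` from the tangent line at `a`, times `θ' b`. -/
def kk (θ h : ℂ → ℂ) (a b : ℂ) : ℂ :=
  deriv θ b * h a - deriv θ b * h b * Complex.cos (θ a - θ b) - deriv h b * Complex.sin (θ a - θ b)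

/-- the derivative of `kk` in `a`. -/
def k1 (θ h : ℂ → ℂ) (a b : ℂ) : ℂ :=
  deriv θ b * deriv h a + deriv θ b * h b * deriv θ a * Complex.sin (θ a - θ b) -
    deriv h b * deriv θ a * Complex.cos (θ a - θ b)

def Ph (θ h : ℂ → ℂ) (q : ℂ × ℂ) : ℂ := -2 * kk θ h q.1 q.2 / k1 θ h q.1 q.2

/-- the reflection law at `b` without denominators. -/
def EE (θ h : ℂ → ℂ) (a b c : ℂ) : ℂ := kk θ h b c * k1 θ h b a + kk θ h b a * k1 θ h b c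

/-- the curve in the Lazutkin parameter on an open set. -/
structure Cv (θ h Q : ℂ → ℂ) (c : ℂ) (U : Set ℂ) : Prop where
  op : IsOpen U
  dθ : DifferentiableOn ℂ θ U
  dh : DifferentiableOn ℂ h U
  dQ : DifferentiableOn ℂ Q U
  c0 : c ≠ 0
  ode : ∀ y ∈ U, deriv (deriv h) y * deriv θ y - deriv h y * deriv (deriv θ) y +
    h y * deriv θ y ^ 3 = c
  hq : ∀ y ∈ U, deriv (deriv (deriv θ)) y = Q y * deriv θ y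

/-- `exp (2 i φ)` of the line with slope parameter `q.2` through the vertex `q.1`. -/
def LU (θ : ℂ → ℂ) (q : ℂ × ℂ) : ℂ :=
  Complex.exp (2 * Complex.I * θ q.1) * (1 + Complex.I * q.2 * deriv θ q.1) /
    (1 - Complex.I * q.2 * deriv θ q.1)

/-- `p exp (i φ)` of the same line. -/
def LW (θ h : ℂ → ℂ) (q : ℂ × ℂ) : ℂ :=
  (h q.1 + q.2 * deriv h q.1) * Complex.exp (Complex.I * θ q.1) /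
    (1 - Complex.I * q.2 * deriv θ q.1)

def Loc (Φ : ℂ × ℂ → ℂ) (b : ℂ) (r : ℝ) : Prop :=
  (∀ c, c ≠ b → ‖c - b‖ < r → AnalyticAt ℂ Φ (b, c)) ∧
    ∀ c, ‖c - b‖ < r → ‖Φ (b, c) - (c - b)‖ ≤ ‖c - b‖ ^ 3 / (8 * r ^ 2)

def Crit (Φ : ℂ × ℂ → ℂ) (r₀ c₁ : ℝ) : Prop := ∀ b ∈ St r₀, Loc Φ b (c₁ * (r₀ - |b.im|))

def Calm (Φ : ℂ × ℂ → ℂ) (B : Set ℂ) (ρ ε : ℝ) : Prop :=
  ∀ b ∈ B, ∀ c ∈ B, ‖c - b‖ ≤ ρ →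
    ‖Φ (b, c) - (c - b)‖ ≤ ε * ‖c - b‖ ∧ (c ≠ b → AnalyticAt ℂ Φ (b, c))

/-- the solution near the real axis. -/
structure Col (Y : ℂ × ℂ → ℂ) (η ε M : ℝ) : Prop where
  hη : 0 < η
  hε : 0 < ε
  d : DifferentiableOn ℂ Y (St η ×ˢ ball 0 ε)
  zero : ∀ x ∈ St η, Y (x, 0) = x
  ev : ∀ x ∈ St η, ∀ w ∈ ball (0 : ℂ) ε, Y (x, -w) = Y (x, w)
  bd : ∀ x ∈ St η, ∀ w ∈ ball (0 : ℂ) ε, ‖Y (x, w) - x‖ ≤ M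

/-- the cone domain. -/
def Om (r₀ c : ℝ) : Set (ℂ × ℂ) := {p | ‖p.2‖ < c * (r₀ - |p.1.im|)}

/-- the baseline. -/
structure Bl (Y : ℂ × ℂ → ℂ) (r₀ c C : ℝ) : Prop where
  hc : 0 < c
  hC : 0 < C
  d : DifferentiableOn ℂ Y (Om r₀ c)
  ev : ∀ p ∈ Om r₀ c, Y (p.1, -p.2) = Y p
  bd : ∀ p ∈ Om r₀ c, ‖Y p - p.1‖ ≤ C * ‖p.2‖ ^ 2 / (r₀ - |p.1.im|)
  sm : C * c ^ 2 ≤ 1 / 2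

/-- Taylor coefficient in the first variable. -/
def co (F : ℂ × ℂ → ℂ) (x₀ w : ℂ) (n : ℕ) : ℂ :=
  iteratedDeriv n (fun x => F (x, w)) x₀ / (n.factorial : ℂ)

/-- the box below the top line `im = r₀`: centre abscissa `s`, unit `d`, size `R`. -/
def Box (r₀ s d R : ℝ) : Set ℂ :=
  {y | |y.re - s| < R * d ∧ d / R < r₀ - y.im ∧ r₀ - y.im < R * d}

/-- analyticity of the kernels and the basic estimate. -/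
def SK : Prop := ∀ (θ h Q : ℂ → ℂ) (c : ℂ) (U : Set ℂ), Cv θ h Q c U →
  (∀ a ∈ U, ∀ b ∈ U, AnalyticAt ℂ (fun q : ℂ × ℂ => kk θ h q.1 q.2) (a, b) ∧
    AnalyticAt ℂ (fun q : ℂ × ℂ => k1 θ h q.1 q.2) (a, b) ∧
    (k1 θ h a b ≠ 0 → AnalyticAt ℂ (Ph θ h) (a, b))) ∧
  ∀ (a b : ℂ) (A₂ A₃ ε : ℝ), segment ℝ b a ⊆ U →
    (∀ z ∈ segment ℝ b a, ‖Q z - deriv θ z ^ 2‖ ≤ A₂ ∧ ‖3 * deriv θ z * deriv (deriv θ) z‖ ≤ A₃) →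
    A₂ * ‖a - b‖ ^ 2 ≤ ε → A₃ * ‖a - b‖ ^ 3 ≤ ε → ε ≤ 1 / 12 →
    ‖Ph θ h (a, b) - (b - a)‖ ≤ 12 * ε * ‖b - a‖ ∧ (a ≠ b → k1 θ h a b ≠ 0)

/-- the chord seen from both ends is the same line. -/
def SAlg : Prop := ∀ (θ h : ℂ → ℂ) (b c : ℂ), k1 θ h b c ≠ 0 → k1 θ h c b ≠ 0 →
  1 - Complex.I * (Ph θ h (b, c) / 2) * deriv θ b ≠ 0 →
  1 - Complex.I * (Ph θ h (c, b) / 2) * deriv θ c ≠ 0 →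
  LU θ (b, Ph θ h (b, c) / 2) = LU θ (c, Ph θ h (c, b) / 2) ∧
    LW θ h (b, Ph θ h (b, c) / 2) = LW θ h (c, Ph θ h (c, b) / 2)

def SRoot : Prop := ∀ (Φ : ℂ × ℂ → ℂ) (X : Set ℂ) (a b : ℂ → ℂ) (τ : ℝ), IsOpen X → 0 < τ →
  DifferentiableOn ℂ a X → DifferentiableOn ℂ b X → (∀ x ∈ X, AnalyticAt ℂ Φ (b x, a x)) →
  (∀ x ∈ X, ∀ c ∈ ball (2 * b x - a x) τ, AnalyticAt ℂ Φ (b x, c) ∧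
    ‖Φ (b x, c) + Φ (b x, a x) - (c - (2 * b x - a x))‖ ≤ τ / 8) →
  ∃ c : ℂ → ℂ, DifferentiableOn ℂ c X ∧ ∀ x ∈ X, Φ (b x, c x) + Φ (b x, a x) = 0 ∧
    ‖c x - (2 * b x - a x)‖ ≤ τ / 8 ∧
    ‖c x - (2 * b x - a x)‖ ≤ 2 * ‖Φ (b x, 2 * b x - a x) + Φ (b x, a x)‖ ∧
    ∀ c', ‖c' - (2 * b x - a x)‖ < τ / 2 → Φ (b x, c') + Φ (b x, a x) = 0 → c' = c x

def SEven : Prop := ∀ (f : ℂ → ℂ) (r κ : ℝ), 0 < r → 0 ≤ κ →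
  (∀ s, s ≠ 0 → ‖s‖ < r → DifferentiableAt ℂ f s) → (∀ s, ‖s‖ < r → ‖f s - s‖ ≤ κ * ‖s‖ ^ 3) →
  ∀ s, ‖s‖ < r → ‖f s + f (-s)‖ ≤ 2 * κ * ‖s‖ ^ 4 / r

/-- chains from the real axis up to the top line (one side). -/
def SUp : Prop := ∀ (r₀ c₁ η C₀ : ℝ), 0 < η → 4 * η ≤ r₀ → 0 < c₁ → c₁ ≤ 1 → 0 ≤ C₀ →
  ∃ c₂ B : ℝ, 0 < c₂ ∧ c₂ ≤ 1 ∧ 0 ≤ B ∧ ∀ (Φ : ℂ × ℂ → ℂ) (w : ℂ) (y : ℂ → ℂ), Crit Φ r₀ c₁ →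
    0 < w.im → ‖w‖ ≤ 2 * w.im → ‖w‖ ≤ c₂ * η → DifferentiableOn ℂ y (St η) →
    (∀ x ∈ St η, ‖y x - x‖ ≤ C₀ * ‖w‖ ^ 2) →
    (∀ x ∈ St η, x - w ∈ St η → ‖y x - y (x - w) - w‖ ≤ C₀ * ‖w‖ ^ 3) →
    (∀ x, x - w ∈ St η → x + w ∈ St η → Φ (y x, y (x + w)) + Φ (y x, y (x - w)) = 0) →
    ∃ z : ℂ → ℂ, DifferentiableOn ℂ z {x | -η < x.im ∧ x.im < r₀ - ‖w‖ / c₂} ∧
      EqOn z y (St η) ∧ ∀ x : ℂ, -η < x.im → x.im < r₀ - ‖w‖ / c₂ → ‖z x - x‖ ≤ B * ‖w‖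

/-- both sides. -/
def SChain : Prop := ∀ (r₀ c₁ η C₀ : ℝ), 0 < η → 4 * η ≤ r₀ → 0 < c₁ → c₁ ≤ 1 → 0 ≤ C₀ →
  ∃ c₂ B : ℝ, 0 < c₂ ∧ c₂ ≤ 1 ∧ 0 ≤ B ∧ ∀ (Φ : ℂ × ℂ → ℂ) (w : ℂ) (y : ℂ → ℂ), Crit Φ r₀ c₁ →
    w ≠ 0 → ‖w‖ ≤ 2 * |w.im| → ‖w‖ ≤ c₂ * η → DifferentiableOn ℂ y (St η) →
    (∀ x ∈ St η, ‖y x - x‖ ≤ C₀ * ‖w‖ ^ 2) →
    (∀ x ∈ St η, x - w ∈ St η → ‖y x - y (x - w) - w‖ ≤ C₀ * ‖w‖ ^ 3) →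
    (∀ x, x - w ∈ St η → x + w ∈ St η → Φ (y x, y (x + w)) + Φ (y x, y (x - w)) = 0) →
    ∃ z : ℂ → ℂ, DifferentiableOn ℂ z (St (r₀ - ‖w‖ / c₂)) ∧ EqOn z y (St η) ∧
      ∀ x ∈ St (r₀ - ‖w‖ / c₂), ‖z x - x‖ ≤ B * ‖w‖

/-- maximum principle for Taylor coefficients. -/
def SCoef : Prop := ∀ (F : ℂ × ℂ → ℂ) (ψ : ℂ → ℂ) (x₀ : ℂ) (τ M : ℝ) (T V : Set ℂ), 0 < τ →
  IsOpen V → Bornology.IsBounded T → closure T ⊆ V → DifferentiableOn ℂ F (ball x₀ τ ×ˢ V) →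
  DifferentiableOn ℂ ψ V →
  (∀ w ∈ frontier T, ∃ G : ℂ → ℂ, DifferentiableOn ℂ G (ball x₀ (Real.exp (ψ w).re)) ∧
    (∀ x ∈ ball x₀ (Real.exp (ψ w).re), ‖G x‖ ≤ M) ∧ ∀ᶠ x in 𝓝 x₀, G x = F (x, w)) →
  ∀ w ∈ closure T, ∀ n : ℕ, ‖co F x₀ w n‖ * Real.exp (ψ w).re ^ n ≤ M

/-- one variable: a bound of the coefficients gives an extension; an extension gives a bound. -/
def SExt : Prop := ∀ (F : ℂ × ℂ → ℂ) (x₀ w : ℂ) (R M : ℝ), 0 < R →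
  (AnalyticAt ℂ (fun x => F (x, w)) x₀ → (∀ n : ℕ, ‖co F x₀ w n‖ * R ^ n ≤ M) →
    ∃ G : ℂ → ℂ, DifferentiableOn ℂ G (ball x₀ R) ∧ ∀ᶠ x in 𝓝 x₀, G x = F (x, w)) ∧
  ∀ G : ℂ → ℂ, DifferentiableOn ℂ G (ball x₀ R) → (∀ x ∈ ball x₀ R, ‖G x‖ ≤ M) →
    (∀ᶠ x in 𝓝 x₀, G x = F (x, w)) → ∀ n : ℕ, ‖co F x₀ w n‖ * R ^ n ≤ M

/-- two variables: Taylor series at real points. -/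
def SSer : Prop := ∀ (F : ℂ × ℂ → ℂ) (ρ : ℂ → ℝ) (η ε M : ℝ), 0 < η → Continuous ρ →
  (∀ w, 0 < ρ w) → DifferentiableOn ℂ F (St η ×ˢ ball 0 ε) →
  (∀ (x₀ : ℝ), ∀ w ∈ ball (0 : ℂ) ε, ∀ n : ℕ, ‖co F x₀ w n‖ * ρ w ^ n ≤ M) →
  ∃ G : ℂ × ℂ → ℂ, DifferentiableOn ℂ G {p | ‖p.2‖ < ε ∧ |p.1.im| < ρ p.2} ∧
    ∀ p : ℂ × ℂ, ‖p.2‖ < ε → |p.1.im| < ρ p.2 →
      ‖G p‖ ≤ M / (1 - |p.1.im| / ρ p.2) ∧ (|p.1.im| < η → G p = F p)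

/-- second order bounds on the collar. -/
def SCol : Prop := ∀ (Y : ℂ × ℂ → ℂ) (η ε M : ℝ), Col Y η ε M → ∃ C₀ : ℝ, 0 ≤ C₀ ∧
  ∀ w ∈ ball (0 : ℂ) ε, (∀ x ∈ St η, ‖Y (x, w) - x‖ ≤ C₀ * ‖w‖ ^ 2) ∧
    ∀ x ∈ St (η / 2), x - w ∈ St (η / 2) → ‖Y (x, w) - Y (x - w, w) - w‖ ≤ C₀ * ‖w‖ ^ 3

/-- from the crude extension to the baseline (slanted discs, Schwarz). -/
def SSlant : Prop := ∀ (G : ℂ × ℂ → ℂ) (r₀ ε K M B : ℝ), 0 < r₀ → 0 < ε → 0 < K → 0 ≤ B →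
  DifferentiableOn ℂ G {p | ‖p.2‖ < ε ∧ |p.1.im| < r₀ - K * ‖p.2‖} →
  (∀ p : ℂ × ℂ, ‖p.2‖ < ε → |p.1.im| < r₀ - K * ‖p.2‖ → G (p.1, -p.2) = G p ∧
    ‖G p‖ ≤ M / (r₀ - K * ‖p.2‖ - |p.1.im|) ∧ (‖p.2‖ ≤ 2 * |p.2.im| → ‖G p‖ ≤ B * ‖p.2‖)) →
  ∃ c C : ℝ, c * r₀ ≤ ε ∧ c * K ≤ 1 / 2 ∧ Bl (fun p => G p + p.1) r₀ c C

def SBase : Prop := ∀ (Φ Y : ℂ × ℂ → ℂ) (r₀ c₁ η ε M : ℝ), 4 * η ≤ r₀ → 0 < c₁ → c₁ ≤ 1 →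
  Crit Φ r₀ c₁ → Col Y η ε M →
  (∀ x, ∀ w ∈ ball (0 : ℂ) ε, w ≠ 0 → x - w ∈ St η → x + w ∈ St η →
    Φ (Y (x, w), Y (x + w, w)) + Φ (Y (x, w), Y (x - w, w)) = 0) →
  ∃ (Z : ℂ × ℂ → ℂ) (c C : ℝ), c * r₀ ≤ ε ∧ Bl Z r₀ c C ∧
    ∀ p ∈ Om r₀ c, |p.1.im| < η / 2 → Z p = Y p

/-- removable singularity with a parameter. -/
def SRem : Prop := ∀ (F : ℂ × ℂ → ℂ) (U : Set ℂ) (r : ℝ), IsOpen U →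
  (∀ x ∈ U, ∀ w ∈ ball (0 : ℂ) r, w ≠ 0 → DifferentiableAt ℂ F (x, w)) →
  (∀ x ∈ U, ContinuousAt (fun w => F (x, w)) 0) → DifferentiableOn ℂ F (U ×ˢ ball 0 r)

/-- finitely many steps in a calm set. -/
def SBox : Prop := ∀ (Φ : ℂ × ℂ → ℂ) (B X : Set ℂ) (w : ℂ) (y₀ y₁ : ℂ → ℂ) (J : ℕ)
  (ρ ε μ τ e e' : ℝ), Calm Φ B ρ ε → IsOpen X → 0 ≤ ε → 0 < τ → 2 * τ ≤ μ → 4 * τ ≤ ‖w‖ →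
  2 * ‖w‖ ≤ ρ → 32 * ε * ‖w‖ ≤ τ → e' + J * (5 * ε * ‖w‖) ≤ ‖w‖ / 4 →
  e + (J + 1) * (e' + J * (5 * ε * ‖w‖)) ≤ μ / 2 → DifferentiableOn ℂ y₀ X →
  DifferentiableOn ℂ y₁ X → (∀ x ∈ X, ‖y₀ x - x‖ ≤ e ∧ ‖y₁ x - y₀ x - w‖ ≤ e') →
  (∀ x ∈ X, ∀ j : ℕ, j ≤ J + 1 → ball (x + j * w) μ ⊆ B) →
  ∃ y : ℕ → ℂ → ℂ, (∀ j ≤ J + 1, DifferentiableOn ℂ (y j) X) ∧ ∀ x ∈ X,
    (∀ j ≤ J + 1, ‖y j x - (x + j * w)‖ ≤ μ / 2) ∧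
    (∀ j ≤ J, ‖y (j + 1) x - y j x - w‖ ≤ ‖w‖ / 4) ∧
    ∀ z : ℕ → ℂ, z 0 = y₀ x → z 1 = y₁ x →
      (∀ j < J, Φ (z (j + 1), z (j + 2)) + Φ (z (j + 1), z j) = 0 ∧
        ‖z (j + 2) - (2 * z (j + 1) - z j)‖ < τ / 2) → ∀ j ≤ J + 1, z j = y j x

/-- the peak function. -/
def SChi : Prop := ∀ L : ℝ, 0 < L → ∃ (χ : ℂ → ℂ) (κ μ K ρ : ℝ), 0 < κ ∧ 0 < μ ∧ μ ≤ 1 ∧ 0 < K ∧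
  1 < ρ ∧ ρ ≤ 2 ∧ DifferentiableOn ℂ χ (ball 0 ρ) ∧ χ 0 = 0 ∧ (∀ z, χ (-z) = χ z) ∧
  (∀ z ∈ ball (0 : ℂ) ρ, ‖χ z‖ ≤ K) ∧ ∀ z : ℂ, ‖z‖ = 1 →
    (κ ≤ |z.im| → (χ z).im + μ ≤ |z.im| / 2) ∧ (|z.im| < κ → (χ z).im ≤ -L)

/-- propagation of smallness. -/
def SSmall : Prop := ∀ (U K : Set ℂ) (z₀ : ℂ) (ρ M ε' : ℝ), IsOpen U → IsPreconnected U →
  IsCompact K → K ⊆ U → z₀ ∈ U → 0 < ρ → 0 < ε' → ∃ ε : ℝ, 0 < ε ∧ ∀ f : ℂ → ℂ,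
    DifferentiableOn ℂ f U → (∀ z ∈ U, ‖f z‖ ≤ M) → (∀ z ∈ U, z ∈ ball z₀ ρ → ‖f z‖ ≤ ε) →
    ∀ z ∈ K, ‖f z‖ ≤ ε'

/-- the abstract form of no calm box: a function of the lines continues over the top line. -/
def SCore : Prop := ∀ (c C : ℝ), 0 < c → 0 < C → ∃ R ε : ℝ, 1 < R ∧ 0 < ε ∧
  ∀ (Φ Y : ℂ × ℂ → ℂ) (r₀ s d : ℝ), 0 < d → 2 * R * d ≤ r₀ → Bl Y r₀ c C →
    Calm Φ (Box r₀ s d R) (8 * d) ε →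
    (∀ x w : ℂ, w ≠ 0 → ‖w‖ ≤ 2 * d → (x - w, w) ∈ Om r₀ c → (x, w) ∈ Om r₀ c →
      (x + w, w) ∈ Om r₀ c → Y (x - w, w) ∈ Box r₀ s d R → Y (x, w) ∈ Box r₀ s d R →
      Y (x + w, w) ∈ Box r₀ s d R →
      Φ (Y (x, w), Y (x + w, w)) + Φ (Y (x, w), Y (x - w, w)) = 0) →
    ∃ (x₀ : ℂ) (τ : ℝ), 0 < τ ∧ x₀ ∈ Box r₀ s d R ∧ r₀ < x₀.im + τ ∧ -r₀ < x₀.im - τ ∧
      ∀ (Ψ : ℂ × ℂ → ℂ) (M : ℝ),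
        (∀ b ∈ Box r₀ s d R, ∀ l : ℂ, ‖l‖ ≤ 8 * d → AnalyticAt ℂ Ψ (b, l) ∧ ‖Ψ (b, l)‖ ≤ M) →
        (∀ b ∈ Box r₀ s d R, ∀ b' ∈ Box r₀ s d R, b' ≠ b → ‖b' - b‖ ≤ 8 * d →
          Ψ (b, Φ (b, b') / 2) = Ψ (b', Φ (b', b) / 2)) →
        ∃ G : ℂ → ℂ, DifferentiableOn ℂ G (ball x₀ τ) ∧ ∀ᶠ x in 𝓝 x₀, G x = Ψ (x, 0)

/-- the curve continues over the top line. -/
def Over (θ h : ℂ → ℂ) (r₀ : ℝ) : Prop := ∃ (ζ : ℂ) (ρ : ℝ) (F₁ F₂ : ℂ → ℂ), ζ.im = r₀ ∧ 0 < ρ ∧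
  DifferentiableOn ℂ F₁ (ball ζ ρ) ∧ DifferentiableOn ℂ F₂ (ball ζ ρ) ∧
  ∀ y ∈ ball ζ ρ, y ∈ St r₀ → F₁ y = Complex.exp (2 * Complex.I * θ y) ∧
    F₂ y = h y * Complex.exp (Complex.I * θ y)

/-- critical growth. -/
def Gr (θ Q : ℂ → ℂ) (r₀ A : ℝ) : Prop := ∀ y ∈ St r₀,
  ‖deriv θ y‖ * (r₀ - |y.im|) ≤ A ∧ ‖Q y‖ * (r₀ - |y.im|) ^ 2 ≤ A

/-- critical growth gives the local estimate. -/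
def SCrit : Prop := ∀ (θ h Q : ℂ → ℂ) (c : ℂ) (r₀ A : ℝ), 0 < r₀ → Cv θ h Q c (St r₀) →
  Gr θ Q r₀ A → ∃ c₁ : ℝ, 0 < c₁ ∧ c₁ ≤ 1 ∧ Crit (Ph θ h) r₀ c₁ ∧
    ∀ b ∈ St r₀, ∀ b' : ℂ, b' ≠ b → ‖b' - b‖ < c₁ * (r₀ - |b.im|) → k1 θ h b b' ≠ 0

/-- the baseline with the law. -/
def SBl : Prop := ∀ (θ h Q : ℂ → ℂ) (Y : ℂ × ℂ → ℂ) (c : ℂ) (r₀ A η ε M : ℝ), η ≤ r₀ →
  Cv θ h Q c (St r₀) → Gr θ Q r₀ A → Col Y η ε M →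
  (∀ x ∈ St η, ∀ w ∈ ball (0 : ℂ) ε, x - w ∈ St η → x + w ∈ St η →
    Y (x - w, w) ∈ St r₀ → Y (x, w) ∈ St r₀ → Y (x + w, w) ∈ St r₀ →
    EE θ h (Y (x - w, w)) (Y (x, w)) (Y (x + w, w)) = 0) →
  ∃ (Z : ℂ × ℂ → ℂ) (c' C η' : ℝ), 0 < η' ∧ η' ≤ η ∧ c' * r₀ ≤ ε ∧ Bl Z r₀ c' C ∧
    (∀ p ∈ Om r₀ c', |p.1.im| < η' → Z p = Y p) ∧
    ∀ x w : ℂ, (x - w, w) ∈ Om r₀ c' → (x, w) ∈ Om r₀ c' → (x + w, w) ∈ Om r₀ c' →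
      EE θ h (Z (x - w, w)) (Z (x, w)) (Z (x + w, w)) = 0

/-- a small disc of calm gives a calm box. -/
def SCalm : Prop := ∀ (A R ε' : ℝ), 1 < R → 0 < ε' → ∃ ε : ℝ, 0 < ε ∧
  ∀ (θ h Q : ℂ → ℂ) (c : ℂ) (r₀ : ℝ) (y₀ : ℂ), Cv θ h Q c (St r₀) → Gr θ Q r₀ A → y₀.im < r₀ →
    4 * R * (r₀ - y₀.im) ≤ r₀ →
    (∀ y ∈ ball y₀ ((r₀ - y₀.im) / 8), ‖deriv θ y‖ * (r₀ - y₀.im) ≤ ε ∧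
      ‖Q y‖ * (r₀ - y₀.im) ^ 2 ≤ ε) →
    Calm (Ph θ h) (Box r₀ y₀.re (r₀ - y₀.im) R) (8 * (r₀ - y₀.im)) ε' ∧
    (∀ b ∈ Box r₀ y₀.re (r₀ - y₀.im) R, ‖deriv θ b‖ * (r₀ - y₀.im) ≤ ε') ∧
    ∀ b ∈ Box r₀ y₀.re (r₀ - y₀.im) R, ∀ b' ∈ Box r₀ y₀.re (r₀ - y₀.im) R, b' ≠ b →
      ‖b' - b‖ ≤ 8 * (r₀ - y₀.im) → k1 θ h b b' ≠ 0

/-- no calm disc near the top line. -/
def SNoCalm : Prop := ∀ (θ h Q : ℂ → ℂ) (Y : ℂ × ℂ → ℂ) (c : ℂ) (r₀ A η ε M : ℝ), η ≤ r₀ →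
  Cv θ h Q c (St r₀) → Gr θ Q r₀ A → Col Y η ε M →
  (∀ x ∈ St η, ∀ w ∈ ball (0 : ℂ) ε, x - w ∈ St η → x + w ∈ St η →
    Y (x - w, w) ∈ St r₀ → Y (x, w) ∈ St r₀ → Y (x + w, w) ∈ St r₀ →
    EE θ h (Y (x - w, w)) (Y (x, w)) (Y (x + w, w)) = 0) →
  ¬ Over θ h r₀ → ∃ ε₁ d₁ : ℝ, 0 < ε₁ ∧ 0 < d₁ ∧ ∀ y₀ : ℂ, y₀.im < r₀ → r₀ - y₀.im < d₁ →
    ∃ y ∈ ball y₀ ((r₀ - y₀.im) / 8), ε₁ < ‖deriv θ y‖ * (r₀ - y₀.im) ∨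
      ε₁ < ‖Q y‖ * (r₀ - y₀.im) ^ 2

end Vale.Agent.P097N
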