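import Vale.Agent.P097N.Defs
import Vale.Agent.P097.H407.Hol

/-!
# P097N: maximum principle for Taylor coefficients
-/

set_option linter.all false

noncomputable section

namespace Vale.Agent.P097N

open Filter Topology Set Metric

/-- iterated derivatives in the first variable are jointly holomorphic. -/
theorem Coef.iter {F : ℂ × ℂ → ℂ} {S : Set (ℂ × ℂ)} (hS : IsOpen S)
    (hF : DifferentiableOn ℂ F S) (n : ℕ) :
    DifferentiableOn ℂ (fun p : ℂ × ℂ => iteratedDeriv n (fun x => F (x, p.2)) p.1) S := by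
  induction n with
  | zero => simpa using hF
  | succ n ih =>
    refine (P097.Hol.differentiableOn_fderiv_apply hS ih ((1 : ℂ), (0 : ℂ))).congr fun p hp => ?_
    rw [iteratedDeriv_succ]
    have h1 : HasDerivAt (fun x : ℂ => ((x, p.2) : ℂ × ℂ)) (1, 0) p.1 :=
      (hasDerivAt_id p.1).prodMk (hasDerivAt_const p.1 p.2)
    exact (HasFDerivAt.comp_hasDerivAt (f := fun x : ℂ => ((x, p.2) : ℂ × ℂ)) p.1
      (ih.differentiableAt (hS.mem_nhds hp)).hasFDerivAt h1).deriv

/-- the Taylor coefficients are holomorphic in the parameter. -/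
theorem Coef.co_diff {F : ℂ × ℂ → ℂ} {U V : Set ℂ} {x₀ : ℂ} (hU : IsOpen U) (hV : IsOpen V)
    (hx : x₀ ∈ U) (hF : DifferentiableOn ℂ F (U ×ˢ V)) (n : ℕ) :
    DifferentiableOn ℂ (fun w => co F x₀ w n) V := by
  have h1 := (Coef.iter (hU.prod hV) hF n).comp (f := fun w : ℂ => ((x₀, w) : ℂ × ℂ)) (s := V)
    (by fun_prop) (fun w hw => ⟨hx, hw⟩)
  exact h1.div_const _

theorem scoef (hE : SExt) : SCoef := by
  intro F ψ x₀ τ M T V τ0 hV bT cT hF hψ fr w hw n
  have e : ∀ z, ‖co F x₀ z n * Complex.exp (n * ψ z)‖ =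
      ‖co F x₀ z n‖ * Real.exp (ψ z).re ^ n := by
    intro z
    rw [norm_mul, Complex.exp_nat_mul, norm_pow, Complex.norm_exp]
  have d : DifferentiableOn ℂ (fun z => co F x₀ z n * Complex.exp (n * ψ z)) V :=
    (Coef.co_diff isOpen_ball hV (mem_ball_self τ0) hF n).mul (hψ.const_mul _).cexp
  rw [← e]
  refine Complex.norm_le_of_forall_mem_frontier_norm_le bT
    (d.mono cT).diffContOnCl (fun z hz => ?_) hw
  obtain ⟨G, g1, g2, g3⟩ := fr z hz
  rw [e]
  exact (hE F x₀ z _ M (Real.exp_pos _)).2 G g1 g2 g3 n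

end Vale.Agent.P097N
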