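import Vale.Agent.P097N.Defs

/-!
# P097N: finitely many steps of the reflection law in a calm set
-/

set_option linter.all false

noncomputable section

namespace Vale.Agent.P097N

open Filter Topology Set Metric

namespace BoxS

/-- one step. -/
theorem step (hR : SRoot) {Φ : ℂ × ℂ → ℂ} {B X : Set ℂ} {w : ℂ} {a b : ℂ → ℂ} {ρ ε τ : ℝ}
    (hC : Calm Φ B ρ ε) (hX : IsOpen X) (hε : 0 ≤ ε) (hτ : 0 < τ) (hw : 4 * τ ≤ ‖w‖)
    (hρ : 2 * ‖w‖ ≤ ρ) (hεw : 32 * ε * ‖w‖ ≤ τ) (ha : DifferentiableOn ℂ a X)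
    (hb : DifferentiableOn ℂ b X)
    (h : ∀ x ∈ X, a x ∈ B ∧ b x ∈ B ∧ ball (2 * b x - a x) τ ⊆ B ∧ ‖b x - a x - w‖ ≤ ‖w‖ / 4) :
    ∃ c : ℂ → ℂ, DifferentiableOn ℂ c X ∧ ∀ x ∈ X, ‖c x - (2 * b x - a x)‖ ≤ 5 * ε * ‖w‖ ∧
      ∀ c', ‖c' - (2 * b x - a x)‖ < τ / 2 → Φ (b x, c') + Φ (b x, a x) = 0 → c' = c x := by
  have hab : ∀ x ∈ X, 3 * ‖w‖ / 4 ≤ ‖a x - b x‖ ∧ ‖a x - b x‖ ≤ 5 * ‖w‖ / 4 := by
    intro x hx
    have h4 := (h x hx).2.2.2
    rw [norm_sub_rev (a x)]
    constructor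
    · have : ‖w‖ ≤ ‖b x - a x‖ + ‖b x - a x - w‖ := by
        calc ‖w‖ = ‖(b x - a x) - (b x - a x - w)‖ := by congr 1; ring
          _ ≤ _ := norm_sub_le _ _
      linarith
    · have : ‖b x - a x‖ ≤ ‖b x - a x - w‖ + ‖w‖ := by
        calc ‖b x - a x‖ = ‖(b x - a x - w) + w‖ := by congr 1; ring
          _ ≤ _ := norm_add_le _ _
      linarith
  have hA : ∀ x ∈ X, ‖Φ (b x, a x) - (a x - b x)‖ ≤ ε * (5 * ‖w‖ / 4) ∧
      AnalyticAt ℂ Φ (b x, a x) := by
    intro x hx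
    obtain ⟨h1, h2⟩ := hab x hx
    obtain ⟨h3, h4⟩ := hC (b x) (h x hx).2.1 (a x) (h x hx).1 (by linarith)
    refine ⟨h3.trans (mul_le_mul_of_nonneg_left h2 hε), h4 ?_⟩
    intro he
    rw [he, sub_self, norm_zero] at h1
    linarith
  have hB : ∀ x ∈ X, ∀ c ∈ ball (2 * b x - a x) τ,
      ‖Φ (b x, c) - (c - b x)‖ ≤ ε * (‖c - (2 * b x - a x)‖ + 5 * ‖w‖ / 4) ∧
      AnalyticAt ℂ Φ (b x, c) := by
    intro x hx c hc
    obtain ⟨h1, h2⟩ := hab x hx
    have hc' : ‖c - (2 * b x - a x)‖ < τ := by rwa [mem_ball, dist_eq_norm] at hc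
    have h5 : ‖c - b x‖ ≤ ‖c - (2 * b x - a x)‖ + ‖a x - b x‖ := by
      calc ‖c - b x‖ = ‖(c - (2 * b x - a x)) - (a x - b x)‖ := by congr 1; ring
        _ ≤ _ := norm_sub_le _ _
    have h6 : ‖a x - b x‖ ≤ ‖c - (2 * b x - a x)‖ + ‖c - b x‖ := by
      calc ‖a x - b x‖ = ‖(c - (2 * b x - a x)) - (c - b x)‖ := by congr 1; ring
        _ ≤ _ := norm_sub_le _ _
    obtain ⟨h3, h4⟩ := hC (b x) (h x hx).2.1 c ((h x hx).2.2.1 hc) (by linarith)
    refine ⟨h3.trans (mul_le_mul_of_nonneg_left (by linarith) hε), h4 ?_⟩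
    intro he
    rw [he, sub_self, norm_zero] at h6
    rw [he] at hc'
    linarith
  have hS : ∀ x ∈ X, ∀ c ∈ ball (2 * b x - a x) τ,
      ‖Φ (b x, c) + Φ (b x, a x) - (c - (2 * b x - a x))‖ ≤
        ε * (‖c - (2 * b x - a x)‖ + 5 * ‖w‖ / 4) + ε * (5 * ‖w‖ / 4) := by
    intro x hx c hc
    calc ‖Φ (b x, c) + Φ (b x, a x) - (c - (2 * b x - a x))‖
        = ‖(Φ (b x, c) - (c - b x)) + (Φ (b x, a x) - (a x - b x))‖ := by congr 1; ring
      _ ≤ _ := (norm_add_le _ _).trans (add_le_add (hB x hx c hc).1 (hA x hx).1)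
  obtain ⟨c, hc, hcx⟩ := hR Φ X a b τ hX hτ ha hb (fun x hx => (hA x hx).2) (by
    intro x hx c hc
    refine ⟨(hB x hx c hc).2, (hS x hx c hc).trans ?_⟩
    have hc' : ‖c - (2 * b x - a x)‖ < τ := by rwa [mem_ball, dist_eq_norm] at hc
    have h1 : ε * (‖c - (2 * b x - a x)‖ + 5 * ‖w‖ / 4) ≤ ε * (‖w‖ / 4 + 5 * ‖w‖ / 4) :=
      mul_le_mul_of_nonneg_left (by linarith) hε
    have h2 : 0 ≤ ε * ‖w‖ := mul_nonneg hε (norm_nonneg _)
    nlinarith)
  refine ⟨c, hc, fun x hx => ⟨?_, (hcx x hx).2.2.2⟩⟩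
  have h1 := (hcx x hx).2.2.1
  have h2 := hS x hx (2 * b x - a x) (mem_ball_self hτ)
  rw [sub_self, sub_zero, norm_zero] at h2
  nlinarith

/-- summing the first differences. -/
theorem sum_le {y : ℕ → ℂ} {x w : ℂ} {e δ : ℝ} {k : ℕ} (h0 : ‖y 0 - x‖ ≤ e)
    (h : ∀ j ≤ k, ‖y (j + 1) - y j - w‖ ≤ δ) :
    ∀ j ≤ k + 1, ‖y j - (x + j * w)‖ ≤ e + j * δ := by
  intro j
  induction j with
  | zero => intro _; simpa using h0
  | succ j ih =>
    intro hj
    have h1 := ih (by omega)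
    have h2 := h j (by omega)
    push_cast
    calc ‖y (j + 1) - (x + (j + 1) * w)‖ = ‖(y j - (x + j * w)) + (y (j + 1) - y j - w)‖ := by
          congr 1; ring
      _ ≤ _ := (norm_add_le _ _).trans (by linarith)

end BoxS

theorem sbox (hR : SRoot) : SBox := by
  intro Φ B X w y₀ y₁ J ρ ε μ τ e e' hC hX hε hτ hμ hw hρ hεw hδ hE h₀ h₁ h01 hball
  set γ : ℝ := 5 * ε * ‖w‖ with hγ
  have hγ0 : 0 ≤ γ := by positivity
  have hpos : ∀ {y : ℕ → ℂ} {x : ℂ} {k : ℕ}, x ∈ X → k ≤ J → y 0 = y₀ x →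
      (∀ j ≤ k, ‖y (j + 1) - y j - w‖ ≤ e' + j * γ) →
      (∀ j ≤ k, ‖y (j + 1) - y j - w‖ ≤ e' + J * γ) ∧
      ∀ j ≤ k + 1, ‖y j - (x + j * w)‖ ≤ e + j * (e' + J * γ) := by
    intro y x k hx hk hy0 hd
    have h2 : ∀ j ≤ k, ‖y (j + 1) - y j - w‖ ≤ e' + J * γ := by
      intro j hj
      have : (j : ℝ) ≤ J := by exact_mod_cast hj.trans hk
      exact (hd j hj).trans (by nlinarith)
    exact ⟨h2, BoxS.sum_le (by rw [hy0]; exact (h01 x hx).1) h2⟩
  have hδ0 : ∀ x ∈ X, 0 ≤ e' + J * γ := by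
    intro x hx
    have := (norm_nonneg _).trans (h01 x hx).2
    positivity
  have hmu : ∀ x ∈ X, ∀ j : ℕ, j ≤ J + 1 → e + j * (e' + J * γ) ≤ μ / 2 := by
    intro x hx j hj
    have h3 : (j : ℝ) ≤ J + 1 := by exact_mod_cast hj
    have := mul_le_mul_of_nonneg_right h3 (hδ0 x hx)
    linarith
  have key : ∀ k ≤ J, ∃ y : ℕ → ℂ → ℂ, y 0 = y₀ ∧ y 1 = y₁ ∧
      (∀ j ≤ k + 1, DifferentiableOn ℂ (y j) X) ∧ ∀ x ∈ X,
      (∀ j ≤ k, ‖y (j + 1) x - y j x - w‖ ≤ e' + j * γ) ∧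
      ∀ j < k, ∀ c', ‖c' - (2 * y (j + 1) x - y j x)‖ < τ / 2 →
        Φ (y (j + 1) x, c') + Φ (y (j + 1) x, y j x) = 0 → c' = y (j + 2) x := by
    intro k
    induction k with
    | zero =>
      intro _
      refine ⟨fun j => if j = 0 then y₀ else y₁, by simp, by simp, ?_, fun x hx => ⟨?_, ?_⟩⟩
      · intro j _
        by_cases hj : j = 0
        · simpa [hj] using h₀
        · simpa [hj] using h₁
      · intro j hj
        obtain rfl : j = 0 := by omega
        simpa using (h01 x hx).2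
      · intro j hj; omega
    | succ k ih =>
      intro hk
      obtain ⟨y, hy0, hy1, hd, hy⟩ := ih (by omega)
      obtain ⟨c, hc, hcx⟩ := BoxS.step hR (a := y k) (b := y (k + 1)) hC hX hε hτ hw hρ hεw
        (hd k (by omega)) (hd (k + 1) le_rfl) (by
        intro x hx
        obtain ⟨p1, p2⟩ := hpos (y := fun j => y j x) (k := k) hx (by omega) (by simp [hy0])
          (hy x hx).1
        have q1 := p2 k (by omega)
        have q2 := p2 (k + 1) le_rfl
        have q3 := p1 k le_rfl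
        have m1 := hmu x hx k (by omega)
        have m2 := hmu x hx (k + 1) (by omega)
        have m3 := hmu x hx (k + 2) (by omega)
        refine ⟨hball x hx k (by omega) ?_, hball x hx (k + 1) (by omega) ?_,
          Subset.trans ?_ (hball x hx (k + 2) (by omega)), by linarith⟩
        · rw [mem_ball, dist_eq_norm]; linarith
        · rw [mem_ball, dist_eq_norm]; linarith
        · apply ball_subset_ball'
          rw [dist_eq_norm]
          have : ‖2 * y (k + 1) x - y k x - (x + ((k + 2 : ℕ) : ℂ) * w)‖ ≤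
              ‖y (k + 1) x - (x + ((k + 1 : ℕ) : ℂ) * w)‖ + ‖y (k + 1) x - y k x - w‖ := by
            refine le_trans (le_of_eq ?_) (norm_add_le _ _)
            congr 1; push_cast; ring
          push_cast at m3 q2 this ⊢
          linarith)
      refine ⟨Function.update y (k + 2) c, ?_, ?_, ?_, fun x hx => ⟨?_, ?_⟩⟩
      · rw [Function.update_of_ne (by omega), hy0]
      · rw [Function.update_of_ne (by omega), hy1]
      · intro j hj
        by_cases h : j = k + 2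
        · rw [h, Function.update_self]; exact hc
        · rw [Function.update_of_ne h]; exact hd j (by omega)
      · intro j hj
        by_cases h : j = k + 1
        · subst h
          rw [Function.update_self, Function.update_of_ne (by omega)]
          have q1 := (hcx x hx).1
          have q2 := (hy x hx).1 k le_rfl
          have : ‖c x - y (k + 1) x - w‖ ≤ ‖c x - (2 * y (k + 1) x - y k x)‖ +
              ‖y (k + 1) x - y k x - w‖ := by
            refine le_trans (le_of_eq ?_) (norm_add_le _ _)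
            congr 1; ring
          push_cast
          linarith
        · rw [Function.update_of_ne (by omega), Function.update_of_ne (by omega)]
          exact (hy x hx).1 j (by omega)
      · intro j hj
        rw [Function.update_of_ne (by omega : j + 1 ≠ k + 2),
          Function.update_of_ne (by omega : j ≠ k + 2)]
        by_cases h : j = k
        · subst h
          rw [Function.update_self]
          exact (hcx x hx).2
        · rw [Function.update_of_ne (by omega)]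
          exact (hy x hx).2 j (by omega)
  obtain ⟨y, hy0, hy1, hd, hy⟩ := key J le_rfl
  refine ⟨y, hd, fun x hx => ?_⟩
  obtain ⟨p1, p2⟩ := hpos (y := fun j => y j x) (k := J) hx le_rfl (by simp [hy0]) (hy x hx).1
  refine ⟨fun j hj => (p2 j hj).trans (hmu x hx j hj), fun j hj => (p1 j hj).trans hδ, ?_⟩
  intro z hz0 hz1 hz
  have hz2 : ∀ j ≤ J, z j = y j x ∧ z (j + 1) = y (j + 1) x := by
    intro j
    induction j with
    | zero => intro _; exact ⟨by rw [hz0, hy0], by rw [hz1, ← hy1]⟩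
    | succ j ih =>
      intro hj
      obtain ⟨e1, e2⟩ := ih (by omega)
      obtain ⟨f1, f2⟩ := hz j (by omega)
      rw [e1, e2] at f1 f2
      exact ⟨e2, (hy x hx).2 j (by omega) _ f2 f1⟩
  intro j hj
  rcases j with _ | j
  · exact (hz2 0 (by omega)).1
  · exact (hz2 j (by omega)).2

end Vale.Agent.P097N
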