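import Vale.Agent.P097N.Defs

/-!
# P097N: a small disc of calm gives a calm box
-/

set_option linter.all false

noncomputable section

namespace Vale.Agent.P097N

open Filter Topology Set Metric

namespace CalmP

theorem rect_convex (a b c d : ℝ) :
    Convex ℝ {z : ℂ | (a < z.re ∧ z.re < b) ∧ c < z.im ∧ z.im < d} :=
  ((convex_halfSpace_re_gt a).inter (convex_halfSpace_re_lt b)).inter
    ((convex_halfSpace_im_gt c).inter (convex_halfSpace_im_lt d))

theorem box_convex (r₀ s d R : ℝ) : Convex ℝ (Box r₀ s d R) := by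
  have e : Box r₀ s d R = {z : ℂ | (s - R * d < z.re ∧ z.re < s + R * d) ∧
      r₀ - R * d < z.im ∧ z.im < r₀ - d / R} := by
    ext y
    simp only [Box, mem_setOf_eq, abs_lt]
    constructor
    · rintro ⟨⟨a, b⟩, c, e⟩
      exact ⟨⟨by linarith, by linarith⟩, by linarith, by linarith⟩
    · rintro ⟨⟨a, b⟩, c, e⟩
      exact ⟨⟨by linarith, by linarith⟩, by linarith, by linarith⟩
  rw [e]
  exact rect_convex _ _ _ _

/-- smallness on a closed box -/
theorem small (hS : SSmall) (A R e : ℝ) (hR : 1 < R) (he : 0 < e) : ∃ ε : ℝ, 0 < ε ∧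
    ∀ (g : ℂ → ℂ) (r₀ : ℝ) (y₀ : ℂ), DifferentiableOn ℂ g (St r₀) → y₀.im < r₀ →
      4 * R * (r₀ - y₀.im) ≤ r₀ →
      (∀ y ∈ St r₀, r₀ - y₀.im ≤ 2 * R * (r₀ - |y.im|) → ‖g y‖ ≤ A) →
      (∀ y ∈ ball y₀ ((r₀ - y₀.im) / 8), ‖g y‖ ≤ ε) →
      ∀ w : ℂ, |w.re - y₀.re| ≤ (R + 1 / (4 * R)) * (r₀ - y₀.im) →
        3 / (4 * R) * (r₀ - y₀.im) ≤ r₀ - w.im → r₀ - w.im ≤ (R + 1 / (4 * R)) * (r₀ - y₀.im) →
        ‖g w‖ ≤ e := by
  have R0 : 0 < R := by linarith
  have q1 : 1 / (4 * R) < R := by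
    rw [div_lt_iff₀ (by positivity)]; nlinarith
  have q2 : 1 / (2 * R) < 3 / (4 * R) := by
    rw [div_lt_div_iff₀ (by positivity) (by positivity)]; nlinarith
  have q3 : 1 / (2 * R) < 1 := by
    rw [div_lt_iff₀ (by positivity)]; linarith
  obtain ⟨ε, ε0, H⟩ := hS
    {z : ℂ | (-(2 * R) < z.re ∧ z.re < 2 * R) ∧ -(2 * R) < z.im ∧ z.im < -(1 / (2 * R))}
    (Icc (-(R + 1 / (4 * R))) (R + 1 / (4 * R)) ×ℂ Icc (-(R + 1 / (4 * R))) (-(3 / (4 * R))))
    (-Complex.I) (1 / 8) A e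
    (((isOpen_lt continuous_const Complex.continuous_re).inter
      (isOpen_lt Complex.continuous_re continuous_const)).inter
      ((isOpen_lt continuous_const Complex.continuous_im).inter
      (isOpen_lt Complex.continuous_im continuous_const)))
    (rect_convex _ _ _ _).isPreconnected (isCompact_Icc.reProdIm isCompact_Icc)
    (fun z hz => by
      obtain ⟨⟨a, b⟩, c, f⟩ := Complex.mem_reProdIm.1 hz
      exact ⟨⟨by linarith, by linarith⟩, by linarith, by linarith⟩)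
    ⟨⟨by simp; linarith, by simp; linarith⟩, by simp; linarith, by
      simp only [Complex.neg_im, Complex.I_im]; linarith⟩ (by norm_num) he
  refine ⟨ε, ε0, fun g r₀ y₀ hg h0 h4 hA hε w w1 w2 w3 => ?_⟩
  obtain ⟨d, hd⟩ : ∃ d, d = r₀ - y₀.im := ⟨_, rfl⟩
  rw [← hd] at h4 hA hε w1 w2 w3
  have d0 : 0 < d := by linarith
  let φ : ℂ → ℂ := fun z => y₀ + d * (z + Complex.I)
  have fre : ∀ z, (φ z).re = y₀.re + d * z.re := fun z => by simp [φ]
  have fim : ∀ z, (φ z).im = r₀ + d * z.im := fun z => by simp [φ]; linarith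
  have key : ∀ z : ℂ, -(2 * R) < z.im → z.im < -(1 / (2 * R)) →
      φ z ∈ St r₀ ∧ d ≤ 2 * R * (r₀ - |(φ z).im|) := fun z a b => by
    have p1 : 0 < (φ z).im := by rw [fim]; nlinarith
    have p2 : 1 < 2 * R * -z.im := by
      have : 1 / (2 * R) < -z.im := by linarith
      rw [div_lt_iff₀ (by positivity)] at this
      linarith
    have p3 : z.im < 0 := by
      have : 0 < 1 / (2 * R) := by positivity
      linarith
    refine ⟨?_, ?_⟩
    · show |(φ z).im| < r₀
      rw [abs_of_pos p1, fim]; nlinarith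
    · rw [abs_of_pos p1, fim]; nlinarith
  have dφ : Differentiable ℂ φ := by fun_prop
  have := H (fun z => g (φ z)) (hg.comp dφ.differentiableOn fun z hz => (key z hz.2.1 hz.2.2).1)
    (fun z hz => hA _ (key z hz.2.1 hz.2.2).1 (key z hz.2.1 hz.2.2).2)
    (fun z _ hz => hε _ (by
      rw [mem_ball, dist_eq_norm] at hz ⊢
      have : φ z - y₀ = d * (z - -Complex.I) := by simp [φ]
      rw [this, norm_mul, Complex.norm_real, Real.norm_eq_abs, abs_of_pos d0]
      nlinarith))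
    ((w - y₀) / d - Complex.I) (by
      have e1 : ((w - y₀) / d - Complex.I).re = (w.re - y₀.re) / d := by
        simp [Complex.div_ofReal_re]
      have e2 : ((w - y₀) / d - Complex.I).im = -((r₀ - w.im) / d) := by
        simp only [Complex.sub_im, Complex.div_ofReal_im, Complex.I_im]
        field_simp
        linarith
      rw [Complex.mem_reProdIm, e1, e2]
      obtain ⟨a, b⟩ := abs_le.1 w1
      refine ⟨⟨?_, ?_⟩, ?_, ?_⟩
      · rw [le_div_iff₀ d0]; linarith
      · rw [div_le_iff₀ d0]; linarith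
      · rw [neg_le_neg_iff, div_le_iff₀ d0]; linarith
      · rw [neg_le_neg_iff, le_div_iff₀ d0]; linarith)
  have e3 : φ ((w - y₀) / d - Complex.I) = w := by
    have : (d : ℂ) ≠ 0 := by exact_mod_cast d0.ne'
    simp only [φ]
    field_simp
    ring
  simpa only [e3] using this

theorem St_open (r : ℝ) : IsOpen (St r) :=
  isOpen_lt (continuous_abs.comp Complex.continuous_im) continuous_const

end CalmP

open CalmP in
theorem scalm (hK : SK) (hS : SSmall) : SCalm := by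
  intro A R ε' hR hε'
  have R0 : 0 < R := by linarith
  obtain ⟨E, hE⟩ : ∃ E, E = min (1 / 12) (ε' / 12) := ⟨_, rfl⟩
  have E0 : 0 < E := by rw [hE]; positivity
  have E1 : E ≤ 1 / 12 := hE ▸ min_le_left _ _
  have E2 : E ≤ ε' / 12 := hE ▸ min_le_right _ _
  obtain ⟨e, he⟩ : ∃ e, e = E / (6144 * R) := ⟨_, rfl⟩
  have e0 : 0 < e := by rw [he]; positivity
  have eE : 6144 * R * e = E := by rw [he]; field_simp
  have e1 : 128 * e ≤ E := by nlinarith
  obtain ⟨ε, ε0, H⟩ := small hS (4 * R ^ 2 * |A|) R e hR e0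
  refine ⟨ε, ε0, fun θ h Q c r₀ y₀ cv gr h0 h4 hc => ?_⟩
  have H1 := H (fun y => deriv θ y * (r₀ - y₀.im : ℝ)) r₀ y₀
  have H2 := H (fun y => Q y * ((r₀ - y₀.im : ℝ) : ℂ) ^ 2) r₀ y₀
  obtain ⟨d, hd⟩ : ∃ d, d = r₀ - y₀.im := ⟨_, rfl⟩
  rw [← hd] at h4 hc H1 H2 ⊢
  have d0 : 0 < d := by linarith
  have dg : DifferentiableOn ℂ (deriv θ) (St r₀) := cv.dθ.deriv cv.op
  have n1 : ∀ u : ℂ, ‖u * (d : ℂ)‖ = ‖u‖ * d := fun u => by
    rw [norm_mul, Complex.norm_real, Real.norm_eq_abs, abs_of_pos d0]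
  have n2 : ∀ u : ℂ, ‖u * (d : ℂ) ^ 2‖ = ‖u‖ * d ^ 2 := fun u => by
    rw [norm_mul, norm_pow, Complex.norm_real, Real.norm_eq_abs, abs_of_pos d0]
  have aA := le_abs_self A
  have a0 := abs_nonneg A
  have G1 := H1 (dg.mul_const _) h0 h4
    (fun y hy hb => by
      rw [n1]
      have a1 := (gr y hy).1
      have a2 := mul_le_mul_of_nonneg_left hb (norm_nonneg (deriv θ y))
      have a3 : 2 * R * |A| ≤ 4 * R ^ 2 * |A| := mul_le_mul_of_nonneg_right (by nlinarith) a0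
      nlinarith)
    (fun y hy => by rw [n1]; exact (hc y hy).1)
  have G2 := H2 (cv.dQ.mul_const _) h0 h4
    (fun y hy hb => by
      rw [n2]
      have a1 := (gr y hy).2
      have a2 := mul_le_mul_of_nonneg_left (pow_le_pow_left₀ d0.le hb 2) (norm_nonneg (Q y))
      have a3 : ‖Q y‖ * (2 * R * (r₀ - |y.im|)) ^ 2 = 4 * R ^ 2 * (‖Q y‖ * (r₀ - |y.im|) ^ 2) := by
        ring
      have a4 := mul_le_mul_of_nonneg_left (a1.trans aA) (by positivity : 0 ≤ 4 * R ^ 2)
      linarith)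
    (fun y hy => by rw [n2]; exact (hc y hy).2)
  simp only [n1, n2] at G1 G2
  have near : ∀ y ∈ Box r₀ y₀.re d R, ∀ w ∈ closedBall y (d / (4 * R)),
      w ∈ St r₀ ∧ ‖deriv θ w‖ * d ≤ e ∧ ‖Q w‖ * d ^ 2 ≤ e := fun y hy w hw => by
    obtain ⟨b1, b2, b3⟩ := hy
    rw [mem_closedBall, dist_eq_norm] at hw
    have c1 := abs_le.1 ((Complex.abs_re_le_norm (w - y)).trans hw)
    have c2 := abs_le.1 ((Complex.abs_im_le_norm (w - y)).trans hw)
    simp only [Complex.sub_re, Complex.sub_im] at c1 c2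
    have b1 := abs_lt.1 b1
    have f1 : (R + 1 / (4 * R)) * d = R * d + d / (4 * R) := by ring
    have f2 : 3 / (4 * R) * d = d / R - d / (4 * R) := by field_simp; ring
    have f3 : 0 < 3 / (4 * R) * d := by positivity
    have f4 : d / (4 * R) ≤ R * d := by
      rw [div_le_iff₀ (by positivity)]
      have : 1 ≤ R * (4 * R) := by nlinarith
      nlinarith
    have f5 : 0 < R * d := by positivity
    have g1 : |w.re - y₀.re| ≤ (R + 1 / (4 * R)) * d := abs_le.2 ⟨by linarith, by linarith⟩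
    have g2 : 3 / (4 * R) * d ≤ r₀ - w.im := by linarith
    have g3 : r₀ - w.im ≤ (R + 1 / (4 * R)) * d := by linarith
    have g4 : |w.im| < r₀ := abs_lt.2 ⟨by linarith, by linarith⟩
    exact ⟨g4, G1 w g1 g2 g3, G2 w g1 g2 g3⟩
  have ρ0 : 0 < d / (4 * R) := by positivity
  have at1 : ∀ y ∈ Box r₀ y₀.re d R, y ∈ St r₀ ∧ ‖deriv θ y‖ * d ≤ e ∧ ‖Q y‖ * d ^ 2 ≤ e :=
    fun y hy => near y hy y (mem_closedBall_self ρ0.le)
  have at2 : ∀ y ∈ Box r₀ y₀.re d R, ‖deriv (deriv θ) y‖ * d ^ 2 ≤ 4 * R * e := fun y hy => by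
    have := Complex.norm_deriv_le_of_forall_mem_sphere_norm_le (C := e / d) ρ0
      (dg.diffContOnCl_ball fun w hw => (near y hy w hw).1) fun w hw => by
        rw [le_div_iff₀ d0]; exact (near y hy w (sphere_subset_closedBall hw)).2.1
    rw [← le_div_iff₀ (by positivity)]
    refine this.trans (le_of_eq ?_)
    field_simp
  have main : ∀ b ∈ Box r₀ y₀.re d R, ∀ b' ∈ Box r₀ y₀.re d R, ‖b' - b‖ ≤ 8 * d →
      ‖Ph θ h (b, b') - (b' - b)‖ ≤ 12 * E * ‖b' - b‖ ∧ (b ≠ b' → k1 θ h b b' ≠ 0) := by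
    intro b hb b' hb' hn
    have sg := (box_convex r₀ y₀.re d R).segment_subset hb' hb
    rw [norm_sub_rev] at hn
    refine (hK θ h Q c _ cv).2 b b' (2 * e / d ^ 2) (12 * R * e / d ^ 3) E
      (fun z hz => (at1 z (sg hz)).1) (fun z hz => ?_) ?_ ?_ E1
    · obtain ⟨-, p1, p2⟩ := at1 z (sg hz)
      have p3 := at2 z (sg hz)
      have p0 : 0 ≤ ‖deriv θ z‖ * d := by positivity
      have p4 : ‖deriv θ z‖ * d ≤ 1 := by linarith
      refine ⟨?_, ?_⟩
      · rw [le_div_iff₀ (by positivity)]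
        have p5 := mul_le_mul_of_nonneg_right (norm_sub_le (Q z) (deriv θ z ^ 2)) (sq_nonneg d)
        rw [norm_pow] at p5
        nlinarith
      · rw [le_div_iff₀ (by positivity), norm_mul, norm_mul]
        have p5 := mul_le_mul p4 p3 (by positivity) zero_le_one
        have p6 : ‖(3 : ℂ)‖ = 3 := by simp
        rw [p6]
        nlinarith
    · have p1 := pow_le_pow_left₀ (norm_nonneg _) hn 2
      calc _ ≤ 2 * e / d ^ 2 * (8 * d) ^ 2 := mul_le_mul_of_nonneg_left p1 (by positivity)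
        _ = 128 * e := by field_simp; ring
        _ ≤ E := e1
    · have p1 := pow_le_pow_left₀ (norm_nonneg _) hn 3
      calc _ ≤ 12 * R * e / d ^ 3 * (8 * d) ^ 3 := mul_le_mul_of_nonneg_left p1 (by positivity)
        _ = 6144 * R * e := by field_simp; ring
        _ = E := eE
  refine ⟨fun b hb b' hb' hn => ⟨(main b hb b' hb' hn).1.trans
    (mul_le_mul_of_nonneg_right (by linarith) (norm_nonneg _)), fun ne => ?_⟩,
    fun b hb => (at1 b hb).2.1.trans (by linarith), fun b hb b' hb' ne hn =>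
      (main b hb b' hb' hn).2 ne.symm⟩
  exact ((hK θ h Q c _ cv).1 b (at1 b hb).1 b' (at1 b' hb').1).2.2 ((main b hb b' hb' hn).2 ne.symm)

end Vale.Agent.P097N
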