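import Vale.Agent.P097N.Defs

/-!
# P097N: the peak function
-/

set_option linter.all false

noncomputable section

namespace Vale.Agent.P097N

open Filter Topology Set Metric Complex

theorem schi : SChi := by
  intro L hL
  obtain ⟨t, t0, t1, t2⟩ : ∃ t : ℝ, 0 < t ∧ t ≤ 1 / 2 ∧ t * (24 * L) ≤ 1 :=
    ⟨min (1 / 2) (1 / (24 * L)), lt_min (by norm_num) (by positivity), min_le_left ..,
      (le_div_iff₀ (by positivity)).1 (min_le_right ..)⟩
  obtain ⟨σ, hσ⟩ : ∃ σ, σ = t ^ 2 := ⟨_, rfl⟩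
  have σ0 : 0 < σ := by rw [hσ]; positivity
  have σ1 : σ ≤ t / 2 := by nlinarith
  obtain ⟨s, hs⟩ : ∃ s, s = 1 - σ := ⟨_, rfl⟩
  have s0 : 0 < s := by linarith
  have nb : ∀ z ∈ ball (0 : ℂ) (1 + σ / 8), ‖(s : ℂ) * z ^ 2‖ ≤ 1 - σ / 2 ∧
      σ / 2 ≤ ‖1 - (s : ℂ) * z ^ 2‖ := fun z hz => by
    rw [mem_ball_zero_iff] at hz
    have h : ‖(s : ℂ) * z ^ 2‖ ≤ 1 - σ / 2 := by
      rw [norm_mul, norm_pow, norm_real, Real.norm_of_nonneg s0.le]
      calc s * ‖z‖ ^ 2 ≤ s * (1 + σ / 8) ^ 2 := by gcongr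
        _ ≤ _ := by rw [hs]; nlinarith [mul_pos σ0 σ0, mul_pos σ0 (mul_pos σ0 σ0)]
    have := norm_sub_norm_le 1 ((s : ℂ) * z ^ 2)
    rw [norm_one] at this
    exact ⟨h, by linarith⟩
  refine ⟨fun z => -I * (t / 3 : ℝ) * (s * z ^ 2 / (1 - s * z ^ 2)), σ / 2, σ / 4, 2 * t / σ,
    1 + σ / 8, by linarith, by linarith, by linarith, by positivity, by linarith, by linarith,
    fun z hz => ?_, by simp, fun z => by simp, fun z hz => ?_, fun z hz => ?_⟩
  · have : 1 - (s : ℂ) * z ^ 2 ≠ 0 := norm_pos_iff.1 (by linarith [(nb z hz).2])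
    exact DifferentiableAt.differentiableWithinAt (by fun_prop (disch := assumption))
  · obtain ⟨h1, h2⟩ := nb z hz
    rw [norm_mul, norm_mul, norm_neg, norm_I, one_mul, norm_real,
      Real.norm_of_nonneg (by linarith), norm_div]
    calc _ ≤ t * (1 / (σ / 2)) := by
          gcongr <;> linarith
      _ = _ := by field_simp
  · have e0 : z.re ^ 2 = 1 - z.im ^ 2 := by
      have := Complex.sq_norm z
      rw [hz, normSq_apply] at this
      linarith
    have d0 : 0 < σ ^ 2 + 4 * s * z.im ^ 2 := by positivity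
    have e : (-I * (t / 3 : ℝ) * (s * z ^ 2 / (1 - s * z ^ 2))).im =
        t / 3 * s * (2 * z.im ^ 2 - σ) / (σ ^ 2 + 4 * s * z.im ^ 2) := by
      have e1 : normSq (1 - (s : ℂ) * z ^ 2) = σ ^ 2 + 4 * s * z.im ^ 2 := by
        simp [normSq_apply, sq]
        rw [hs]
        linear_combination ((1 - σ) * ((1 - σ) * (z.re ^ 2 + z.im ^ 2 + 1) - 2)) * e0
      have e2 : (s * z ^ 2 / (1 - s * z ^ 2) : ℂ).re =
          s * (σ - 2 * z.im ^ 2) / (σ ^ 2 + 4 * s * z.im ^ 2) := by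
        rw [div_re, e1, ← add_div]
        congr 1
        simp [sq]
        rw [hs]
        linear_combination ((1 - σ) * (1 - (1 - σ) * (z.re ^ 2 + z.im ^ 2 + 1))) * e0
      rw [mul_im, e2]
      simp
      ring
    simp only []
    rw [e, ← sq_abs z.im]
    rw [← sq_abs z.im] at d0
    generalize hy : |z.im| = y at d0 ⊢
    have y0 : 0 ≤ y := hy ▸ abs_nonneg _
    refine ⟨fun h => ?_, fun h => ?_⟩
    · rcases le_total (2 * y ^ 2) σ with k | k
      · have : t / 3 * s * (2 * y ^ 2 - σ) / (σ ^ 2 + 4 * s * y ^ 2) ≤ 0 :=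
          div_nonpos_of_nonpos_of_nonneg (mul_nonpos_of_nonneg_of_nonpos (by positivity)
            (by linarith)) d0.le
        linarith
      · have : t / 3 * s * (2 * y ^ 2 - σ) / (σ ^ 2 + 4 * s * y ^ 2) ≤ t / 6 := by
          rw [div_le_iff₀ d0]
          nlinarith [mul_pos t0 (mul_pos s0 σ0), mul_pos t0 (mul_pos σ0 σ0)]
        have : 7 / 10 * t ≤ y := by nlinarith
        linarith
    · rw [div_le_iff₀ d0]
      have y2 : y ^ 2 ≤ (σ / 2) ^ 2 := by gcongr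
      have h1 : σ ^ 2 + 4 * s * y ^ 2 ≤ 2 * σ ^ 2 := by nlinarith [sq_nonneg y]
      have h2 : 2 * y ^ 2 - σ ≤ -(σ / 2) := by nlinarith
      have h3 : L * (2 * σ ^ 2) ≤ t / 3 * (1 / 2) * (σ / 2) := by
        rw [hσ]
        nlinarith [mul_le_mul_of_nonneg_left t2 (show 0 ≤ t ^ 3 by positivity)]
      have h4 : t / 3 * (1 / 2) * (σ / 2) ≤ t / 3 * s * (σ - 2 * y ^ 2) := by
        gcongr <;> linarith
      nlinarith [mul_le_mul_of_nonneg_left h1 hL.le]

end Vale.Agent.P097N
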