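import Vale.Agent.P097N.Defs

/-!
# P097N: critical growth gives the local estimate
-/

set_option linter.all false

noncomputable section

namespace Vale.Agent.P097N

open Filter Topology Set Metric

theorem crit_bd {θ h Q : ℂ → ℂ} {c : ℂ} {r₀ A : ℝ} (V : Cv θ h Q c (St r₀)) (G : Gr θ Q r₀ A)
    (A0 : 0 ≤ A) {b : ℂ} (hb : b ∈ St r₀) {D : ℝ} (hD : D = r₀ - |b.im|) {z : ℂ}
    (hz : z ∈ ball b (D / 4)) : z ∈ St r₀ ∧ ‖Q z - deriv θ z ^ 2‖ ≤ 4 * (A + A ^ 2) / D ^ 2 ∧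
      ‖3 * deriv θ z * deriv (deriv θ) z‖ ≤ 48 * A ^ 2 / D ^ 3 := by
  have D0 : 0 < D := by rw [hD]; exact sub_pos.2 hb
  have k : ∀ y ∈ ball b (D / 2), y ∈ St r₀ ∧ ‖deriv θ y‖ ≤ 2 * A / D ∧ ‖Q y‖ ≤ 4 * A / D ^ 2 := by
    intro y hy
    have h1 := Complex.abs_im_le_norm (y - b)
    rw [mem_ball, dist_eq_norm] at hy
    have h2 := abs_sub_abs_le_abs_sub y.im b.im
    rw [Complex.sub_im] at h1
    have h3 : D / 2 ≤ r₀ - |y.im| := by linarith
    have ys : y ∈ St r₀ := by show |y.im| < r₀; linarith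
    obtain ⟨g1, g2⟩ := G y ys
    refine ⟨ys, ?_, ?_⟩
    · rw [le_div_iff₀ D0]
      nlinarith [mul_le_mul_of_nonneg_left h3 (norm_nonneg (deriv θ y))]
    · rw [le_div_iff₀ (by positivity)]
      have := mul_le_mul_of_nonneg_left (pow_le_pow_left₀ (by positivity) h3 2) (norm_nonneg (Q y))
      nlinarith
  have sb : closedBall z (D / 4) ⊆ ball b (D / 2) := by
    intro y hy
    rw [mem_closedBall] at hy
    rw [mem_ball] at hz ⊢
    linarith [dist_triangle y z b]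
  obtain ⟨zs, z1, z2⟩ := k z (sb (mem_closedBall_self (by positivity)))
  have z3 : ‖deriv (deriv θ) z‖ ≤ 2 * A / D / (D / 4) := by
    refine Complex.norm_deriv_le_of_forall_mem_sphere_norm_le (by positivity) ?_
      fun y hy => (k y (sb (sphere_subset_closedBall hy))).2.1
    refine DifferentiableOn.diffContOnCl ?_
    rw [closure_ball _ (by positivity)]
    exact (V.dθ.deriv V.op).mono fun y hy => (k y (sb hy)).1
  refine ⟨zs, (norm_sub_le _ _).trans ?_, ?_⟩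
  · rw [norm_pow]
    have a := pow_le_pow_left₀ (norm_nonneg _) z1 2
    have e : 4 * (A + A ^ 2) / D ^ 2 = 4 * A / D ^ 2 + (2 * A / D) ^ 2 := by field_simp; ring
    linarith
  · rw [norm_mul, norm_mul]
    have e : 48 * A ^ 2 / D ^ 3 = 3 * (2 * A / D) * (2 * A / D / (D / 4)) := by field_simp; ring
    rw [e]
    simp only [Complex.norm_ofNat]
    gcongr

theorem scrit (hK : SK) : SCrit := by
  intro θ h Q c r₀ A hr V G
  obtain ⟨K1, K2⟩ := hK θ h Q c _ V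
  have A0 : 0 ≤ A := by
    have := (G 0 (by simpa [St] using hr)).1
    simp only [Complex.zero_im, abs_zero, sub_zero] at this
    exact le_trans (by positivity) this
  set κ := 4 * (A + A ^ 2) + 48 * A ^ 2 + 1 with hκ
  have κ1 : 1 ≤ κ := by nlinarith
  have κ2 : 4 * (A + A ^ 2) ≤ κ := by nlinarith
  have κ3 : 48 * A ^ 2 ≤ κ := by nlinarith
  clear_value κ
  set c₁ := 1 / (10 * κ) with hc
  have c0 : 0 < c₁ := by positivity
  have c1 : c₁ ≤ 1 / 10 := one_div_le_one_div_of_le (by norm_num) (by linarith)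
  have c2 : 96 * κ * c₁ ^ 2 ≤ 1 := by
    have : κ * c₁ = 1 / 10 := by rw [hc]; field_simp
    nlinarith
  clear_value c₁
  have key : ∀ b ∈ St r₀, ∀ b' : ℂ, ‖b' - b‖ < c₁ * (r₀ - |b.im|) → b' ∈ St r₀ ∧
      ‖Ph θ h (b, b') - (b' - b)‖ ≤ ‖b' - b‖ ^ 3 / (8 * (c₁ * (r₀ - |b.im|)) ^ 2) ∧
      (b ≠ b' → k1 θ h b b' ≠ 0) := by
    intro b hb b' hs
    obtain ⟨D, hD⟩ : ∃ D, D = r₀ - |b.im| := ⟨_, rfl⟩
    have D0 : 0 < D := by rw [hD]; exact sub_pos.2 hb
    rw [← hD] at hs ⊢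
    have m : b' ∈ ball b (D / 4) := by
      rw [mem_ball, dist_eq_norm]
      nlinarith
    have sb : segment ℝ b' b ⊆ ball b (D / 4) :=
      (convex_ball b _).segment_subset m (mem_ball_self (by positivity))
    obtain ⟨t, ht⟩ : ∃ t, t = ‖b' - b‖ / D := ⟨_, rfl⟩
    have st : ‖b' - b‖ = t * D := by rw [ht]; field_simp
    have t0 : 0 ≤ t := by rw [ht]; positivity
    have t1 : t ≤ c₁ := by rw [ht, div_le_iff₀ D0]; exact hs.le
    have t2 : t ^ 2 ≤ c₁ ^ 2 := pow_le_pow_left₀ t0 t1 2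
    obtain ⟨a1, a2⟩ := K2 b b' (4 * (A + A ^ 2) / D ^ 2) (48 * A ^ 2 / D ^ 3) (κ * t ^ 2)
      (fun z hz => (crit_bd V G A0 hb hD (sb hz)).1) (fun z hz => (crit_bd V G A0 hb hD (sb hz)).2)
      (by
        rw [norm_sub_rev, st]
        have : 4 * (A + A ^ 2) / D ^ 2 * (t * D) ^ 2 = 4 * (A + A ^ 2) * t ^ 2 := by field_simp
        rw [this]
        gcongr)
      (by
        rw [norm_sub_rev, st]
        have : 48 * A ^ 2 / D ^ 3 * (t * D) ^ 3 = 48 * A ^ 2 * (t * t ^ 2) := by field_simp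
        rw [this]
        have : t * t ^ 2 ≤ t ^ 2 := by nlinarith [sq_nonneg t]
        gcongr)
      (by nlinarith)
    refine ⟨(crit_bd V G A0 hb hD m).1, a1.trans ?_, a2⟩
    rw [st, le_div_iff₀ (by positivity)]
    have : 12 * (κ * t ^ 2) * (t * D) * (8 * (c₁ * D) ^ 2) = 96 * κ * c₁ ^ 2 * (t * D) ^ 3 := by ring
    rw [this]
    exact mul_le_of_le_one_left (by positivity) c2
  refine ⟨c₁, c0, by linarith, fun b hb => ⟨fun b' ne hs => ?_, fun b' hs => (key b hb b' hs).2.1⟩,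
    fun b hb b' ne hs => (key b hb b' hs).2.2 ne.symm⟩
  obtain ⟨a, -, k⟩ := key b hb b' hs
  exact (K1 b hb b' a).2.2 (k ne.symm)

end Vale.Agent.P097N
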