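import Vale.Agent.P097N.Defs

/-!
# P097N: the abstract no calm box, first part
-/

set_option linter.all false

noncomputable section

namespace Vale.Agent.P097N.Core

open Filter Topology Set Metric

/-- depth at least `D d`, size at most `A d`. -/
def In (r₀ s d D A : ℝ) (x : ℂ) : Prop :=
  |x.re - s| ≤ A * d ∧ D * d ≤ r₀ - x.im ∧ r₀ - x.im ≤ A * d

variable {r₀ s d D A R c C ε M : ℝ} {x w : ℂ} {Φ Y Ψ : ℂ × ℂ → ℂ}

theorem In.add (h : In r₀ s d D A x) {u : ℂ} {t k : ℝ} (hu : ‖u‖ ≤ t * d) (hk : u.im ≤ k * d) :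
    In r₀ s d (D - k) (A + t) (x + u) := by
  obtain ⟨h1, h2, h3⟩ := h
  have a := abs_le.1 ((Complex.abs_re_le_norm u).trans hu)
  have b := abs_le.1 ((Complex.abs_im_le_norm u).trans hu)
  have h1' := abs_le.1 h1
  refine ⟨abs_le.2 ⟨?_, ?_⟩, ?_, ?_⟩ <;> simp only [Complex.add_re, Complex.add_im] <;> nlinarith

theorem In.shift (h : In r₀ s d D A x) {y : ℂ} {t : ℝ} (hu : ‖y - x‖ ≤ t * d) :
    In r₀ s d (D - t) (A + t) y := by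
  have := h.add hu ((le_abs_self _).trans ((Complex.abs_im_le_norm _).trans hu))
  rwa [add_sub_cancel] at this

theorem In.mono (h : In r₀ s d D A x) (hd : 0 < d) {D' A' : ℝ} (h1 : D' ≤ D) (h2 : A ≤ A') :
    In r₀ s d D' A' x :=
  ⟨h.1.trans (by gcongr), le_trans (by gcongr) h.2.1, h.2.2.trans (by gcongr)⟩

theorem In.box (h : In r₀ s d D A x) (hd : 0 < d) (h1 : 1 / R < D) (h2 : A < R) :
    x ∈ Box r₀ s d R := by
  have a : A * d < R * d := by gcongr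
  have b : 1 / R * d < D * d := by gcongr
  refine ⟨h.1.trans_lt a, ?_, h.2.2.trans_lt a⟩
  have : d / R = 1 / R * d := by ring
  linarith [h.2.1]

theorem isOpen_Om : IsOpen (Om r₀ c) := isOpen_lt (by fun_prop) (by fun_prop)

theorem isOpen_Box : IsOpen (Box r₀ s d R) := by
  refine IsOpen.and ?_ (IsOpen.and ?_ ?_) <;> exact isOpen_lt (by fun_prop) (by fun_prop)

theorem omY (hY : Bl Y r₀ c C) (hd : 0 < d) (h : In r₀ s d D A x) (hA : A * d ≤ r₀) (hD : 0 < D)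
    (hw : ‖w‖ < c * (D * d)) : (x, w) ∈ Om r₀ c ∧ ‖Y (x, w) - x‖ ≤ C * ‖w‖ ^ 2 / (D * d) := by
  have h0 : |x.im| = x.im := abs_of_nonneg (by linarith [h.2.2])
  have hm : (x, w) ∈ Om r₀ c := by
    show ‖w‖ < c * (r₀ - |x.im|)
    rw [h0]
    exact hw.trans_le (mul_le_mul_of_nonneg_left h.2.1 hY.hc.le)
  refine ⟨hm, (hY.bd _ hm).trans ?_⟩
  have := hY.hC
  simp only [h0]
  gcongr
  exact h.2.1

/-- the function of the chord from `Y q` to the next vertex. -/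
def H (Φ Y Ψ : ℂ × ℂ → ℂ) (q : ℂ × ℂ) : ℂ := Ψ (Y q, Φ (Y q, Y (q.1 + q.2, q.2)) / 2)

theorem one (hY : Bl Y r₀ c C) (hd : 0 < d) (hR : 2 * R * d ≤ r₀) (h1 : 2 < c * D)
    (h2 : 16 * C ≤ D) (h3 : 2 ≤ D) (h4 : A + 1 < R) (h5 : 1 < R) (h : In r₀ s d D A x)
    (hw : ‖w‖ ≤ 2 * d) : (x, w) ∈ Om r₀ c ∧ ‖Y (x, w) - x‖ ≤ C * ‖w‖ ^ 2 / (D * d) ∧
      ‖Y (x, w) - x‖ ≤ ‖w‖ / 8 ∧ Y (x, w) ∈ Box r₀ s d R := by
  obtain ⟨a, b⟩ := omY (w := w) hY hd h (by nlinarith) (by linarith) (by nlinarith)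
  have hC := hY.hC
  have e : C * ‖w‖ ^ 2 / (D * d) ≤ ‖w‖ / 8 := by
    rw [div_le_div_iff₀ (by positivity) (by norm_num)]
    have := norm_nonneg w
    have k : C * ‖w‖ * 8 ≤ D * d := by nlinarith
    nlinarith
  refine ⟨a, b, b.trans e, (h.shift (t := 1) (by linarith)).box hd ?_ h4⟩
  have : 1 / R < 1 := by rw [div_lt_one (by linarith)]; exact h5
  linarith

theorem half (hΦ : Calm Φ (Box r₀ s d R) (8 * d) ε) (hε : ε ≤ 1) {b b' : ℂ}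
    (hb : b ∈ Box r₀ s d R) (hb' : b' ∈ Box r₀ s d R) (h : ‖b' - b‖ ≤ 8 * d) :
    ‖Φ (b, b') / 2‖ ≤ ‖b' - b‖ := by
  have a := (hΦ b hb b' hb' h).1
  have e := norm_le_norm_sub_add (Φ (b, b')) (b' - b)
  have := norm_nonneg (b' - b)
  rw [norm_div, Complex.norm_ofNat]
  nlinarith

theorem Hd (hY : Bl Y r₀ c C) (hd : 0 < d) (hR : 2 * R * d ≤ r₀) (h1 : 2 < c * D)
    (h2 : 16 * C ≤ D) (h3 : 2 ≤ D) (h4 : A + 1 < R) (h5 : 1 < R)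
    (hΦ : Calm Φ (Box r₀ s d R) (8 * d) ε) (hε : ε ≤ 1)
    (hΨ : ∀ b ∈ Box r₀ s d R, ∀ l : ℂ, ‖l‖ ≤ 8 * d → AnalyticAt ℂ Ψ (b, l) ∧ ‖Ψ (b, l)‖ ≤ M)
    (hs : ∀ b ∈ Box r₀ s d R, ∀ b' ∈ Box r₀ s d R, b' ≠ b → ‖b' - b‖ ≤ 8 * d →
      Ψ (b, Φ (b, b') / 2) = Ψ (b', Φ (b', b) / 2))
    (h : In r₀ s d D A x) (h' : In r₀ s d D A (x + w)) (hw : ‖w‖ ≤ 2 * d) (h0 : w ≠ 0) :
    DifferentiableAt ℂ (H Φ Y Ψ) (x, w) ∧ ‖H Φ Y Ψ (x, w)‖ ≤ M ∧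
      H Φ Y Ψ (x + w, -w) = H Φ Y Ψ (x, w) := by
  obtain ⟨a1, -, a2, a3⟩ := one hY hd hR h1 h2 h3 h4 h5 h hw
  obtain ⟨b1, -, b2, b3⟩ := one hY hd hR h1 h2 h3 h4 h5 h' hw
  have e : ‖Y (x + w, w) - Y (x, w) - w‖ ≤ ‖w‖ / 4 := by
    have : Y (x + w, w) - Y (x, w) - w = (Y (x + w, w) - (x + w)) - (Y (x, w) - x) := by ring
    rw [this]
    linarith [norm_sub_le (Y (x + w, w) - (x + w)) (Y (x, w) - x)]
  have hw0 : 0 < ‖w‖ := norm_pos_iff.2 h0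
  have ne : Y (x + w, w) ≠ Y (x, w) := fun k => by
    rw [k, sub_self, zero_sub, norm_neg] at e
    linarith
  have le : ‖Y (x + w, w) - Y (x, w)‖ ≤ 8 * d := by
    linarith [norm_le_norm_sub_add (Y (x + w, w) - Y (x, w)) w]
  have hl := hΨ _ a3 _ ((half hΦ hε a3 b3 le).trans le)
  have dA : DifferentiableAt ℂ Y (x, w) := hY.d.differentiableAt (isOpen_Om.mem_nhds a1)
  have dB : DifferentiableAt ℂ (fun q : ℂ × ℂ => Y (q.1 + q.2, q.2)) (x, w) :=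
    (hY.d.differentiableAt (isOpen_Om.mem_nhds b1)).comp (x, w)
      (f := fun q : ℂ × ℂ => (q.1 + q.2, q.2)) (by fun_prop)
  have dΦ : DifferentiableAt ℂ (fun q : ℂ × ℂ => Φ (Y q, Y (q.1 + q.2, q.2))) (x, w) :=
    ((hΦ _ a3 _ b3 le).2 ne).differentiableAt.comp (x, w)
      (f := fun q : ℂ × ℂ => (Y q, Y (q.1 + q.2, q.2))) (dA.prodMk dB)
  refine ⟨hl.1.differentiableAt.comp (x, w)
    (f := fun q : ℂ × ℂ => (Y q, Φ (Y q, Y (q.1 + q.2, q.2)) / 2)) (dA.prodMk (by simpa only [div_eq_mul_inv] using dΦ.mul_const (2 : ℂ)⁻¹)),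
    hl.2, ?_⟩
  have ea : Y (x, -w) = Y (x, w) := hY.ev _ a1
  have eb : Y (x + w, -w) = Y (x + w, w) := hY.ev _ b1
  simp only [H, add_neg_cancel_right, ea, eb]
  exact (hs _ a3 _ b3 ne le).symm

/-- continuity at `w = 0`. -/
theorem Hc (hY : Bl Y r₀ c C) (hd : 0 < d) (hR : 2 * R * d ≤ r₀) (h1 : 2 < c * D)
    (h2 : 16 * C ≤ D) (h3 : 2 ≤ D) (h4 : A + 2 < R) (h5 : 1 < R)
    (hΦ : Calm Φ (Box r₀ s d R) (8 * d) ε) (hε : ε ≤ 1)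
    (hΨ : ∀ b ∈ Box r₀ s d R, ∀ l : ℂ, ‖l‖ ≤ 8 * d → AnalyticAt ℂ Ψ (b, l) ∧ ‖Ψ (b, l)‖ ≤ M)
    (h : In r₀ s d (D + 1) A x) :
    ContinuousAt (H Φ Y Ψ) (x, 0) ∧ H Φ Y Ψ (x, 0) = Ψ (x, 0) := by
  have hx := h.mono hd (D' := D) (A' := A + 1) (by linarith) (by linarith)
  obtain ⟨a1, -, a2, a3⟩ := one (w := 0) hY hd hR h1 h2 h3 (by linarith) h5 hx (by simp [hd.le])
  have y0 : Y (x, 0) = x := by simpa [sub_eq_zero] using a2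
  rw [y0] at a3
  have p0 : Φ (x, x) / 2 = 0 := by
    have := half hΦ hε a3 a3 (by simp [hd.le])
    rwa [sub_self, norm_zero, norm_le_zero_iff] at this
  have v : H Φ Y Ψ (x, 0) = Ψ (x, 0) := by simp only [H, add_zero, y0, p0]
  refine ⟨?_, v⟩
  have cA : ContinuousAt Y (x, 0) := hY.d.continuousOn.continuousAt (isOpen_Om.mem_nhds a1)
  have cB : ContinuousAt (fun q : ℂ × ℂ => Y (q.1 + q.2, q.2)) (x, 0) :=
    ContinuousAt.comp_of_eq (g := Y) (f := fun q : ℂ × ℂ => (q.1 + q.2, q.2)) cA (by fun_prop)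
      (by simp)
  have tA : Tendsto Y (𝓝 (x, 0)) (𝓝 x) := by simpa [y0] using cA.tendsto
  have tB : Tendsto (fun q : ℂ × ℂ => Y (q.1 + q.2, q.2)) (𝓝 (x, 0)) (𝓝 x) := by
    simpa [y0] using cB.tendsto
  have oB : IsOpen (Box r₀ s d R) := isOpen_Box
  have tD : Tendsto (fun q : ℂ × ℂ => ‖Y (q.1 + q.2, q.2) - Y q‖) (𝓝 (x, 0)) (𝓝 0) := by
    simpa using (tB.sub tA).norm
  have tΦ : Tendsto (fun q : ℂ × ℂ => Φ (Y q, Y (q.1 + q.2, q.2)) / 2) (𝓝 (x, 0)) (𝓝 0) := by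
    refine squeeze_zero_norm' ?_ tD
    filter_upwards [tA.eventually (oB.mem_nhds a3), tB.eventually (oB.mem_nhds a3),
      tD.eventually (ge_mem_nhds (by positivity : (0 : ℝ) < 8 * d))] with q q1 q2 q3
    exact half hΦ hε q1 q2 q3
  rw [ContinuousAt, v]
  exact (hΨ x a3 0 (by simp [hd.le])).1.continuousAt.tendsto.comp (tA.prodMk_nhds tΦ)

end Vale.Agent.P097N.Core
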