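import Vale.Agent.P097N.Defs2
import Vale.Agent.P097N.CoreA

/-!
# P097N: no calm disc near the top line
-/

set_option linter.all false

noncomputable section

namespace Vale.Agent.P097N

open Filter Topology Set Metric

namespace NC

theorem bl_mono {Z : ℂ × ℂ → ℂ} {r₀ c c' C : ℝ} (h : Bl Z r₀ c C) (h0 : 0 < c') (h1 : c' ≤ c) :
    Om r₀ c' ⊆ Om r₀ c ∧ Bl Z r₀ c' C := by
  have s : Om r₀ c' ⊆ Om r₀ c := fun p hp => by
    have a : ‖p.2‖ < c' * (r₀ - |p.1.im|) := hp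
    have b : 0 < r₀ - |p.1.im| := (mul_pos_iff_of_pos_left h0).1 ((norm_nonneg _).trans_lt a)
    exact a.trans_le (by gcongr)
  refine ⟨s, h0, h.hC, h.d.mono s, fun p hp => h.ev p (s hp), fun p hp => h.bd p (s hp),
    le_trans ?_ h.sm⟩
  have := h.hC
  gcongr

theorem bl_near {Z : ℂ × ℂ → ℂ} {r₀ c C : ℝ} (h : Bl Z r₀ c C) (hc : C * c ≤ 1 / 8) {x w : ℂ}
    (hp : (x, w) ∈ Om r₀ c) : ‖Z (x, w) - x‖ ≤ ‖w‖ / 8 := by
  have a : ‖w‖ < c * (r₀ - |x.im|) := hp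
  have b : 0 < r₀ - |x.im| := (mul_pos_iff_of_pos_left h.hc).1 ((norm_nonneg _).trans_lt a)
  refine (h.bd _ hp).trans ?_
  rw [div_le_iff₀ b]
  have := norm_nonneg w
  have k : C * ‖w‖ ≤ (r₀ - |x.im|) / 8 := by nlinarith [mul_le_mul_of_nonneg_left a.le h.hC.le]
  nlinarith

theorem ph_law {θ h : ℂ → ℂ} {a b c : ℂ} (e : EE θ h a b c = 0) (h1 : k1 θ h b c ≠ 0)
    (h2 : k1 θ h b a ≠ 0) : Ph θ h (b, c) + Ph θ h (b, a) = 0 := by
  simp only [Ph, EE] at *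
  field_simp
  linear_combination (-2 : ℂ) * e

theorem st_open (r : ℝ) : IsOpen (St r) := isOpen_lt (by fun_prop) (by fun_prop)

theorem st_convex (r : ℝ) : Convex ℝ (St r) := by
  have : St r = {z : ℂ | -r < z.im} ∩ {z : ℂ | z.im < r} := by
    ext z
    simp [St, abs_lt]
  rw [this]
  exact (convex_halfSpace_im_gt _).inter (convex_halfSpace_im_lt _)

theorem box_bd {f : ℂ → ℂ} {r₀ s d R : ℝ} (hf : ContinuousOn f (St r₀)) (hd : 0 < d) (hR : 1 < R)
    (h : 2 * R * d ≤ r₀) : Box r₀ s d R ⊆ St r₀ ∧ ∃ M, ∀ b ∈ Box r₀ s d R, ‖f b‖ ≤ M := by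
  have p : 0 < d / R := by positivity
  have q : 0 < R * d := by positivity
  have k : Icc (s - R * d) (s + R * d) ×ℂ Icc (r₀ - R * d) (r₀ - d / R) ⊆ St r₀ := fun z hz => by
    have a : r₀ - R * d ≤ z.im := hz.2.1
    have b : z.im ≤ r₀ - d / R := hz.2.2
    show |z.im| < r₀
    exact abs_lt.2 ⟨by linarith, by linarith⟩
  have j : Box r₀ s d R ⊆ Icc (s - R * d) (s + R * d) ×ℂ Icc (r₀ - R * d) (r₀ - d / R) :=
    fun z hz => by
    have := abs_lt.1 hz.1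
    exact ⟨⟨by linarith, by linarith⟩, by linarith [hz.2.2], by linarith [hz.2.1]⟩
  obtain ⟨M, hM⟩ := (isCompact_Icc.reProdIm isCompact_Icc).exists_bound_of_continuousOn (hf.mono k)
  exact ⟨j.trans k, M, fun b hb => hM b (j hb)⟩

theorem den {l g : ℂ} {d e : ℝ} (hd : 0 < d) (hl : ‖l‖ ≤ 8 * d) (hg : ‖g‖ * d ≤ e)
    (he : e ≤ 1 / 16) : 1 / 2 ≤ ‖1 - Complex.I * l * g‖ ∧ ‖1 + Complex.I * l * g‖ ≤ 3 / 2 := by
  have a : ‖Complex.I * l * g‖ ≤ 1 / 2 := by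
    rw [norm_mul, norm_mul, Complex.norm_I, one_mul]
    nlinarith [mul_le_mul_of_nonneg_right hl (norm_nonneg g)]
  have b := norm_sub_norm_le 1 (Complex.I * l * g)
  have c := norm_add_le 1 (Complex.I * l * g)
  rw [norm_one] at b c
  exact ⟨by linarith, by linarith⟩

end NC

open NC

theorem snocalm1 (hB : SBl) (hC : SCalm) (hK : SCore) (hA : SAlg) : SNoCalm1 := by
  intro θ h Q Y c r₀ A η ε M hη cv gr col law nov
  have r0 : 0 < r₀ := col.hη.trans_le hη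
  obtain ⟨Z, c₁, C, η', -, -, -, bl₁, -, lw⟩ := hB θ h Q Y c r₀ A η ε M hη cv gr col law
  have C0 := bl₁.hC
  have c0 : 0 < min c₁ (1 / (8 * C)) := lt_min bl₁.hc (by positivity)
  obtain ⟨sub, bl⟩ := bl_mono bl₁ c0 (min_le_left _ _)
  have cc : C * min c₁ (1 / (8 * C)) ≤ 1 / 8 :=
    (mul_le_mul_of_nonneg_left (min_le_right _ _) C0.le).trans_eq (by field_simp)
  obtain ⟨R, e, R1, e0, core⟩ := hK _ C c0 C0
  obtain ⟨ε₁, h1, calm⟩ := hC A R (min e (1 / 16)) R1 (lt_min e0 (by norm_num))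
  refine ⟨ε₁, r₀ / (4 * R), h1, by positivity, fun y₀ y1 y2 => ?_⟩
  by_contra! H
  rw [lt_div_iff₀ (by positivity)] at y2
  obtain ⟨k1', k2, k3⟩ := calm θ h Q c r₀ y₀ cv gr y1 (by linarith) H
  obtain ⟨d, hd⟩ : ∃ d, d = r₀ - y₀.im := ⟨_, rfl⟩
  rw [← hd] at k1' k2 k3 y2
  have d0 : 0 < d := by linarith
  have hr : 2 * R * d ≤ r₀ := by nlinarith [mul_pos d0 (one_pos.trans R1)]
  have cm : Calm (Ph θ h) (Box r₀ y₀.re d R) (8 * d) e := fun b hb b' hb' k =>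
    ⟨(k1' b hb b' hb' k).1.trans (mul_le_mul_of_nonneg_right (min_le_left _ _) (norm_nonneg _)),
      (k1' b hb b' hb' k).2⟩
  obtain ⟨x₀, τ, τ0, xb, x1, -, ext⟩ := core (Ph θ h) Z r₀ y₀.re d d0 hr bl cm
    fun x w w0 w2 o1 o2 o3 b1 b2 b3 => by
      have n1 := bl_near bl cc o1
      have n2 := bl_near bl cc o2
      have n3 := bl_near bl cc o3
      have w1 : 0 < ‖w‖ := norm_pos_iff.2 w0
      have pr : ∀ u v a b : ℂ, ‖a - u‖ ≤ ‖w‖ / 8 → ‖b - v‖ ≤ ‖w‖ / 8 → ‖v - u‖ = ‖w‖ →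
          b ≠ a ∧ ‖b - a‖ ≤ 8 * d := fun u v a b ha hb e => by
        have t : ‖b - a - (v - u)‖ ≤ ‖w‖ / 4 := by
          rw [show b - a - (v - u) = (b - v) - (a - u) by ring]
          linarith [norm_sub_le (b - v) (a - u)]
        refine ⟨fun k => ?_, by linarith [norm_le_norm_sub_add (b - a) (v - u)]⟩
        rw [k, sub_self, zero_sub, norm_neg] at t
        linarith
      have p1 := pr _ _ _ _ n2 n3 (by rw [add_sub_cancel_left])
      have p2 := pr _ _ _ _ n2 n1 (by rw [sub_sub_cancel_left, norm_neg])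
      exact ph_law (lw x w (sub o1) (sub o2) (sub o3)) (k3 _ b2 _ b3 p1.1 p1.2)
        (k3 _ b2 _ b1 p2.1 p2.2)
  have an := cv.dθ.analyticOnNhd cv.op
  have aE : AnalyticOnNhd ℂ (fun y => Complex.exp (2 * Complex.I * θ y)) (St r₀) := fun y hy =>
    (analyticAt_const.mul (an y hy)).cexp'
  obtain ⟨bs, M₀, hM⟩ := box_bd (s := y₀.re) aE.continuousOn d0 R1 hr
  have dn := fun b hb l (hl : ‖l‖ ≤ 8 * d) => den d0 hl (k2 b hb) (min_le_right _ _)
  have nz : ∀ b ∈ Box r₀ y₀.re d R, ∀ l : ℂ, ‖l‖ ≤ 8 * d → 1 - Complex.I * l * deriv θ b ≠ 0 :=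
    fun b hb l hl => norm_pos_iff.1 (by linarith [(dn b hb l hl).1])
  have e1 : min e (1 / 16) ≤ 1 := (min_le_right _ _).trans (by norm_num)
  obtain ⟨G, dG, eG⟩ := ext (LU θ) (M₀ * (3 / 2) / (1 / 2)) (fun b hb l hl => ⟨by
      have a1 : AnalyticAt ℂ (fun q : ℂ × ℂ => Complex.exp (2 * Complex.I * θ q.1)) (b, l) :=
        (aE b (bs hb)).comp_of_eq (f := fun q : ℂ × ℂ => q.1) analyticAt_fst rfl
      have a2 : AnalyticAt ℂ (fun q : ℂ × ℂ => Complex.I * q.2 * deriv θ q.1) (b, l) :=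
        (analyticAt_const.mul analyticAt_snd).mul
          ((an b (bs hb)).deriv.comp_of_eq (f := fun q : ℂ × ℂ => q.1) analyticAt_fst rfl)
      exact (a1.mul (analyticAt_const.add a2)).div (analyticAt_const.sub a2) (nz b hb l hl), by
      have := (norm_nonneg _).trans (hM b hb)
      rw [LU, norm_div, norm_mul]
      gcongr
      exacts [hM b hb, (dn b hb l hl).2, (dn b hb l hl).1]⟩)
    fun b hb b' hb' ne le => by
      have le' : ‖b - b'‖ ≤ 8 * d := by rwa [norm_sub_rev]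
      exact (hA θ h b b' (k3 b hb b' hb' ne le) (k3 b' hb' b hb ne.symm le')
        (nz b hb _ ((Core.half k1' e1 hb hb' le).trans le))
        (nz b' hb' _ ((Core.half k1' e1 hb' hb le').trans le'))).1
  have xs : x₀.im < r₀ := (abs_lt.1 (bs xb)).2
  have id : EqOn G (fun y => Complex.exp (2 * Complex.I * θ y)) (ball x₀ τ ∩ St r₀) :=
    ((dG.analyticOnNhd isOpen_ball).mono inter_subset_left).eqOn_of_preconnected_of_eventuallyEq
      (aE.mono inter_subset_right) ((convex_ball _ _).inter (st_convex _)).isPreconnected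
      ⟨mem_ball_self τ0, bs xb⟩ (eG.mono fun x hx => by simpa [LU] using hx)
  have sb : ball (x₀ + (r₀ - x₀.im : ℝ) * Complex.I) (τ - (r₀ - x₀.im)) ⊆ ball x₀ τ :=
    ball_subset_ball' (by
      rw [dist_eq_norm, add_sub_cancel_left, norm_mul, Complex.norm_I, Complex.norm_real,
        Real.norm_of_nonneg (by linarith)]
      linarith)
  exact nov ⟨_, _, G, by simp, by linarith, dG.mono sb, fun y hy hy' => id ⟨sb hy, hy'⟩⟩

end Vale.Agent.P097N
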