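import Vale.Agent.P097N.Defs
import Vale.Agent.P299.H720.Montel

/-!
# P097N: propagation of smallness
-/

set_option linter.all false

noncomputable section

namespace Vale.Agent.P097N

open Filter Topology Set Metric

theorem ssmall : SSmall := by
  intro U K z₀ ρ M ε' hU hc hK KU z0 hρ hε
  by_contra hn
  push Not at hn
  choose f df bf sf z zK hz using fun n : ℕ => hn (1 / ((n : ℝ) + 1)) (by positivity)
  obtain ⟨g, dg, -, hg⟩ := P299.H720.montel_full (hyperfilter ℕ) (f := f) hU fun x hx => by
    obtain ⟨r, r0, hr⟩ := Metric.isOpen_iff.1 hU x hx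
    exact ⟨r, r0, M, Eventually.of_forall fun j =>
      ⟨(df j).mono hr, fun y hy => bf j y (hr hy)⟩⟩
  have le : (hyperfilter ℕ : Filter ℕ) ≤ atTop := by
    rw [← Nat.cofinite_eq_atTop]
    exact hyperfilter_le_cofinite
  have g0 : EqOn g 0 U := by
    refine (dg.analyticOnNhd hU).eqOn_zero_of_preconnected_of_eventuallyEq_zero hc z0 ?_
    filter_upwards [hU.mem_nhds z0, ball_mem_nhds z₀ hρ] with x h1 h2
    refine tendsto_nhds_unique (hg x h1 (fun _ => x) tendsto_const_nhds) ?_
    rw [Pi.zero_apply, tendsto_zero_iff_norm_tendsto_zero]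
    exact squeeze_zero (fun _ => norm_nonneg _) (fun n => sf n x h1 h2)
      (tendsto_one_div_add_atTop_nhds_zero_nat.mono_left le)
  obtain ⟨x, xK, hx⟩ := hK.ultrafilter_le_nhds ((hyperfilter ℕ).map z) (by
    rw [Ultrafilter.coe_map, le_principal_iff, mem_map]
    exact Eventually.of_forall zK)
  have t := (hg x (KU xK) z hx).norm
  rw [g0 (KU xK)] at t
  have := ge_of_tendsto' t fun n => (hz n).le
  simp at this
  linarith

end Vale.Agent.P097N
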