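import Vale.Agent.P097N.K
import Vale.Agent.P097N.Alg
import Vale.Agent.P097N.Root
import Vale.Agent.P097N.Even
import Vale.Agent.P097N.Up
import Vale.Agent.P097N.Chain
import Vale.Agent.P097N.Coef
import Vale.Agent.P097N.Ext
import Vale.Agent.P097N.Ser
import Vale.Agent.P097N.Col
import Vale.Agent.P097N.Slant
import Vale.Agent.P097N.Base
import Vale.Agent.P097N.Rem
import Vale.Agent.P097N.Box
import Vale.Agent.P097N.Chi
import Vale.Agent.P097N.Small
import Vale.Agent.P097N.Crit
import Vale.Agent.P097N.Bl
import Vale.Agent.P097N.Calm
import Vale.Agent.P097N.Core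
import Vale.Agent.P097N.NoCalm
import Vale.Agent.P097N.Bridge

/-!
# P097N: the baseline and no calm disc, unconditionally
-/

namespace Vale.Agent.P097N

theorem base : SBase := sbase scol (schain (sup sroot seven)) (scoef sext) sext sser sslant

theorem bl : SBl := sbl sk (scrit sk) scol base

theorem core : SCore := score srem (sbox sroot) schi (scoef sext) sext

theorem nocalm1 : SNoCalm1 := snocalm1 bl (scalm sk ssmall) core salg

theorem nocalm : P097Top.Spec_NOCALM := nocalm_of nocalm1

end Vale.Agent.P097N
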