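import Vale.Agent.P097N.CoreB

/-!
# P097N: the abstract no calm box
-/

set_option linter.all false

noncomputable section

namespace Vale.Agent.P097N

open Filter Topology Set Metric

namespace Core

theorem nums {c C κ μ : ℝ} (hc : 0 < c) (hC : 0 < C) (hκ : 0 < κ) (hμ : 0 < μ) (hμ1 : μ ≤ 1) :
    ∃ (D₀ ε : ℝ) (J : ℕ), 0 < ε ∧ ε ≤ 1 ∧ 2 < c * D₀ ∧ 16 * C ≤ D₀ ∧ 2 ≤ D₀ ∧ 2 * D₀ ≤ J * κ ∧
      256 * ε ≤ μ ∧ C / D₀ + (J + 1) * (2 * C / D₀ ^ 2 + J * (5 * ε)) ≤ μ / 8 := by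
  obtain ⟨D₀, hD⟩ : ∃ D₀, D₀ = 2 / c + 16 * C + 2 + 16 * (4 / κ + 5) * C / μ := ⟨_, rfl⟩
  have p1 : 0 < 2 / c := by positivity
  have p2 : 0 < 16 * (4 / κ + 5) * C / μ := by positivity
  have d2 : 2 ≤ D₀ := by linarith
  obtain ⟨J, hJ⟩ : ∃ J : ℕ, J = ⌈2 * D₀ / κ⌉₊ := ⟨_, rfl⟩
  have j0 : (0 : ℝ) ≤ J := J.cast_nonneg
  have j1 : 2 * D₀ / κ ≤ J := hJ ▸ Nat.le_ceil _
  have j2 : (J : ℝ) ≤ 2 * D₀ / κ + 1 := hJ ▸ (Nat.ceil_lt_add_one (by positivity)).le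
  have e1 : 256 * (μ / (256 * (J + 1) ^ 2)) ≤ μ := by
    rw [← mul_div_assoc, div_le_iff₀ (by positivity)]
    nlinarith [mul_nonneg hμ.le j0, mul_nonneg hμ.le (mul_nonneg j0 j0)]
  refine ⟨D₀, μ / (256 * (J + 1) ^ 2), J, by positivity, by linarith, ?_, by linarith, d2,
    (div_le_iff₀ hκ).1 j1, e1, ?_⟩
  · have : c * (2 / c) = 2 := by field_simp
    nlinarith [mul_pos hc hC, mul_pos hc p2]
  · have a : (J + 1) * (J * (5 * (μ / (256 * (J + 1) ^ 2)))) ≤ μ / 16 := by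
      have : (J + 1) * (J * (5 * (μ / (256 * (J + 1) ^ 2)))) = 5 * μ * J / (256 * (J + 1)) := by
        field_simp
      rw [this, div_le_div_iff₀ (by positivity) (by norm_num)]
      nlinarith [mul_nonneg hμ.le j0]
    have b : (J + 1) * (2 * C / D₀ ^ 2) ≤ (4 / κ + 4) * C / D₀ := by
      have : (2 * D₀ / κ + 2 * D₀) * (2 * C / D₀ ^ 2) = (4 / κ + 4) * C / D₀ := by
        field_simp
        ring
      rw [← this]
      exact mul_le_mul_of_nonneg_right (by linarith) (by positivity)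
    have e : C / D₀ + (4 / κ + 4) * C / D₀ ≤ μ / 16 := by
      rw [← add_div, div_le_iff₀ (by positivity)]
      have : μ / 16 * (16 * (4 / κ + 5) * C / μ) = C + (4 / κ + 4) * C := by
        field_simp
        ring
      rw [← this]
      gcongr
      linarith
    linarith [mul_add ((J : ℝ) + 1) (2 * C / D₀ ^ 2) (J * (5 * (μ / (256 * (J + 1) ^ 2))))]

/-- the shift of the base point -/
def sh (χ : ℂ → ℂ) (d : ℝ) (w : ℂ) : ℂ := d * χ (w / d) - w / 2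

theorem sh_neg {χ : ℂ → ℂ} (h : ∀ z, χ (-z) = χ z) (d : ℝ) (w : ℂ) :
    sh χ d (-w) = sh χ d w + w := by
  simp only [sh, neg_div, h]
  ring

theorem sh_im (χ : ℂ → ℂ) {d : ℝ} (hd : 0 < d) (w : ℂ) :
    (sh χ d w).im = ((χ (w / d)).im - (w / d).im / 2) * d := by
  simp only [sh, Complex.sub_im, Complex.mul_im, Complex.ofReal_re, Complex.ofReal_im,
    Complex.div_ofReal_im, Complex.div_ofNat_im]
  field_simp
  ring

theorem mem_div {d ρ : ℝ} (hd : 0 < d) {w : ℂ} (hw : ‖w‖ < ρ * d) : w / d ∈ ball (0 : ℂ) ρ := by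
  rw [mem_ball_zero_iff, norm_div, Complex.norm_real, Real.norm_of_nonneg hd.le, div_lt_iff₀ hd]
  exact hw

theorem sh_le {χ : ℂ → ℂ} {d ρ K : ℝ} (hd : 0 < d) (hρ : ρ ≤ 2)
    (h : ∀ z ∈ ball (0 : ℂ) ρ, ‖χ z‖ ≤ K) {w : ℂ} (hw : ‖w‖ < ρ * d) :
    ‖sh χ d w‖ ≤ (K + 1) * d := by
  refine (norm_sub_le _ _).trans ?_
  rw [norm_mul, Complex.norm_real, Real.norm_of_nonneg hd.le, norm_div, Complex.norm_ofNat]
  nlinarith [h _ (mem_div hd hw)]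

theorem sh_d {χ : ℂ → ℂ} {d ρ : ℝ} (hd : 0 < d) (h : DifferentiableOn ℂ χ (ball 0 ρ)) {w : ℂ}
    (hw : ‖w‖ < ρ * d) : DifferentiableAt ℂ (sh χ d) w := by
  have := (h.differentiableAt (isOpen_ball.mem_nhds (mem_div hd hw))).comp w
    (f := fun w : ℂ => w / d) (by fun_prop)
  exact (this.const_mul _).sub (by fun_prop)

/-- the function of the lines -/
def FF (Φ Y Ψ : ℂ × ℂ → ℂ) (χ : ℂ → ℂ) (d : ℝ) (p : ℂ × ℂ) : ℂ :=
  H Φ Y Ψ (p.1 + sh χ d p.2, p.2)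

section

variable {r₀ s d D₁ D₂ A R c C ε M K ρ : ℝ} {Φ Y Ψ : ℂ × ℂ → ℂ} {χ : ℂ → ℂ} {x₀ : ℂ}
  (hY : Bl Y r₀ c C) (hd : 0 < d) (hr : 2 * R * d ≤ r₀) (a1 : 2 < c * D₁) (a2 : 16 * C ≤ D₁)
  (a3 : 2 ≤ D₁) (r4 : A + 2 < R) (r1 : 1 < R) (hΦ : Calm Φ (Box r₀ s d R) (8 * d) ε) (hε : ε ≤ 1)
  (hΨ : ∀ b ∈ Box r₀ s d R, ∀ l : ℂ, ‖l‖ ≤ 8 * d → AnalyticAt ℂ Ψ (b, l) ∧ ‖Ψ (b, l)‖ ≤ M)
  (hs : ∀ b ∈ Box r₀ s d R, ∀ b' ∈ Box r₀ s d R, b' ≠ b → ‖b' - b‖ ≤ 8 * d →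
    Ψ (b, Φ (b, b') / 2) = Ψ (b', Φ (b', b) / 2))
  (hρ1 : 1 < ρ) (hρ2 : ρ ≤ 2) (dχ : DifferentiableOn ℂ χ (ball 0 ρ)) (χ0 : χ 0 = 0)
  (χe : ∀ z, χ (-z) = χ z) (χb : ∀ z ∈ ball (0 : ℂ) ρ, ‖χ z‖ ≤ K) (hK : 0 < K)
  (i0 : In r₀ s d D₂ D₂ x₀) (e1 : D₁ + K + 5 ≤ D₂) (e2 : 2 * D₂ + K + 4 ≤ A)

include hY hd hr a1 a2 a3 r4 r1 hΦ hε hΨ hs hρ1 hρ2 dχ χ0 χe χb hK i0 e1 e2

theorem gen {x w : ℂ} (hw : ‖w‖ < ρ * d) (h0 : w ≠ 0) (h : In r₀ s d D₁ A (x + sh χ d w))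
    (h' : In r₀ s d D₁ A (x + sh χ d (-w))) : DifferentiableAt ℂ (FF Φ Y Ψ χ d) (x, w) ∧
      ‖FF Φ Y Ψ χ d (x, w)‖ ≤ M ∧ FF Φ Y Ψ χ d (x, -w) = FF Φ Y Ψ χ d (x, w) := by
  rw [sh_neg χe, ← add_assoc] at h'
  obtain ⟨k1, k2, k3⟩ := Hd hY hd hr a1 a2 a3 (by linarith) r1 hΦ hε hΨ hs h h'
    (hw.le.trans (by gcongr)) h0
  refine ⟨?_, k2, ?_⟩
  · have k4 : DifferentiableAt ℂ (fun p : ℂ × ℂ => sh χ d p.2) (x, w) :=
      (sh_d hd dχ hw).comp (x, w) (f := fun p : ℂ × ℂ => p.2) differentiableAt_snd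
    exact k1.comp (x, w) (f := fun p : ℂ × ℂ => (p.1 + sh χ d p.2, p.2))
      ((differentiableAt_fst.fun_add k4).prodMk differentiableAt_snd)
  · simp only [FF, sh_neg χe, ← add_assoc, k3]

theorem bid : DifferentiableOn ℂ (FF Φ Y Ψ χ d) (ball x₀ d ×ˢ ball 0 (ρ * d)) ∨ ¬ SRem := by
  refine or_not_of_imp fun hR => ?_
  have near : ∀ x ∈ ball x₀ d, In r₀ s d (D₂ - 1) (D₂ + 1) x := fun x hx =>
    i0.shift (t := 1) (by rw [one_mul]; exact (mem_ball_iff_norm.1 hx).le)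
  have near' : ∀ x ∈ ball x₀ d, ∀ w : ℂ, ‖w‖ < ρ * d → In r₀ s d D₁ A (x + sh χ d w) :=
    fun x hx w hw => ((near x hx).shift (t := K + 1)
      (by rw [add_sub_cancel_left]; exact sh_le hd hρ2 χb hw)).mono hd (by linarith) (by linarith)
  have s0 : sh χ d 0 = 0 := by simp [sh, χ0]
  refine hR _ _ _ isOpen_ball (fun x hx w hw h0 => ?_) fun x hx => ?_
  · rw [mem_ball_zero_iff] at hw
    exact (gen hY hd hr a1 a2 a3 r4 r1 hΦ hε hΨ hs hρ1 hρ2 dχ χ0 χe χb hK i0 e1 e2 hw h0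
      (near' x hx w hw) (near' x hx (-w) (by rwa [norm_neg]))).1
  · exact ContinuousAt.comp_of_eq (g := H Φ Y Ψ) (f := fun w : ℂ => (x + sh χ d w, w))
      (Hc hY hd hr a1 a2 a3 r4 r1 hΦ hε hΨ ((near x hx).mono hd (by linarith) (by linarith))).1
      ((continuousAt_const.add (sh_d hd dχ (by rw [norm_zero]; positivity)).continuousAt).prodMk
        continuousAt_id) (by simp [s0])

theorem evn {x w : ℂ} (hx : x ∈ ball x₀ d) (hw : ‖w‖ = d) :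
    FF Φ Y Ψ χ d (x, -w) = FF Φ Y Ψ χ d (x, w) ∧ FF Φ Y Ψ χ d (x, 0) = Ψ (x, 0) := by
  have near : In r₀ s d (D₂ - 1) (D₂ + 1) x :=
    i0.shift (t := 1) (by rw [one_mul]; exact (mem_ball_iff_norm.1 hx).le)
  have near' : ∀ w : ℂ, ‖w‖ < ρ * d → In r₀ s d D₁ A (x + sh χ d w) :=
    fun w hw => (near.shift (t := K + 1)
      (by rw [add_sub_cancel_left]; exact sh_le hd hρ2 χb hw)).mono hd (by linarith) (by linarith)
  have ρd : ‖w‖ < ρ * d := by nlinarith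
  have s0 : sh χ d 0 = 0 := by simp [sh, χ0]
  refine ⟨(gen hY hd hr a1 a2 a3 r4 r1 hΦ hε hΨ hs hρ1 hρ2 dχ χ0 χe χb hK i0 e1 e2 ρd
    (norm_pos_iff.1 (hw ▸ hd)) (near' w ρd) (near' (-w) (by rwa [norm_neg]))).2.2, ?_⟩
  simp only [FF, s0, add_zero]
  exact (Hc hY hd hr a1 a2 a3 r4 r1 hΦ hε hΨ (near.mono hd (by linarith) (by linarith))).2

theorem thin {μ κ : ℝ} {w : ℂ} (hμ1 : μ ≤ 1) (hw : ‖w‖ = d) (hk : |(w / d).im| < κ)
    (χs : ∀ z : ℂ, ‖z‖ = 1 → |z.im| < κ → (χ z).im ≤ -(D₁ + 2)) :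
    DifferentiableOn ℂ (fun x => FF Φ Y Ψ χ d (x, w)) (ball x₀ ((D₂ + μ / 2) * d)) ∧
      ∀ x ∈ ball x₀ ((D₂ + μ / 2) * d), ‖FF Φ Y Ψ χ d (x, w)‖ ≤ M := by
  have k : ∀ x ∈ ball x₀ ((D₂ + μ / 2) * d), ∀ w : ℂ, ‖w‖ = d → |(w / d).im| < κ →
      In r₀ s d D₁ A (x + sh χ d w) := fun x hx w hw hk => by
    have nz : ‖w / d‖ = 1 := by
      rw [norm_div, Complex.norm_real, Real.norm_of_nonneg hd.le, hw, div_self hd.ne']
    refine ((i0.shift (mem_ball_iff_norm.1 hx).le).add (sh_le hd hρ2 χb (w := w) (by nlinarith))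
      (k := -(D₁ + 1)) ?_).mono hd (by linarith) (by linarith)
    have := χs _ nz hk
    have e := abs_le.1 ((Complex.abs_im_le_norm _).trans nz.le)
    rw [sh_im χ hd]
    exact mul_le_mul_of_nonneg_right (by linarith) hd.le
  have k' := fun x hx => gen hY hd hr a1 a2 a3 r4 r1 hΦ hε hΨ hs hρ1 hρ2 dχ χ0 χe χb hK i0 e1 e2
    (by nlinarith) (norm_pos_iff.1 (hw ▸ hd)) (k x hx w hw hk)
    (k x hx (-w) (by rwa [norm_neg]) (by rwa [neg_div, Complex.neg_im, abs_neg]))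
  exact ⟨fun x hx => ((k' x hx).1.comp x (f := fun x : ℂ => (x, w))
    (by fun_prop)).differentiableWithinAt, fun x hx => (k' x hx).2.1⟩

theorem up (hB : SBox) {μ κ D D₀ : ℝ} {J : ℕ} {w : ℂ} (hε0 : 0 ≤ ε)
    (law : ∀ x w : ℂ, w ≠ 0 → ‖w‖ ≤ 2 * d → (x - w, w) ∈ Om r₀ c → (x, w) ∈ Om r₀ c →
      (x + w, w) ∈ Om r₀ c → Y (x - w, w) ∈ Box r₀ s d R → Y (x, w) ∈ Box r₀ s d R →
      Y (x + w, w) ∈ Box r₀ s d R →
      Φ (Y (x, w), Y (x + w, w)) + Φ (Y (x, w), Y (x - w, w)) = 0)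
    (hκ : 0 < κ) (hμ : 0 < μ) (hμ1 : μ ≤ 1) (hw : ‖w‖ = d) (hk : κ ≤ (w / d).im)
    (χs : ∀ z : ℂ, ‖z‖ = 1 → κ ≤ |z.im| → (χ z).im + μ ≤ |z.im| / 2) (e3 : D + K + 5 ≤ D₂)
    (h1 : 2 < c * D) (h2 : 64 * C < μ * D) (h3 : 2 ≤ D) (h4 : A + J + D₀ + 3 < R)
    (h6 : 1 / R < μ / 4) (g1 : 2 < c * D₀) (g2 : 16 * C ≤ D₀) (g3 : 2 ≤ D₀)
    (g4 : 2 * D₀ ≤ J * κ) (g5 : 256 * ε ≤ μ)
    (g6 : C / D₀ + (J + 1) * (2 * C / D₀ ^ 2 + J * (5 * ε)) ≤ μ / 8) :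
    ∃ G : ℂ → ℂ, DifferentiableOn ℂ G (ball x₀ ((D₂ + μ / 2) * d)) ∧
      (∀ x ∈ ball x₀ ((D₂ + μ / 2) * d), ‖G x‖ ≤ M) ∧
      ∀ᶠ x in 𝓝 x₀, G x = FF Φ Y Ψ χ d (x, w) := by
  have nz : ‖w / d‖ = 1 := by
    rw [norm_div, Complex.norm_real, Real.norm_of_nonneg hd.le, hw, div_self hd.ne']
  have sl := sh_le hd hρ2 χb (w := w) (by nlinarith)
  have si : (sh χ d w).im ≤ -μ * d := by
    have := χs _ nz (hk.trans (le_abs_self _))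
    rw [abs_of_nonneg (by linarith)] at this
    rw [sh_im χ hd]
    exact mul_le_mul_of_nonneg_right (by linarith) hd.le
  have tr : ∀ x ∈ ball x₀ ((D₂ + μ / 2) * d), x + sh χ d w ∈
      ball (x₀ + sh χ d w) ((D₂ + μ / 2) * d) := fun x hx => by rwa [mem_ball, dist_add_right]
  obtain ⟨G, k1, k2, k3⟩ := thick (x₁ := x₀ + sh χ d w) (A := A) (D := D) (τ := (D₂ + μ / 2) * d)
    hB hY hd hr hΦ hε0 hε law hΨ hw (by rwa [Complex.div_ofReal_im, le_div_iff₀ hd] at hk) hκ hμ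
    hμ1 (mul_pos (by linarith) hd)
    (fun x hx => by
      have := (i0.shift (y := x - sh χ d w) (t := D₂ + μ / 2) (by
        rw [show x - sh χ d w - x₀ = x - (x₀ + sh χ d w) by ring]
        exact (mem_ball_iff_norm.1 hx).le)).add sl si
      rw [sub_add_cancel] at this
      exact this.mono hd (by linarith) (by linarith))
    ((i0.shift (t := K + 1) (by rwa [add_sub_cancel_left])).mono hd (by linarith) (by linarith))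
    h1 h2 h3 h4 r1 h6 g1 g2 g3 g4 g5 g6
  refine ⟨fun x => G (x + sh χ d w), k1.comp (by fun_prop) tr, fun x hx => k2 _ (tr x hx), ?_⟩
  have t : Tendsto (fun x => x + sh χ d w) (𝓝 x₀) (𝓝 (x₀ + sh χ d w)) :=
    (continuous_add_right _).tendsto _
  exact t.eventually k3

end

theorem nums2 {c C μ D₁ : ℝ} (hc : 0 < c) (hC : 0 < C) (hμ : 0 < μ) (a1 : 2 < c * D₁)
    (a3 : 2 ≤ D₁) : ∃ D, D₁ ≤ D ∧ 2 < c * D ∧ 64 * C < μ * D := by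
  have p2 : 0 < 64 * C / μ := by positivity
  have : μ * (64 * C / μ) = 64 * C := by field_simp
  exact ⟨D₁ + 64 * C / μ, by linarith, by nlinarith [mul_pos hc p2], by nlinarith⟩

theorem nums3 {μ : ℝ} (hμ : 0 < μ) (B : ℝ) : ∃ R, B < R ∧ 1 < R ∧ 1 / R < μ / 4 := by
  have p3 : 0 < 4 / μ := by positivity
  have := le_abs_self B
  have := abs_nonneg B
  refine ⟨|B| + 4 / μ + 1, by linarith, by linarith, ?_⟩
  rw [div_lt_iff₀ (by linarith)]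
  have : μ / 4 * (4 / μ) = 1 := by field_simp
  nlinarith

end Core

open Core

theorem score (hR : SRem) (hB : SBox) (hX : SChi) (hF : SCoef) (hE : SExt) : SCore := by
  intro c C hc hC
  obtain ⟨D₁, -, -, -, -, a1, a2, a3, -⟩ := nums hc hC one_pos one_pos le_rfl
  obtain ⟨χ, κ, μ, K, ρ, hκ, hμ, hμ1, hK, hρ1, hρ2, dχ, χ0, χe, χb, χs⟩ :=
    hX (D₁ + 2) (by linarith)
  obtain ⟨D₀, ε, J, hε0, hε, g1, g2, g3, g4, g5, g6⟩ := nums hc hC hκ hμ hμ1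
  obtain ⟨D, b3, b1, b2⟩ := nums2 hc hC hμ a1 a3
  obtain ⟨D₂, e3⟩ : ∃ D₂, D + K + 5 = D₂ := ⟨_, rfl⟩
  obtain ⟨A, e2⟩ : ∃ A, 2 * D₂ + K + 4 = A := ⟨_, rfl⟩
  have j0 : (0 : ℝ) ≤ J := J.cast_nonneg
  obtain ⟨R, r3, r1, r2⟩ := nums3 hμ (A + J + D₀ + 3)
  have r4 : A + 2 < R := by linarith
  have e1 : D₁ + K + 5 ≤ D₂ := by linarith
  have h3 : 2 ≤ D := by linarith
  have n1 : 1 / R < D₂ := by linarith
  have n2 : D₂ < R := by linarith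
  have n3 : 0 < D₂ + μ / 2 := by linarith
  have n4 : D₂ + (D₂ + μ / 2) < R := by linarith
  refine ⟨R, ε, r1, hε0, fun Φ Y r₀ s d hd hr hY hΦ law => ?_⟩
  obtain ⟨x₀, hx₀⟩ : ∃ x₀ : ℂ, x₀ = ⟨s, r₀ - D₂ * d⟩ := ⟨_, rfl⟩
  have i0 : In r₀ s d D₂ D₂ x₀ := by
    refine ⟨?_, ?_, ?_⟩ <;> simp only [hx₀]
    · simp only [sub_self, abs_zero]
      exact mul_nonneg (by linarith) hd.le
    · linarith
    · linarith
  have τ0 : 0 < (D₂ + μ / 2) * d := mul_pos n3 hd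
  refine ⟨x₀, _, τ0, i0.box hd n1 n2, ?_, ?_, fun Ψ M hΨ hs => ?_⟩
  · simp only [hx₀]
    linarith [mul_pos hμ hd]
  · simp only [hx₀]
    linarith [mul_lt_mul_of_pos_right n4 hd, mul_pos (one_pos.trans r1) hd]
  have dF := (bid hY hd hr a1 a2 a3 r4 r1 hΦ hε hΨ hs hρ1 hρ2 dχ χ0 χe χb hK i0 e1
    e2.le).resolve_right (not_not.2 hR)
  have ev := fun x w => evn (x := x) (w := w) hY hd hr a1 a2 a3 r4 r1 hΦ hε hΨ hs hρ1 hρ2 dχ χ0 χe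
    χb hK i0 e1 e2.le
  have up := fun w hw hk => up (w := w) hY hd hr a1 a2 a3 r4 r1 hΦ hε hΨ hs hρ1 hρ2 dχ χ0 χe χb hK
    i0 e1 e2.le hB hε0.le law hκ hμ hμ1 hw hk (fun z hz => (χs z hz).1) e3.le b1 b2 h3 r3 r2 g1 g2
    g3 g4 g5 g6
  have ρd : d < ρ * d := lt_mul_of_one_lt_left hd hρ1
  have ex : Real.exp ((Real.log ((D₂ + μ / 2) * d) : ℝ) : ℂ).re = (D₂ + μ / 2) * d := by
    rw [Complex.ofReal_re, Real.exp_log τ0]
  have co := hF _ (fun _ => ((Real.log ((D₂ + μ / 2) * d) : ℝ) : ℂ)) x₀ d M (ball 0 d)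
    (ball 0 (ρ * d)) hd isOpen_ball
    isBounded_ball (closure_ball_subset_closedBall.trans (closedBall_subset_ball ρd)) dF
    (differentiableOn_const _) (fun w hw => by
      rw [frontier_ball _ hd.ne', mem_sphere_zero_iff_norm] at hw
      rw [ex]
      rcases lt_or_ge |(w / d).im| κ with hk | hk
      · have := thin hY hd hr a1 a2 a3 r4 r1 hΦ hε hΨ hs hρ1 hρ2 dχ χ0 χe χb hK i0 e1 e2.le hμ1 hw
          hk fun z hz => (χs z hz).2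
        exact ⟨_, this.1, this.2, Eventually.of_forall fun _ => rfl⟩
      · rcases le_abs'.1 hk with hk | hk
        · obtain ⟨G, k1, k2, k3⟩ := up (-w) (by rwa [norm_neg])
            (by rw [neg_div, Complex.neg_im]; exact le_neg.1 hk)
          refine ⟨G, k1, k2, ?_⟩
          filter_upwards [k3, ball_mem_nhds x₀ hd] with x h1 h2
          rw [h1, (ev x w h2 hw).1]
        · exact up w hw hk)
    0 (subset_closure (mem_ball_self hd))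
  simp only [ex] at co
  have an : AnalyticAt ℂ (fun x => FF Φ Y Ψ χ d (x, 0)) x₀ :=
    (dF.comp (f := fun x : ℂ => (x, (0 : ℂ))) (s := ball x₀ d) (by fun_prop)
      fun x hx => ⟨hx, mem_ball_self (hd.trans ρd)⟩).analyticAt (ball_mem_nhds _ hd)
  obtain ⟨G, k1, k2⟩ := (hE _ x₀ 0 _ M τ0).1 an co
  refine ⟨G, k1, ?_⟩
  filter_upwards [k2, ball_mem_nhds x₀ hd] with x h1 h2
  rw [h1, (ev x d h2 (by rw [Complex.norm_real, Real.norm_of_nonneg hd.le])).2]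

end Vale.Agent.P097N
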