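import Vale.Agent.P097N.CoreA

/-!
# P097N: the abstract no calm box, the thick arcs
-/

set_option linter.all false

noncomputable section

namespace Vale.Agent.P097N.Core

open Filter Topology Set Metric

variable {r₀ s d D A R c C ε M : ℝ} {x w : ℂ} {Φ Y Ψ : ℂ × ℂ → ℂ}

/-- the first difference at a deep point. -/
theorem deep (hY : Bl Y r₀ c C) (hd : 0 < d) (hR : 2 * R * d ≤ r₀) (h1 : 2 < c * D)
    (h2 : 16 * C ≤ D) (h3 : 2 ≤ D) (h4 : A + D + 1 < R) (h5 : 1 < R) (h : In r₀ s d (2 * D) A x)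
    (hw : ‖w‖ = d) : ‖Y (x + w, w) - Y (x, w) - w‖ ≤ 2 * C * d / D ^ 2 := by
  have k : ∀ y ∈ ball x (D * d), (y, w) ∈ Om r₀ c ∧ ‖Y (y, w) - y‖ ≤ C * d / D := fun y hy => by
    have := h.shift (t := D) (mem_ball_iff_norm.1 hy).le
    rw [show 2 * D - D = D by ring] at this
    obtain ⟨a, b, -⟩ := one (w := w) hY hd hR h1 h2 h3 h4 h5 this (by linarith)
    refine ⟨a, b.trans_eq ?_⟩
    rw [hw]
    field_simp
  have hD : 0 < D * d := by positivity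
  have dd : DifferentiableOn ℂ (fun y => Y (y, w) - y) (ball x (D * d)) := fun y hy =>
    (((hY.d.differentiableAt (isOpen_Om.mem_nhds (k y hy).1)).comp y
      (f := fun y : ℂ => (y, w)) (by fun_prop)).sub differentiableAt_id).differentiableWithinAt
  have := Complex.dist_le_div_mul_dist_of_mapsTo_ball (R₂ := 2 * C * d / D) (z := x + w) dd
    (fun y hy => by
      rw [mem_closedBall_iff_norm]
      have := norm_sub_le (Y (y, w) - y) (Y (x, w) - x)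
      have e : 2 * C * d / D = C * d / D + C * d / D := by ring
      linarith [(k y hy).2, (k x (mem_ball_self hD)).2])
    (by rw [mem_ball_iff_norm, add_sub_cancel_left, hw]; nlinarith)
  rw [dist_eq_norm, dist_eq_norm, add_sub_cancel_left, hw] at this
  convert this using 1
  · congr 1
    ring
  · field_simp

/-- points below a given point -/
theorem dn {κ : ℝ} {J : ℕ} (hd : 0 < d) (hw : ‖w‖ = d) (hk : κ * d ≤ w.im) {D' : ℝ} {y : ℂ}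
    (hy : In r₀ s d D' A y) (i : ℕ) (hi : i ≤ J + 1) :
    In r₀ s d (D' + i * κ) (A + J + 1) (y - i * w) := by
  have hi' : (i : ℝ) ≤ J + 1 := by exact_mod_cast hi
  have := hy.add (u := -(i * w)) (t := J + 1) (k := -(i * κ))
    (by rw [norm_neg, norm_mul, Complex.norm_natCast, hw]; gcongr)
    (by
      simp only [Complex.neg_im, Complex.mul_im, Complex.natCast_re, Complex.natCast_im]
      nlinarith [(i.cast_nonneg : (0 : ℝ) ≤ i)])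
  rwa [sub_neg_eq_add, ← add_assoc, ← sub_eq_add_neg] at this

theorem nb {μ κ : ℝ} {J : ℕ} (hd : 0 < d) (hw : ‖w‖ = d) (hk : κ * d ≤ w.im) (hκ : 0 < κ)
    (hμ1 : μ ≤ 1) (h4 : A + J + 3 < R) (h6 : 1 / R < μ / 4)
    (hx : In r₀ s d (μ / 2) A (x + (J + 1 : ℕ) * w)) {j : ℕ} (hj : j ≤ J + 1) {z : ℂ}
    (hz : ‖z - (x + j * w)‖ ≤ μ / 4 * d) : z ∈ Box r₀ s d R := by
  have a := dn (J := J) hd hw hk hx (J + 1 - j) (Nat.sub_le _ _)
  rw [show x + (J + 1 : ℕ) * w - ((J + 1 - j : ℕ) : ℂ) * w = x + j * w by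
    rw [Nat.cast_sub hj]; ring] at a
  refine (a.shift (t := μ / 4) hz).box hd ?_ (by linarith)
  have : (0 : ℝ) ≤ ((J + 1 - j : ℕ) : ℝ) * κ := by positivity
  linarith

theorem chain (hB : SBox) {μ κ D₀ : ℝ} {J : ℕ} {X : Set ℂ} (hY : Bl Y r₀ c C) (hd : 0 < d)
    (hR : 2 * R * d ≤ r₀) (hΦ : Calm Φ (Box r₀ s d R) (8 * d) ε) (hε0 : 0 ≤ ε)
    (hw : ‖w‖ = d) (hk : κ * d ≤ w.im) (hκ : 0 < κ) (hμ : 0 < μ) (hμ1 : μ ≤ 1) (hX : IsOpen X)
    (hin : ∀ x ∈ X, In r₀ s d (μ / 2) A (x + (J + 1 : ℕ) * w)) (h4 : A + J + D₀ + 3 < R)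
    (h5 : 1 < R) (h6 : 1 / R < μ / 4) (g1 : 2 < c * D₀) (g2 : 16 * C ≤ D₀) (g3 : 2 ≤ D₀)
    (g4 : 2 * D₀ ≤ J * κ) (g5 : 256 * ε ≤ μ)
    (g6 : C / D₀ + (J + 1) * (2 * C / D₀ ^ 2 + J * (5 * ε)) ≤ μ / 8) :
    ∃ y : ℕ → ℂ → ℂ, (∀ j ≤ J + 1, DifferentiableOn ℂ (y j) X) ∧ ∀ x ∈ X,
      (∀ j ≤ J + 1, y j x ∈ Box r₀ s d R) ∧ ‖y (J + 1) x - y J x - w‖ ≤ d / 4 ∧
      ∀ z : ℕ → ℂ, z 0 = Y (x, w) → z 1 = Y (x + w, w) →
        (∀ j < J, Φ (z (j + 1), z (j + 2)) + Φ (z (j + 1), z j) = 0 ∧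
          ‖z (j + 2) - (2 * z (j + 1) - z j)‖ < μ / 8 * d / 2) → ∀ j ≤ J + 1, z j = y j x := by
  have hC := hY.hC
  have hJ : (0 : ℝ) ≤ J := J.cast_nonneg
  have st : ∀ x ∈ X, In r₀ s d (2 * D₀) (A + J + 1) x ∧
      In r₀ s d D₀ (A + J + 1) (x + w) := fun x hx => by
    have a := dn (J := J) hd hw hk (hin _ hx) (J + 1) le_rfl
    have b := dn (J := J) hd hw hk (hin _ hx) J (Nat.le_succ J)
    rw [add_sub_cancel_right] at a
    rw [show x + (J + 1 : ℕ) * w - J * w = x + w by push_cast; ring] at b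
    exact ⟨a.mono hd (by push_cast; linarith) le_rfl, b.mono hd (by linarith) le_rfl⟩
  have w2 : ‖w‖ ≤ 2 * d := by linarith
  have r1 : A + J + 1 + 1 < R := by linarith
  have o0 := fun x hx => one (w := w) hY hd hR g1 g2 g3 r1 h5
    ((st x hx).1.mono hd (D' := D₀) (by linarith) le_rfl) w2
  have o1 := fun x hx => one (w := w) hY hd hR g1 g2 g3 r1 h5 (st x hx).2 w2
  have q0 : 0 ≤ 2 * C / D₀ ^ 2 + J * (5 * ε) := by positivity
  have q1 : 0 ≤ C / D₀ := by positivity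
  have n1 : 4 * (μ / 8 * d) ≤ ‖w‖ := by rw [hw]; nlinarith
  have n2 : 32 * ε * ‖w‖ ≤ μ / 8 * d := by rw [hw]; nlinarith
  have n3 : 2 * C * d / D₀ ^ 2 + J * (5 * ε * ‖w‖) ≤ ‖w‖ / 4 := by
    have e : 2 * C * d / D₀ ^ 2 + J * (5 * ε * d) = (2 * C / D₀ ^ 2 + J * (5 * ε)) * d := by ring
    have : 2 * C / D₀ ^ 2 + J * (5 * ε) ≤ 1 / 4 := by nlinarith [mul_nonneg hJ q0]
    rw [hw, e]
    nlinarith
  have n4 : C * d / D₀ + (J + 1) * (2 * C * d / D₀ ^ 2 + J * (5 * ε * ‖w‖)) ≤ μ / 4 * d / 2 := by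
    have e : C * d / D₀ + (J + 1) * (2 * C * d / D₀ ^ 2 + J * (5 * ε * d)) =
      (C / D₀ + (J + 1) * (2 * C / D₀ ^ 2 + J * (5 * ε))) * d := by ring
    rw [hw, e]
    linarith [mul_le_mul_of_nonneg_right g6 hd.le]
  have r2 : A + J + 1 + D₀ + 1 < R := by linarith
  have r3 : A + J + 3 < R := by linarith
  obtain ⟨y, dy, hy⟩ := hB Φ _ X w (fun x => Y (x, w)) (fun x => Y (x + w, w)) J
    (8 * d) ε (μ / 4 * d) (μ / 8 * d) (C * d / D₀) (2 * C * d / D₀ ^ 2) hΦ hX hε0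
    (by positivity) (by linarith) n1 (by linarith) n2 n3 n4
    (fun x hx => ((hY.d.differentiableAt (isOpen_Om.mem_nhds (o0 x hx).1)).comp x
      (f := fun y : ℂ => (y, w)) (by fun_prop)).differentiableWithinAt)
    (fun x hx => ((hY.d.differentiableAt (isOpen_Om.mem_nhds (o1 x hx).1)).comp x
      (f := fun y : ℂ => (y + w, w)) (by fun_prop)).differentiableWithinAt)
    (fun x hx => ⟨(o0 x hx).2.1.trans_eq (by rw [hw]; field_simp),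
      deep hY hd hR g1 g2 g3 r2 h5 (st x hx).1 hw⟩)
    (fun x hx j hj z hz => nb hd hw hk hκ hμ1 r3 h6 (hin x hx) hj (mem_ball_iff_norm.1 hz).le)
  have n5 : μ / 4 * d / 2 ≤ μ / 4 * d := by linarith [mul_pos hμ hd]
  exact ⟨y, dy, fun x hx => ⟨fun j hj => nb hd hw hk hκ hμ1 r3 h6 (hin x hx) hj
    (((hy x hx).1 j hj).trans n5), hw ▸ (hy x hx).2.1 J le_rfl, (hy x hx).2.2⟩⟩

/-- the true orbit at a deep point -/
theorem orbit {μ : ℝ} {J : ℕ} (hY : Bl Y r₀ c C) (hd : 0 < d) (hR : 2 * R * d ≤ r₀)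
    (law : ∀ x w : ℂ, w ≠ 0 → ‖w‖ ≤ 2 * d → (x - w, w) ∈ Om r₀ c → (x, w) ∈ Om r₀ c →
      (x + w, w) ∈ Om r₀ c → Y (x - w, w) ∈ Box r₀ s d R → Y (x, w) ∈ Box r₀ s d R →
      Y (x + w, w) ∈ Box r₀ s d R →
      Φ (Y (x, w), Y (x + w, w)) + Φ (Y (x, w), Y (x - w, w)) = 0)
    (hw : ‖w‖ = d) (hk : 0 ≤ w.im) (hμ1 : μ ≤ 1)
    (a : In r₀ s d (D + 1) A (x + (J + 1 : ℕ) * w))
    (h1 : 2 < c * D) (h2 : 64 * C < μ * D) (h3 : 2 ≤ D) (h4 : A + J + 2 < R) (h5 : 1 < R)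
    {j : ℕ} (hj : j ≤ J) :
    Φ (Y (x + (j + 1 : ℕ) * w, w), Y (x + (j + 2 : ℕ) * w, w)) +
      Φ (Y (x + (j + 1 : ℕ) * w, w), Y (x + j * w, w)) = 0 ∧
    ‖Y (x + (j + 2 : ℕ) * w, w) - (2 * Y (x + (j + 1 : ℕ) * w, w) - Y (x + j * w, w))‖ <
      μ / 8 * d / 2 := by
  have hC := hY.hC
  have hJ : (0 : ℝ) ≤ J := J.cast_nonneg
  have w0 : w ≠ 0 := norm_pos_iff.1 (hw ▸ hd)
  have h2' : 16 * C ≤ D := by nlinarith
  have pt : ∀ j : ℕ, j ≤ J + 2 → In r₀ s d D (A + J + 1) (x + j * w) := fun j hj => by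
    rcases hj.eq_or_lt with rfl | hj
    · have := a.shift (t := 1) (y := x + ((J + 2 : ℕ) : ℂ) * w)
        (by rw [show x + ((J + 2 : ℕ) : ℂ) * w - (x + (J + 1 : ℕ) * w) = w by push_cast; ring, hw]
            simp)
      exact this.mono hd (by linarith) (by linarith)
    · have hj' : j ≤ J + 1 := by omega
      have := dn (J := J) (κ := 0) hd hw (by simpa using hk) a (J + 1 - j) (Nat.sub_le _ _)
      rw [show x + (J + 1 : ℕ) * w - ((J + 1 - j : ℕ) : ℂ) * w = x + j * w by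
        rw [Nat.cast_sub hj']; ring] at this
      exact this.mono hd (by linarith) le_rfl
  have w2 : ‖w‖ ≤ 2 * d := by linarith
  have r1 : A + J + 1 + 1 < R := by linarith
  have o := fun j hj => one (w := w) hY hd hR h1 h2' h3 r1 h5 (pt j hj) w2
  obtain ⟨a0, b0, -, c0⟩ := o j (by omega)
  obtain ⟨a1, b1, -, c1⟩ := o (j + 1) (by omega)
  obtain ⟨a2, b2, -, c2⟩ := o (j + 2) (by omega)
  have e1 : x + (j + 1 : ℕ) * w - w = x + j * w := by push_cast; ring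
  have e2 : x + (j + 1 : ℕ) * w + w = x + (j + 2 : ℕ) * w := by push_cast; ring
  have := law (x + (j + 1 : ℕ) * w) w w0 w2
  rw [e1, e2] at this
  refine ⟨this a0 a1 a2 c0 c1 c2, ?_⟩
  have e : C * ‖w‖ ^ 2 / (D * d) < μ / 64 * d := by
    rw [hw, div_lt_iff₀ (by positivity)]
    nlinarith [mul_pos hd hd]
  have e' : Y (x + (j + 2 : ℕ) * w, w) - (2 * Y (x + (j + 1 : ℕ) * w, w) -
      Y (x + j * w, w)) = (Y (x + (j + 2 : ℕ) * w, w) - (x + (j + 2 : ℕ) * w)) -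
      2 * (Y (x + (j + 1 : ℕ) * w, w) - (x + (j + 1 : ℕ) * w)) +
      (Y (x + j * w, w) - (x + j * w)) := by push_cast; ring
  rw [e']
  refine (norm_add_le _ _).trans_lt ?_
  refine (add_le_add_left (norm_sub_le _ _) _).trans_lt ?_
  rw [norm_mul, Complex.norm_ofNat]
  linarith

theorem thick (hB : SBox) {μ κ D₀ τ : ℝ} {J : ℕ} {x₁ : ℂ} (hY : Bl Y r₀ c C) (hd : 0 < d)
    (hR : 2 * R * d ≤ r₀) (hΦ : Calm Φ (Box r₀ s d R) (8 * d) ε) (hε0 : 0 ≤ ε) (hε : ε ≤ 1)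
    (law : ∀ x w : ℂ, w ≠ 0 → ‖w‖ ≤ 2 * d → (x - w, w) ∈ Om r₀ c → (x, w) ∈ Om r₀ c →
      (x + w, w) ∈ Om r₀ c → Y (x - w, w) ∈ Box r₀ s d R → Y (x, w) ∈ Box r₀ s d R →
      Y (x + w, w) ∈ Box r₀ s d R →
      Φ (Y (x, w), Y (x + w, w)) + Φ (Y (x, w), Y (x - w, w)) = 0)
    (hΨ : ∀ b ∈ Box r₀ s d R, ∀ l : ℂ, ‖l‖ ≤ 8 * d → AnalyticAt ℂ Ψ (b, l) ∧ ‖Ψ (b, l)‖ ≤ M)
    (hw : ‖w‖ = d) (hk : κ * d ≤ w.im) (hκ : 0 < κ) (hμ : 0 < μ) (hμ1 : μ ≤ 1) (hτ : 0 < τ)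
    (hin : ∀ x ∈ ball x₁ τ, In r₀ s d (μ / 2) A x) (hin' : In r₀ s d (D + 2) A x₁)
    (h1 : 2 < c * D) (h2 : 64 * C < μ * D) (h3 : 2 ≤ D) (h4 : A + J + D₀ + 3 < R)
    (h5 : 1 < R) (h6 : 1 / R < μ / 4) (g1 : 2 < c * D₀) (g2 : 16 * C ≤ D₀) (g3 : 2 ≤ D₀)
    (g4 : 2 * D₀ ≤ J * κ) (g5 : 256 * ε ≤ μ)
    (g6 : C / D₀ + (J + 1) * (2 * C / D₀ ^ 2 + J * (5 * ε)) ≤ μ / 8) :
    ∃ G : ℂ → ℂ, DifferentiableOn ℂ G (ball x₁ τ) ∧ (∀ x ∈ ball x₁ τ, ‖G x‖ ≤ M) ∧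
      ∀ᶠ x in 𝓝 x₁, G x = H Φ Y Ψ (x, w) := by
  obtain ⟨u, hu⟩ : ∃ u : ℂ, u = ((J + 1 : ℕ) : ℂ) * w := ⟨_, rfl⟩
  have tr : ∀ x ∈ ball (x₁ - u) τ, x + u ∈ ball x₁ τ := fun x hx => by
    rw [mem_ball_iff_norm] at *
    convert hx using 2
    ring
  obtain ⟨y, dy, hy⟩ := chain (X := ball (x₁ - u) τ) hB hY hd hR hΦ hε0 hw hk hκ hμ hμ1 isOpen_ball
    (fun x hx => hu ▸ hin _ (tr x hx)) h4 h5 h6 g1 g2 g3 g4 g5 g6
  have tr' : ∀ x ∈ ball x₁ τ, x - u ∈ ball (x₁ - u) τ := fun x hx => by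
    rw [mem_ball_iff_norm] at *
    convert hx using 2
    ring
  have fin : ∀ x ∈ ball (x₁ - u) τ, DifferentiableAt ℂ
      (fun x => Ψ (y (J + 1) x, -(Φ (y (J + 1) x, y J x) / 2))) x ∧
      ‖Ψ (y (J + 1) x, -(Φ (y (J + 1) x, y J x) / 2))‖ ≤ M := fun x hx => by
    have e := (hy x hx).2.1
    have le : ‖y J x - y (J + 1) x‖ ≤ 8 * d := by
      rw [norm_sub_rev]
      linarith [norm_le_norm_sub_add (y (J + 1) x - y J x) w]
    have ne : y J x ≠ y (J + 1) x := fun k => by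
      rw [k, sub_self, zero_sub, norm_neg] at e
      linarith
    have b1 := (hy x hx).1 (J + 1) le_rfl
    have b0 := (hy x hx).1 J (Nat.le_succ J)
    have hl := hΨ _ b1 (-(Φ (y (J + 1) x, y J x) / 2))
      (by rw [norm_neg]; exact (half hΦ hε b1 b0 le).trans le)
    have d1 := (dy (J + 1) le_rfl).differentiableAt (isOpen_ball.mem_nhds hx)
    have d0 := (dy J (Nat.le_succ J)).differentiableAt (isOpen_ball.mem_nhds hx)
    have dΦ : DifferentiableAt ℂ (fun x => Φ (y (J + 1) x, y J x)) x :=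
      ((hΦ _ b1 _ b0 le).2 ne).differentiableAt.comp x (f := fun x => (y (J + 1) x, y J x))
        (d1.prodMk d0)
    exact ⟨hl.1.differentiableAt.comp x
      (f := fun x => (y (J + 1) x, -(Φ (y (J + 1) x, y J x) / 2)))
      (d1.prodMk (dΦ.div_const 2).neg), hl.2⟩
  refine ⟨fun x => Ψ (y (J + 1) (x - u), -(Φ (y (J + 1) (x - u), y J (x - u)) / 2)),
    fun x hx => ((fin _ (tr' x hx)).1.comp x (f := fun x => x - u)
      (by fun_prop)).differentiableWithinAt, fun x hx => (fin _ (tr' x hx)).2, ?_⟩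
  filter_upwards [ball_mem_nhds x₁ hτ, ball_mem_nhds x₁ hd] with x hx hx'
  have e1 : x - u + (J + 1 : ℕ) * w = x := by rw [hu]; ring
  have e2 : x - u + (J + 2 : ℕ) * w = x + w := by rw [hu]; push_cast; ring
  have a : In r₀ s d (D + 1) (A + 1) (x - u + (J + 1 : ℕ) * w) := by
    have := hin'.shift (t := 1) (y := x) (by rw [one_mul]; exact (mem_ball_iff_norm.1 hx').le)
    rwa [show D + 2 - 1 = D + 1 by ring, ← e1] at this
  have lw := fun j hj => orbit (j := j) hY hd hR law hw ((mul_pos hκ hd).le.trans hk) hμ1 a h1 h2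
    h3 (by linarith) h5 hj
  have un := (hy _ (tr' x hx)).2.2 (fun j => Y (x - u + j * w, w)) (by simp) (by simp)
    (fun j hj => lw j hj.le)
  have l := (lw J le_rfl).1
  rw [← un (J + 1) le_rfl, ← un J (Nat.le_succ J)]
  simp only [e1, e2] at l ⊢
  rw [H, eq_neg_of_add_eq_zero_left l, neg_div]

end Vale.Agent.P097N.Core
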