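import Vale.Agent.P097N.Defs

/-!
# P097N: the form of no calm disc which only uses the angle
-/

set_option linter.all false

noncomputable section

namespace Vale.Agent.P097N

open Filter Topology Set Metric

/-- `exp (2 i θ)` continues over the top line. -/
def Over1 (θ : ℂ → ℂ) (r₀ : ℝ) : Prop := ∃ (ζ : ℂ) (ρ : ℝ) (F₁ : ℂ → ℂ), ζ.im = r₀ ∧ 0 < ρ ∧
  DifferentiableOn ℂ F₁ (ball ζ ρ) ∧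
  ∀ y ∈ ball ζ ρ, y ∈ St r₀ → F₁ y = Complex.exp (2 * Complex.I * θ y)

/-- no calm disc near the top line. -/
def SNoCalm1 : Prop := ∀ (θ h Q : ℂ → ℂ) (Y : ℂ × ℂ → ℂ) (c : ℂ) (r₀ A η ε M : ℝ), η ≤ r₀ →
  Cv θ h Q c (St r₀) → Gr θ Q r₀ A → Col Y η ε M →
  (∀ x ∈ St η, ∀ w ∈ ball (0 : ℂ) ε, x - w ∈ St η → x + w ∈ St η →
    Y (x - w, w) ∈ St r₀ → Y (x, w) ∈ St r₀ → Y (x + w, w) ∈ St r₀ →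
    EE θ h (Y (x - w, w)) (Y (x, w)) (Y (x + w, w)) = 0) →
  ¬ Over1 θ r₀ → ∃ ε₁ d₁ : ℝ, 0 < ε₁ ∧ 0 < d₁ ∧ ∀ y₀ : ℂ, y₀.im < r₀ → r₀ - y₀.im < d₁ →
    ∃ y ∈ ball y₀ ((r₀ - y₀.im) / 8), ε₁ < ‖deriv θ y‖ * (r₀ - y₀.im) ∨
      ε₁ < ‖Q y‖ * (r₀ - y₀.im) ^ 2

end Vale.Agent.P097N
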